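import Vale.Agent.H2.P012.L_A0

namespace Vale.Agent.H2.P012

open Finset

/-- Two good numerators add up to anything close to `3N`. -/
theorem pigeonhole (N n : ℕ) (GG : Finset ℕ) (hGG : GG ⊆ Ico N (2 * N)) (hc : 3 * N ≤ 4 * GG.card)
    (hN : 1000 ≤ N) (h1 : 29 * N ≤ 10 * n) (h2 : n ≤ 3 * N) :
    ∃ x ∈ GG, ∃ y ∈ GG, x + y = n := by
  classical
  by_contra hcon
  push Not at hcon
  set A := GG.filter (fun x => x + N ≤ n) with hA
  set B := (A.image (fun x => n - x)) with hB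
  have hBsub : B ⊆ Icc N (2 * N) \ GG := by
    intro z hz
    obtain ⟨x, hx, rfl⟩ := Finset.mem_image.1 hz
    have hx1 := (Finset.mem_filter.1 hx).1
    have hx2 := (Finset.mem_filter.1 hx).2
    have hx3 := Finset.mem_Ico.1 (hGG hx1)
    rw [Finset.mem_sdiff, Finset.mem_Icc]
    refine ⟨⟨by omega, by omega⟩, ?_⟩
    intro hz2
    exact hcon x hx1 (n - x) hz2 (by omega)
  have hinj : B.card = A.card := by
    apply Finset.card_image_of_injOn
    intro x hx y hy hxy
    have hx1 := (Finset.mem_filter.1 (Finset.mem_coe.1 hx)).2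
    have hy1 := (Finset.mem_filter.1 (Finset.mem_coe.1 hy)).2
    simp only at hxy
    omega
  have hGG' : GG ⊆ Icc N (2 * N) := hGG.trans (fun x hx => by
    have := Finset.mem_Ico.1 hx
    exact Finset.mem_Icc.2 ⟨this.1, by omega⟩)
  have h3 : B.card + GG.card ≤ N + 1 := by
    have e1 := Finset.card_le_card hBsub
    rw [Finset.card_sdiff_of_subset hGG', Nat.card_Icc] at e1
    have e2 := Finset.card_le_card hGG'
    rw [Nat.card_Icc] at e2
    omega
  have h4 : GG.card ≤ A.card + (3 * N - n) := by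
    have e1 : GG ⊆ A ∪ Ioo (n - N) (2 * N) := by
      intro x hx
      have hx3 := Finset.mem_Ico.1 (hGG hx)
      rw [Finset.mem_union, Finset.mem_filter, Finset.mem_Ioo]
      by_cases h : x + N ≤ n
      · exact Or.inl ⟨hx, h⟩
      · exact Or.inr ⟨by omega, hx3.2⟩
    have e2 := (Finset.card_le_card e1).trans (Finset.card_union_le _ _)
    rw [Nat.card_Ioo] at e2
    omega
  omega

theorem UF_near_three (V N K1 : ℕ) (GG : Finset ℕ) (hGG : GG ⊆ Ico N (2 * N))
    (hc : 3 * N ≤ 4 * GG.card) (hN : 1000 ≤ N)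
    (hG : ∀ n ∈ GG, ∀ G : ℕ, 0 < G → UF ((n : ℚ) / ((V : ℚ) * (G : ℚ))) K1)
    (n G : ℕ) (hG0 : 0 < G) (h1 : 29 * N ≤ 10 * n) (h2 : n ≤ 3 * N) :
    UF ((n : ℚ) / ((V : ℚ) * (G : ℚ))) (2 * K1) := by
  obtain ⟨x, hx, y, hy, rfl⟩ := pigeonhole N n GG hGG hc hN h1 h2
  have := (hG x hx G hG0).add (hG y hy G hG0)
  rw [← add_div, ← two_mul] at this
  simpa using this

/-- The digit process. -/
theorem UF_process (V q N B K1 : ℕ) (hV : 0 < V) (hq : 2 ≤ q) (hN : 1000 ≤ N)
    (hP : ∀ ρ, ∃ d : Fin 8 → ℕ, (∀ l, d l ∣ V) ∧ (∀ l, d l ≤ B) ∧ ∑ l, d l ≡ ρ [MOD q])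
    (hG : ∀ n G : ℕ, 0 < G → 29 * N ≤ 10 * n → n ≤ 3 * N → UF ((n : ℚ) / ((V : ℚ) * (G : ℚ))) K1)
    (L : ℕ) (hL : 29 * N ≤ 10 * L) (k : ℕ) :
    ∀ n G : ℕ, 0 < G → (L + 8 * B) * q ^ k ≤ n + 8 * B → n ≤ 3 * N * q ^ k →
      UF ((n : ℚ) / ((V : ℚ) * (q : ℚ) ^ k * (G : ℚ))) (K1 + 8 * k) := by
  induction k with
  | zero =>
    intro n G hG0 h1 h2
    rw [pow_zero, mul_one] at h1
    have h3 : 29 * N ≤ 10 * n := by omega
    simpa using hG n G hG0 h3 (by simpa using h2)
  | succ k ih =>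
    intro n G hG0 h1 h2
    obtain ⟨d, hd1, hd2, hd3⟩ := hP n
    have hsum : ∑ l, d l ≤ 8 * B := by
      calc ∑ l, d l ≤ ∑ _l : Fin 8, B := Finset.sum_le_sum (fun l _ => hd2 l)
        _ = 8 * B := by simp
    have hqk : 1 ≤ q ^ k := Nat.one_le_pow _ _ (by omega)
    have hqk1 : 2 ≤ q ^ (k + 1) := by
      rw [pow_succ]; nlinarith
    have hnge : ∑ l, d l ≤ n := by
      have : (L + 8 * B) * 2 ≤ n + 8 * B := le_trans (Nat.mul_le_mul_left _ hqk1) h1
      omega
    obtain ⟨n', hn'⟩ : q ∣ n - ∑ l, d l := (Nat.modEq_iff_dvd' hnge).1 hd3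
    have hn : n = q * n' + ∑ l, d l := by omega
    have key := ih n' G hG0 ?_ ?_
    · have hq0 : (q : ℚ) ≠ 0 := by positivity
      have hV0 : (V : ℚ) ≠ 0 := by positivity
      have hG0' : (G : ℚ) ≠ 0 := by positivity
      have e1 : ((n : ℚ) / ((V : ℚ) * (q : ℚ) ^ (k + 1) * (G : ℚ))) =
          (n' : ℚ) / ((V : ℚ) * (q : ℚ) ^ k * (G : ℚ)) +
            ∑ l, ((d l : ℕ) : ℚ) / ((V * (q ^ (k + 1) * G) : ℕ) : ℚ) := by
        rw [← Finset.sum_div, hn]
        push_cast
        field_simp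
        ring
      rw [e1]
      have h8 : UF (∑ l, ((d l : ℕ) : ℚ) / ((V * (q ^ (k + 1) * G) : ℕ) : ℚ)) (8 * 1) := by
        have := UF.sum (Finset.univ : Finset (Fin 8))
          (fun l => ((d l : ℕ) : ℚ) / ((V * (q ^ (k + 1) * G) : ℕ) : ℚ)) 1
          (fun l _ => UF.of_dvd (by positivity) ((hd1 l).trans (dvd_mul_right _ _)))
        simpa using this
      have := key.add h8
      exact this.mono (by omega)
    · -- lower bound
      have h5 : q * ((L + 8 * B) * q ^ k) ≤ q * (n' + 8 * B) := by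
        have h6 : (L + 8 * B) * q ^ (k + 1) = q * ((L + 8 * B) * q ^ k) := by ring
        rw [← h6]
        calc (L + 8 * B) * q ^ (k + 1) ≤ n + 8 * B := h1
          _ = q * n' + ∑ l, d l + 8 * B := by rw [← hn]
          _ ≤ q * n' + 2 * (8 * B) := by omega
          _ ≤ q * n' + q * (8 * B) := by
              have := Nat.mul_le_mul_right (8 * B) hq
              omega
          _ = q * (n' + 8 * B) := by ring
      exact Nat.le_of_mul_le_mul_left h5 (by omega)
    · have h5 : q * n' ≤ q * (3 * N * q ^ k) := by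
        calc q * n' ≤ n := by omega
          _ ≤ 3 * N * q ^ (k + 1) := h2
          _ = q * (3 * N * q ^ k) := by ring
      exact Nat.le_of_mul_le_mul_left h5 (by omega)

/-- Assembly: from a greedy remainder to a short expansion. -/
theorem UF_of_remainder (V q N B K1 : ℕ) (hV : 0 < V) (hq : 2 ≤ q) (hB : 1000 * B ≤ N)
    (hN : 1000 ≤ N)
    (hP : ∀ ρ, ∃ d : Fin 8 → ℕ, (∀ l, d l ∣ V) ∧ (∀ l, d l ≤ B) ∧ ∑ l, d l ≡ ρ [MOD q])
    (hG : ∀ n G : ℕ, 0 < G → 29 * N ≤ 10 * n → n ≤ 3 * N →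
      UF ((n : ℚ) / ((V : ℚ) * (G : ℚ))) K1)
    (c D k : ℕ) (hc : 0 < c) (hD : 1000 ≤ D) (hcD : 100 * (c * V) ≤ D)
    (hk : 20 * D ≤ N * q ^ k) :
    UF ((c : ℚ) / (D : ℚ)) (2 * (K1 + 8 * k)) := by
  set L := 3 * N - N / 10 with hL
  have hL1 : 29 * N ≤ 10 * L := by omega
  -- the multiplier
  set M := (3 * N * D) / (c * V) with hM
  have hcV : 0 < c * V := Nat.mul_pos hc hV
  have hM1 : c * V * M ≤ 3 * N * D := Nat.mul_div_le _ _
  have hM2 : 3 * N * D < c * V * M + c * V := by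
    have := Nat.lt_mul_div_succ (3 * N * D) hcV
    rw [Nat.mul_succ] at this
    exact this
  have hMpos : 0 < M := by
    apply Nat.div_pos _ hcV
    nlinarith
  set Q := q ^ k with hQ
  have hQ1 : 1 ≤ Q := Nat.one_le_pow _ _ (by omega)
  set z := c * (V * Q * M) with hz
  set w := 3 * N * Q with hw
  -- bounds for z
  have hz1 : z ≤ w * D := by
    calc z = (c * V * M) * Q := by rw [hz]; ring
      _ ≤ (3 * N * D) * Q := Nat.mul_le_mul_right _ hM1
      _ = w * D := by rw [hw]; ring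
  have hz2 : 100 * (w * D) ≤ 100 * z + D * Q := by
    calc 100 * (w * D) = 100 * (3 * N * D) * Q := by rw [hw]; ring
      _ ≤ 100 * (c * V * M + c * V) * Q := by
          apply Nat.mul_le_mul_right
          omega
      _ = 100 * z + (100 * (c * V)) * Q := by rw [hz]; ring
      _ ≤ 100 * z + D * Q := by
          have := Nat.mul_le_mul_right Q hcD
          omega
  have hwz : w ≤ z := by
    have h1 : Q ≤ w := by
      rw [hw]
      exact Nat.le_mul_of_pos_left _ (by omega)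
    have h2 : 1000 * w ≤ w * D := by
      rw [mul_comm w D]
      exact Nat.mul_le_mul_right _ hD
    have h3 : D * Q ≤ w * D := by
      rw [mul_comm w D]
      exact Nat.mul_le_mul_left _ h1
    omega
  set s := (z - w) / D + 1 with hs
  have hDpos : 0 < D := by omega
  have hs1 : D * s ≤ z - w + D := by
    rw [hs, Nat.mul_succ]
    have := Nat.mul_div_le (z - w) D
    omega
  have hs2 : z - w < D * s := by
    rw [hs]
    exact Nat.lt_mul_div_succ _ hDpos
  have hDw : 20 * D ≤ w := by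
    rw [hw, mul_assoc]
    omega
  have hsz : D * s ≤ z := by omega
  set r := z - D * s with hr
  have hr1 : r < w := by omega
  have hr2 : w ≤ r + D := by omega
  have key := UF_process V q N B K1 hV hq hN hP hG L hL1 k
  -- range for r
  have hrange : (L + 8 * B) * Q ≤ r + 8 * B := by
    have h1 : 20 * (L + 8 * B) ≤ 59 * N := by omega
    have h2 : 20 * ((L + 8 * B) * Q) ≤ 59 * N * Q := by
      rw [← mul_assoc]
      exact Nat.mul_le_mul_right _ h1
    have h3 : 20 * w = 60 * N * Q := by rw [hw]; ring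
    have h4 : 59 * N * Q + N * Q = 60 * N * Q := by ring
    omega
  have hsrange1 : s ≤ w := by
    have h1 : D * s ≤ D * w := by
      calc D * s ≤ z := hsz
        _ ≤ w * D := hz1
        _ = D * w := by ring
    exact Nat.le_of_mul_le_mul_left h1 hDpos
  have hsrange2 : (L + 8 * B) * Q ≤ s + 8 * B := by
    have h1 : 20 * (L + 8 * B) ≤ 59 * N := by omega
    have h2 : 20 * ((L + 8 * B) * Q) ≤ 59 * N * Q := by
      rw [← mul_assoc]
      exact Nat.mul_le_mul_right _ h1
    have h3 : 20 * w = 60 * N * Q := by rw [hw]; ring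
    -- `D * s ≥ z - w`, `100 z ≥ 100 w D - D Q`
    have h5 : 100 * (w * D) ≤ 100 * (D * s) + 100 * w + D * Q := by omega
    have h6 : 1000 * w ≤ w * D := by
      rw [mul_comm w D]
      exact Nat.mul_le_mul_right _ hD
    have h7 : 1000 * Q ≤ w := by
      rw [hw]
      exact Nat.mul_le_mul_right _ (by omega)
    -- so  w D (1 - 1/1000) ≤ D s + D Q / 100
    have h8 : D * (999 * w) ≤ D * (1000 * s + 10 * Q) := by
      calc D * (999 * w) = 999 * (w * D) := by ring
        _ ≤ 1000 * (D * s) + 10 * (D * Q) := by omega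
        _ = D * (1000 * s + 10 * Q) := by ring
    have h9 : 999 * w ≤ 1000 * s + 10 * Q := Nat.le_of_mul_le_mul_left h8 hDpos
    have h10 : 59 * N * Q + N * Q = 60 * N * Q := by ring
    have h11 : 3 * (N * Q) = w := by rw [hw]; ring
    omega
  have e1 : (c : ℚ) / (D : ℚ) =
      (s : ℚ) / ((V : ℚ) * (q : ℚ) ^ k * (M : ℚ)) +
        (r : ℚ) / ((V : ℚ) * (q : ℚ) ^ k * ((M * D : ℕ) : ℚ)) := by
    have hq0 : (q : ℚ) ≠ 0 := by positivity
    have hV0 : (V : ℚ) ≠ 0 := by positivity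
    have hM0 : (M : ℚ) ≠ 0 := by positivity
    have hD0 : (D : ℚ) ≠ 0 := by positivity
    have hzz : (z : ℚ) = (D : ℚ) * s + r := by
      have : z = D * s + r := by omega
      rw [this]; push_cast; ring
    have hzz2 : (z : ℚ) = (c : ℚ) * ((V : ℚ) * (q : ℚ) ^ k * (M : ℚ)) := by
      rw [hz, hQ]; push_cast; ring
    rw [hzz2] at hzz
    push_cast
    field_simp
    linear_combination hzz
  rw [e1]
  have k1 := key s M hMpos hsrange2 hsrange1
  have k2 := key r (M * D) (Nat.mul_pos hMpos hDpos) hrange hr1.le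
  exact (k1.add k2).mono (by omega)

end Vale.Agent.H2.P012
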