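import Mathlib

/-! Shared definitions for the proof that `N(b) ≪ log log b`. -/

namespace Vale.Agent.H2.P012

open Finset

/-- `UF x k`: the rational `x` is a sum of at most `k` unit fractions (repetitions allowed). -/
def UF (x : ℚ) (k : ℕ) : Prop :=
  ∃ l : Multiset ℕ, (∀ n ∈ l, 0 < n) ∧ Multiset.card l ≤ k ∧
    (l.map (fun n : ℕ => (1 : ℚ) / (n : ℚ))).sum = x

/-- The collision probability of `f` modulo `r` (for `r = 0`: the probability of equality). -/
noncomputable def cp {ι : Type} [Fintype ι] (f : ι → ℕ) (r : ℕ) : ℝ :=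
  (((univ : Finset (ι × ι)).filter (fun p => f p.1 ≡ f p.2 [MOD r])).card : ℝ) /
    (Fintype.card ι : ℝ) ^ 2

/-- The product of the atoms selected by `J`, one from each row. -/
def atomProd {P : Finset ℕ} {m g : ℕ} (v : Fin m → Fin g → P) (J : Fin m → Fin g) : ℕ :=
  ∏ i, (v i (J i) : ℕ)

/-- The product of all atoms. -/
def atomTotal {P : Finset ℕ} {m g : ℕ} (v : Fin m → Fin g → P) : ℕ :=
  ∏ i, ∏ j, (v i j : ℕ)

/-- Digit sums `∑ q ^ i * f (w i)`. -/
def digitSum {ι : Type} (q K : ℕ) (f : ι → ℕ) (w : Fin K → ι) : ℕ :=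
  ∑ i : Fin K, q ^ (i : ℕ) * f (w i)

end Vale.Agent.H2.P012
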