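import Vale.Agent.H2.P012.Level

namespace Vale.Agent.H2.P012

open Finset

/-- Existence of an expansion for every proper fraction. -/
theorem exists_expansion (a b : ℕ) (ha : 1 ≤ a) (hab : a < b) :
    ∃ s : Finset ℕ, (∀ n ∈ s, 2 ≤ n) ∧ (a : ℚ) / b = ∑ n ∈ s, (1 : ℚ) / (n : ℚ) := by
  have h : UF ((a : ℚ) / b) a := by
    refine ⟨Multiset.replicate a b, ?_, by simp, ?_⟩
    · intro n hn
      rw [Multiset.eq_of_mem_replicate hn]
      omega
    · rw [Multiset.map_replicate, Multiset.sum_replicate, nsmul_eq_mul, mul_one_div]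
  obtain ⟨s, h1, _, h3⟩ := UF.exists_distinct ha hab h
  exact ⟨s, h1, h3.symm⟩

/-- Short expansions: `log log` many terms. -/
theorem short_expansion : ∃ C : ℝ, 0 < C ∧ ∃ b0 : ℕ, ∀ b ≥ b0, ∀ a : ℕ, 1 ≤ a → a < b →
    ∃ s : Finset ℕ, (∀ n ∈ s, 2 ≤ n) ∧ (a : ℚ) / b = ∑ n ∈ s, (1 : ℚ) / (n : ℚ) ∧
      (s.card : ℝ) ≤ C * Real.log (Real.log b) := by
  obtain ⟨C, i0, hL⟩ := level
  refine ⟨C * (i0 + 2) + 1, by positivity, 1000 + ⌈Real.exp (Real.exp 1)⌉₊, ?_⟩
  intro b hb a ha hab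
  have hb1000 : 1000 ≤ b := by omega
  have hbe : Real.exp (Real.exp 1) ≤ b := by
    refine (Nat.le_ceil _).trans ?_
    have : ⌈Real.exp (Real.exp 1)⌉₊ ≤ b := by omega
    exact_mod_cast this
  have hb0 : (0 : ℝ) < b := by positivity
  have hlog1 : Real.exp 1 ≤ Real.log b := by
    rw [Real.le_log_iff_exp_le hb0]
    exact hbe
  have hlogpos : 0 < Real.log b := lt_of_lt_of_le (Real.exp_pos 1) hlog1
  have hll1 : 1 ≤ Real.log (Real.log b) := by
    rw [Real.le_log_iff_exp_le hlogpos]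
    exact hlog1
  set i := ⌈Real.log (Real.log b)⌉₊ + i0 with hi
  have hiR : Real.log (Real.log b) ≤ i := by
    calc Real.log (Real.log b) ≤ (⌈Real.log (Real.log b)⌉₊ : ℝ) := Nat.le_ceil _
      _ ≤ i := by rw [hi]; push_cast; linarith [Nat.cast_nonneg (α := ℝ) i0]
  have hbi : b ≤ 2 ^ 2 ^ (128 * i) := by
    have h1 : Real.log b ≤ Real.exp i := by
      rw [← Real.log_le_iff_le_exp hlogpos]
      exact hiR
    have h2 : Real.exp i ≤ (4 : ℝ) ^ i := by
      rw [← Real.exp_one_pow]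
      have : Real.exp 1 ≤ 4 := by
        have := Real.exp_one_lt_d9
        linarith
      exact pow_le_pow_left₀ (Real.exp_pos 1).le this i
    have hi1 : 1 ≤ i := by
      have : (1 : ℝ) ≤ i := hll1.trans hiR
      exact_mod_cast this
    have h3 : (4 : ℝ) ^ i ≤ (2 : ℝ) ^ (128 * i) * Real.log 2 := by
      have h4 : (2 : ℝ) ^ (128 * i) = 4 ^ i * 2 ^ (126 * i) := by
        rw [show (4 : ℝ) = 2 ^ 2 by norm_num, ← pow_mul, ← pow_add]
        congr 1
        ring
      rw [h4]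
      have h5 : (2 : ℝ) ≤ 2 ^ (126 * i) := by
        calc (2 : ℝ) = 2 ^ 1 := by norm_num
          _ ≤ _ := pow_le_pow_right₀ (by norm_num) (by omega)
      have h6 : 1 / 2 ≤ Real.log 2 := by
        have := Real.log_two_gt_d9
        linarith
      have h7 : (0 : ℝ) < 4 ^ i := by positivity
      have h8 : 1 ≤ 2 ^ (126 * i) * Real.log 2 := by nlinarith
      calc (4 : ℝ) ^ i = 4 ^ i * 1 := by ring
        _ ≤ 4 ^ i * (2 ^ (126 * i) * Real.log 2) := mul_le_mul_of_nonneg_left h8 h7.le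
        _ = _ := by ring
    have h9 : Real.log b ≤ Real.log ((2 : ℝ) ^ (2 ^ (128 * i))) := by
      rw [Real.log_pow]
      push_cast
      linarith
    have h10 : (b : ℝ) ≤ (2 : ℝ) ^ (2 ^ (128 * i)) :=
      (Real.log_le_log_iff hb0 (by positivity)).1 h9
    exact_mod_cast h10
  have hUF := hL i (by omega) a b (by omega) hab hb1000 hbi
  obtain ⟨s, h1, h2, h3⟩ := UF.exists_distinct (by omega) hab hUF
  refine ⟨s, h1, h3.symm, ?_⟩
  have h4 : (s.card : ℝ) ≤ C * i := by exact_mod_cast h2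
  have h5 : (i : ℝ) ≤ (i0 + 2) * Real.log (Real.log b) := by
    have h6 : (⌈Real.log (Real.log b)⌉₊ : ℝ) < Real.log (Real.log b) + 1 :=
      Nat.ceil_lt_add_one (by linarith)
    rw [hi]
    push_cast
    have h7 : (0 : ℝ) ≤ i0 := by positivity
    nlinarith
  have h8 : (0 : ℝ) ≤ C := by positivity
  calc (s.card : ℝ) ≤ C * i := h4
    _ ≤ C * ((i0 + 2) * Real.log (Real.log b)) := mul_le_mul_of_nonneg_left h5 h8
    _ ≤ (C * (i0 + 2) + 1) * Real.log (Real.log b) := by nlinarith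

/-- Every expansion of `(b-1)/b` has at least `c log log b` terms. -/
theorem long_expansion : ∃ c : ℝ, 0 < c ∧ ∃ b0 : ℕ, 2 ≤ b0 ∧ ∀ b ≥ b0, ∀ s : Finset ℕ,
    (∀ n ∈ s, 2 ≤ n) → ((b - 1 : ℕ) : ℚ) / b = ∑ n ∈ s, (1 : ℚ) / (n : ℚ) →
      c * Real.log (Real.log b) ≤ (s.card : ℝ) := by
  refine ⟨1 / 10, by norm_num, 3, by norm_num, ?_⟩
  intro b hb s hs hsum
  set k := s.card with hk
  have hbk : b ≤ (2 * k + 2) ^ (2 ^ (k + 1)) := by
    have hle : (2 * k + 2) ^ (2 ^ k - 1) ≤ (2 * k + 2) ^ (2 ^ (k + 1)) := by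
      apply Nat.pow_le_pow_right (by omega)
      have h1 : 2 ^ (k + 1) = 2 ^ k + 2 ^ k := by rw [pow_succ]; ring
      have h2 : 1 ≤ 2 ^ k := Nat.one_le_two_pow
      omega
    refine le_trans ?_ hle
    apply lower_bound b k (by omega) s.val (fun n hn => by
      have := hs n (Finset.mem_def.2 hn)
      omega) le_rfl
    have h1 : (s.val.map (fun n : ℕ => (1 : ℚ) / (n : ℚ))).sum = ∑ n ∈ s, (1 : ℚ) / (n : ℚ) := rfl
    rw [h1, ← hsum, Nat.cast_sub (by omega)]
    push_cast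
    rfl
  have hk1 : 1 ≤ k := by
    by_contra hcon
    have hk0 : s = ∅ := by
      rw [← Finset.card_eq_zero]; omega
    rw [hk0] at hsum
    simp only [Finset.sum_empty, div_eq_zero_iff, Nat.cast_eq_zero] at hsum
    omega
  have hb0 : (0 : ℝ) < b := by
    have : 0 < b := by omega
    exact_mod_cast this
  have hlogb : 0 < Real.log b := by
    apply Real.log_pos
    have : 1 < b := by omega
    exact_mod_cast this
  -- log b ≤ 2^(k+1) * log (2k+2) ≤ 2^(k+1) * (2k+2) ≤ 2^(k+1) * 2^(2k+2)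
  have h1 : Real.log b ≤ (2 : ℝ) ^ (3 * k + 3) := by
    have h2 : Real.log b ≤ Real.log (((2 * k + 2 : ℕ) : ℝ) ^ (2 ^ (k + 1))) := by
      apply Real.log_le_log hb0
      exact_mod_cast hbk
    rw [Real.log_pow] at h2
    have h3 : Real.log ((2 * k + 2 : ℕ) : ℝ) ≤ (2 : ℝ) ^ (2 * k + 2) := by
      calc Real.log ((2 * k + 2 : ℕ) : ℝ) ≤ ((2 * k + 2 : ℕ) : ℝ) := by
            have := Real.log_le_sub_one_of_pos (x := ((2 * k + 2 : ℕ) : ℝ)) (by positivity)
            linarith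
        _ ≤ (2 : ℝ) ^ (2 * k + 2) := by
            exact_mod_cast (Nat.lt_two_pow_self (n := 2 * k + 2)).le
    calc Real.log b ≤ ((2 ^ (k + 1) : ℕ) : ℝ) * Real.log ((2 * k + 2 : ℕ) : ℝ) := h2
      _ ≤ ((2 ^ (k + 1) : ℕ) : ℝ) * (2 : ℝ) ^ (2 * k + 2) :=
          mul_le_mul_of_nonneg_left h3 (by positivity)
      _ = (2 : ℝ) ^ (3 * k + 3) := by
          push_cast
          rw [← pow_add]
          congr 1
          ring
  have h4 : Real.log (Real.log b) ≤ (3 * k + 3) * Real.log 2 := by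
    have := Real.log_le_log hlogb h1
    rw [Real.log_pow] at this
    push_cast at this
    exact this
  have h5 : Real.log 2 ≤ 1 := by
    have := Real.log_two_lt_d9
    linarith
  have h6 : (1 : ℝ) ≤ k := by exact_mod_cast hk1
  have h7 : (0 : ℝ) < Real.log 2 := Real.log_pos (by norm_num)
  nlinarith

end Vale.Agent.H2.P012
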