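import Vale.Agent.H2.P012.Skeleton

namespace Vale.Agent.H2.P012

open Finset

theorem atomProd_dvd_atomTotal {P : Finset ℕ} {m g : ℕ} (v : Fin m → Fin g → P)
    (J : Fin m → Fin g) : atomProd v J ∣ atomTotal v := by
  unfold atomProd atomTotal
  apply Finset.prod_dvd_prod_of_dvd
  intro i _
  exact Finset.dvd_prod_of_mem (fun j => (v i j : ℕ)) (Finset.mem_univ (J i))

theorem atomProd_pos {P : Finset ℕ} (hP : ∀ p ∈ P, 0 < p) {m g : ℕ} (v : Fin m → Fin g → P)
    (J : Fin m → Fin g) : 0 < atomProd v J :=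
  Finset.prod_pos (fun i _ => hP _ (v i (J i)).2)

theorem atomTotal_pos {P : Finset ℕ} (hP : ∀ p ∈ P, 0 < p) {m g : ℕ} (v : Fin m → Fin g → P) :
    0 < atomTotal v :=
  Finset.prod_pos (fun i _ => Finset.prod_pos (fun j _ => hP _ (v i j).2))

theorem atomProd_le {P : Finset ℕ} {Y : ℕ} (hP : ∀ p ∈ P, p ≤ Y) {m g : ℕ}
    (v : Fin m → Fin g → P) (J : Fin m → Fin g) : atomProd v J ≤ Y ^ m := by
  unfold atomProd
  calc ∏ i, (v i (J i) : ℕ) ≤ ∏ _i : Fin m, Y := Finset.prod_le_prod' (fun i _ => hP _ (v i (J i)).2)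
    _ = Y ^ m := by simp

theorem atomTotal_le {P : Finset ℕ} {Y : ℕ} (hP : ∀ p ∈ P, p ≤ Y) {m g : ℕ}
    (v : Fin m → Fin g → P) : atomTotal v ≤ Y ^ (m * g) := by
  unfold atomTotal
  calc ∏ i, ∏ j, (v i j : ℕ) ≤ ∏ _i : Fin m, ∏ _j : Fin g, Y :=
        Finset.prod_le_prod' (fun i _ => Finset.prod_le_prod' (fun j _ => hP _ (v i j).2))
    _ = Y ^ (m * g) := by simp [← pow_mul, mul_comm]

theorem atomProd_coprime {P : Finset ℕ} {n : ℕ} (hP : ∀ p ∈ P, Nat.Coprime p n) {m g : ℕ}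
    (v : Fin m → Fin g → P) (J : Fin m → Fin g) : Nat.Coprime (atomProd v J) n :=
  Nat.Coprime.prod_left (fun i _ => hP _ (v i (J i)).2)

/-- A numerator all of whose divisors are good is handled by `8 * K` unit fractions. -/
theorem UF_of_good {P : Finset ℕ} (hPpos : ∀ p ∈ P, 0 < p) {m g : ℕ} (hg : 0 < g)
    (v : Fin m → Fin g → P) (q K : ℕ) (hq : 0 < q) (hK : 0 < K) (S0 nt nr V G : ℕ)
    (hnt : nt ∣ S0) (hnr : 0 < nr) (hcop : ∀ p ∈ P, Nat.Coprime p nr)
    (hsum : ∑ r ∈ nr.divisors.erase 1, (r : ℝ) * cp (digitSum q K (atomProd v)) r *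
      ((r : ℝ) * cp (digitSum q K (atomProd v)) r * cp (atomProd v) r) ^ 3 < 1)
    (hV : S0 * (q ^ K * atomTotal v ^ 2) ∣ V) (hVpos : 0 < V) (hG : 0 < G) :
    UF (((nt * nr : ℕ) : ℚ) / ((V : ℚ) * (G : ℚ))) (8 * K) := by
  haveI : Nonempty (Fin g) := ⟨⟨0, hg⟩⟩
  obtain ⟨I, J, hIJ⟩ := fourier_cover (digitSum q K (atomProd v)) (atomProd v) nr hnr
    (fun j => atomProd_coprime hcop v j) hsum 0
  set x := ∑ l, digitSum q K (atomProd v) (I l) * atomProd v (J l) with hx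
  obtain ⟨F, hF⟩ : nr ∣ x := (Nat.modEq_zero_iff_dvd).1 hIJ
  have hxpos : 0 < x := by
    rw [hx]
    apply Finset.sum_pos
    · intro l _
      apply Nat.mul_pos _ (atomProd_pos hPpos v _)
      unfold digitSum
      apply Finset.sum_pos
      · intro k _
        exact Nat.mul_pos (Nat.pow_pos hq) (atomProd_pos hPpos v _)
      · exact ⟨⟨0, hK⟩, Finset.mem_univ _⟩
    · exact ⟨0, Finset.mem_univ _⟩
  have hFpos : 0 < F := by
    rcases Nat.eq_zero_or_pos F with h | h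
    · rw [h, mul_zero] at hF
      omega
    · exact h
  have e1 : (((nt * nr : ℕ) : ℚ) / ((V : ℚ) * (G : ℚ))) =
      ∑ l : Fin 8, ∑ k : Fin K,
        ((nt * (q ^ (k : ℕ) * atomProd v (I l k) * atomProd v (J l)) : ℕ) : ℚ) /
          ((V * (G * F) : ℕ) : ℚ) := by
    have hsum2 : ∑ l : Fin 8, ∑ k : Fin K,
        ((nt * (q ^ (k : ℕ) * atomProd v (I l k) * atomProd v (J l)) : ℕ) : ℚ) =
          ((nt * x : ℕ) : ℚ) := by
      rw [hx]
      push_cast [digitSum]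
      rw [Finset.mul_sum]
      apply Finset.sum_congr rfl
      intro l _
      rw [Finset.sum_mul, Finset.mul_sum]
    have hV0 : (V : ℚ) ≠ 0 := by positivity
    have hG0 : (G : ℚ) ≠ 0 := by positivity
    have hF0 : (F : ℚ) ≠ 0 := by positivity
    simp_rw [← Finset.sum_div]
    rw [hsum2, hF]
    push_cast
    field_simp
  rw [e1]
  have hterm : ∀ l ∈ (univ : Finset (Fin 8)), UF (∑ k : Fin K,
        ((nt * (q ^ (k : ℕ) * atomProd v (I l k) * atomProd v (J l)) : ℕ) : ℚ) /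
          ((V * (G * F) : ℕ) : ℚ)) K := by
    intro l _
    have := UF.sum (univ : Finset (Fin K)) (fun k =>
      ((nt * (q ^ (k : ℕ) * atomProd v (I l k) * atomProd v (J l)) : ℕ) : ℚ) /
          ((V * (G * F) : ℕ) : ℚ)) 1 (fun k _ => UF.of_dvd (by positivity) ?_)
    · simpa using this
    · apply Dvd.dvd.mul_right
      refine dvd_trans ?_ hV
      apply Nat.mul_dvd_mul hnt
      rw [mul_assoc, pow_two]
      exact Nat.mul_dvd_mul (pow_dvd_pow q k.2.le)
        (Nat.mul_dvd_mul (atomProd_dvd_atomTotal v _) (atomProd_dvd_atomTotal v _))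
  have := UF.sum (univ : Finset (Fin 8)) _ K hterm
  simpa using this

end Vale.Agent.H2.P012
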