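import Vale.Agent.H2.P012.Defs

namespace Vale.Agent.H2.P012

open Finset

theorem UF.mono {x : ℚ} {k l : ℕ} (h : UF x k) (hkl : k ≤ l) : UF x l := by
  obtain ⟨s, h1, h2, h3⟩ := h
  exact ⟨s, h1, h2.trans hkl, h3⟩

theorem UF.zero (k : ℕ) : UF 0 k := ⟨0, by simp, by simp, by simp⟩

theorem UF.add {x y : ℚ} {k l : ℕ} (hx : UF x k) (hy : UF y l) : UF (x + y) (k + l) := by
  obtain ⟨s, h1, h2, h3⟩ := hx
  obtain ⟨t, g1, g2, g3⟩ := hy
  refine ⟨s + t, ?_, ?_, ?_⟩
  · intro n hn
    rcases Multiset.mem_add.1 hn with h | h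
    · exact h1 n h
    · exact g1 n h
  · rw [Multiset.card_add]; omega
  · rw [Multiset.map_add, Multiset.sum_add, h3, g3]

theorem UF.div {x : ℚ} {k : ℕ} (h : UF x k) {n : ℕ} (hn : 0 < n) : UF (x / n) k := by
  obtain ⟨s, h1, h2, h3⟩ := h
  refine ⟨s.map (fun a => a * n), ?_, ?_, ?_⟩
  · intro a ha
    obtain ⟨b, hb, rfl⟩ := Multiset.mem_map.1 ha
    exact Nat.mul_pos (h1 b hb) hn
  · simpa using h2
  · rw [Multiset.map_map, ← h3, div_eq_mul_inv, Multiset.sum_map_mul_right.symm]
    congr 1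
    apply Multiset.map_congr rfl
    intro a ha
    have := h1 a ha
    simp only [Function.comp, Nat.cast_mul]
    field_simp

theorem UF.of_dvd {d D : ℕ} (hD : 0 < D) (h : d ∣ D) : UF ((d : ℚ) / D) 1 := by
  obtain ⟨e, rfl⟩ := h
  have hd : 0 < d := Nat.pos_of_mul_pos_right hD |> fun h => by
    rcases Nat.eq_zero_or_pos d with h0 | h0
    · simp [h0] at hD
    · exact h0
  have he : 0 < e := by
    rcases Nat.eq_zero_or_pos e with h0 | h0
    · simp [h0] at hD
    · exact h0
  refine ⟨{e}, by simpa using he, by simp, ?_⟩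
  have h1 : (d : ℚ) ≠ 0 := by positivity
  have h2 : (e : ℚ) ≠ 0 := by positivity
  simp only [Multiset.map_singleton, Multiset.sum_singleton, Nat.cast_mul]
  field_simp

theorem UF.sum {ι : Type} (s : Finset ι) (f : ι → ℚ) (k : ℕ) (h : ∀ i ∈ s, UF (f i) k) :
    UF (∑ i ∈ s, f i) (s.card * k) := by
  classical
  induction s using Finset.induction_on with
  | empty => simpa using UF.zero 0
  | insert a s ha ih =>
    rw [Finset.sum_insert ha, Finset.card_insert_of_notMem ha]
    have h1 := h a (Finset.mem_insert_self _ _)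
    have h2 := ih (fun i hi => h i (Finset.mem_insert_of_mem hi))
    have := h1.add h2
    exact this.mono (by ring_nf; rfl)

end Vale.Agent.H2.P012
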