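import Vale.Agent.H2.P012.Defs

namespace Vale.Agent.H2.P012

open Finset

private def Good (x : ℚ) (l : Multiset ℕ) : Prop :=
  (∀ n ∈ l, 0 < n) ∧ (l.map (fun n : ℕ => (1 : ℚ) / (n : ℚ))).sum = x

private lemma sum_nonneg' (l : Multiset ℕ) : 0 ≤ (l.map (fun n : ℕ => (1 : ℚ) / (n : ℚ))).sum := by
  apply Multiset.sum_nonneg
  intro y hy
  obtain ⟨n, _, rfl⟩ := Multiset.mem_map.1 hy
  positivity

/-- boundedness of the entries -/
private lemma bounded_entries : ∀ (k : ℕ) (x : ℚ), 0 < x → ∃ B : ℕ, ∀ l : Multiset ℕ, Good x l →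
    Multiset.card l ≤ k → ∀ n ∈ l, n ≤ B := by
  classical
  intro k
  induction k with
  | zero =>
    intro x _
    refine ⟨0, ?_⟩
    intro l _ hl n hn
    have : l = 0 := Multiset.card_eq_zero.1 (by omega)
    subst this
    simp at hn
  | succ k ih =>
    intro x hx
    -- smallest element is at most (k+1)/x
    have hB : ∀ n : ℕ, ∃ B : ℕ, 0 < x - 1 / (n : ℚ) → ∀ l : Multiset ℕ, Good (x - 1 / (n : ℚ)) l →
        Multiset.card l ≤ k → ∀ m ∈ l, m ≤ B := by
      intro n
      by_cases h : 0 < x - 1 / (n : ℚ)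
      · obtain ⟨B, hB⟩ := ih _ h
        exact ⟨B, fun _ => hB⟩
      · exact ⟨0, fun h' => absurd h' h⟩
    choose B hB using hB
    let C := ⌈(k + 1 : ℚ) / x⌉₊
    refine ⟨C + ∑ n ∈ Finset.range (C + 1), B n, ?_⟩
    intro l hl hcard m hm
    -- there is a small element
    have hsmall : ∃ n ∈ l, n ≤ C := by
      by_contra hcon
      push Not at hcon
      have h1 : (l.map (fun n : ℕ => (1 : ℚ) / (n : ℚ))).sum ≤
          Multiset.card (l.map (fun n : ℕ => (1 : ℚ) / (n : ℚ))) • (x / (k + 1) * (C / (C + 1 : ℚ))) := by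
        apply Multiset.sum_le_card_nsmul
        intro y hy
        obtain ⟨n, hn, rfl⟩ := Multiset.mem_map.1 hy
        have h2 := hcon n hn
        have h3 : (C : ℚ) + 1 ≤ n := by exact_mod_cast h2
        have h4 : (k + 1 : ℚ) / x ≤ C := Nat.le_ceil _
        have hk : (0 : ℚ) < k + 1 := by positivity
        have hC : (0 : ℚ) < C := lt_of_lt_of_le (by positivity) h4
        have h5 : 1 / (C : ℚ) ≤ x / (k + 1) := by
          rw [div_le_div_iff₀ hC hk]
          rw [div_le_iff₀ hx] at h4
          linarith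
        calc (1 : ℚ) / n ≤ 1 / (C + 1) := one_div_le_one_div_of_le (by positivity) h3
          _ = 1 / C * (C / (C + 1)) := by field_simp
          _ ≤ x / (k + 1) * (C / (C + 1 : ℚ)) := mul_le_mul_of_nonneg_right h5 (by positivity)
      rw [Multiset.card_map, nsmul_eq_mul, hl.2] at h1
      have hk : (0 : ℚ) < k + 1 := by positivity
      have h4 : (k + 1 : ℚ) / x ≤ C := Nat.le_ceil _
      have hC : (0 : ℚ) < C := lt_of_lt_of_le (by positivity) h4
      have h6 : (Multiset.card l : ℚ) ≤ k + 1 := by exact_mod_cast hcard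
      have h7 : (C : ℚ) / (C + 1) < 1 := by
        rw [div_lt_one (by positivity)]
        linarith
      have h8 : (Multiset.card l : ℚ) * (x / (k + 1) * (C / (C + 1 : ℚ))) ≤
          (k + 1) * (x / (k + 1) * (C / (C + 1 : ℚ))) :=
        mul_le_mul_of_nonneg_right h6 (by positivity)
      have h9 : (k + 1) * (x / (k + 1) * (C / (C + 1 : ℚ))) = x * (C / (C + 1)) := by
        field_simp
      have h10 : x * ((C : ℚ) / (C + 1)) < x * 1 := mul_lt_mul_of_pos_left h7 hx
      linarith
    obtain ⟨n, hn, hnC⟩ := hsmall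
    obtain ⟨l', rfl⟩ := Multiset.exists_cons_of_mem hn
    rw [Multiset.card_cons] at hcard
    have hl' : Good (x - 1 / (n : ℚ)) l' := by
      refine ⟨fun m hm => hl.1 m (Multiset.mem_cons_of_mem hm), ?_⟩
      have := hl.2
      rw [Multiset.map_cons, Multiset.sum_cons] at this
      linarith
    rcases Multiset.mem_cons.1 hm with rfl | hm'
    · omega
    · have hpos : 0 < x - 1 / (n : ℚ) := by
        rw [← hl'.2]
        have hmq : (0 : ℚ) < m := by exact_mod_cast hl'.1 m hm'
        obtain ⟨l'', rfl⟩ := Multiset.exists_cons_of_mem hm'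
        rw [Multiset.map_cons, Multiset.sum_cons]
        have := sum_nonneg' l''
        positivity
      have h1 := hB n hpos l' hl' (by omega) m hm'
      have h2 := Finset.single_le_sum (f := B) (fun _ _ => Nat.zero_le _)
        (Finset.mem_range.2 (show n < C + 1 by omega))
      omega

theorem UF.exists_distinct {a b k : ℕ} (ha : 0 < a) (hab : a < b) (h : UF ((a : ℚ) / b) k) :
    ∃ s : Finset ℕ, (∀ n ∈ s, 2 ≤ n) ∧ s.card ≤ k ∧ ∑ n ∈ s, (1 : ℚ) / (n : ℚ) = (a : ℚ) / b := by
  classical
  set x : ℚ := (a : ℚ) / b with hx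
  have hbq : (0 : ℚ) < b := by exact_mod_cast (by omega : 0 < b)
  have hx0 : 0 < x := by
    have : (0 : ℚ) < a := by exact_mod_cast ha
    positivity
  have hx1 : x < 1 := by
    rw [hx, div_lt_one hbq]
    exact_mod_cast hab
  -- minimal cardinality
  have hex : ∃ m, ∃ l : Multiset ℕ, Good x l ∧ Multiset.card l = m := by
    obtain ⟨l, h1, _, h3⟩ := h
    exact ⟨_, l, ⟨h1, h3⟩, rfl⟩
  set m := Nat.find hex with hm
  have hmin : ∀ l : Multiset ℕ, Good x l → m ≤ Multiset.card l := by
    intro l hl
    exact Nat.find_min' hex ⟨l, hl, rfl⟩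
  have hmk : m ≤ k := by
    obtain ⟨l, h1, h2, h3⟩ := h
    exact (hmin l ⟨h1, h3⟩).trans h2
  obtain ⟨B, hB⟩ := bounded_entries m x hx0
  -- maximal product
  let S : Set ℕ := {p | ∃ l : Multiset ℕ, Good x l ∧ Multiset.card l = m ∧ l.prod = p}
  have hSne : S.Nonempty := by
    obtain ⟨l, h1, h2⟩ := Nat.find_spec hex
    exact ⟨l.prod, l, h1, h2, rfl⟩
  have hSb : BddAbove S := by
    refine ⟨B ^ m, ?_⟩
    rintro p ⟨l, h1, h2, rfl⟩
    have := Multiset.prod_le_pow_card l B (fun n hn => hB l h1 h2.le n hn)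
    rwa [h2] at this
  obtain ⟨l, hl, hcard, hprod⟩ := Nat.sSup_mem hSne hSb
  have hmax : ∀ l' : Multiset ℕ, Good x l' → Multiset.card l' = m → l'.prod ≤ l.prod := by
    intro l' h1 h2
    rw [hprod]
    exact le_csSup hSb ⟨l', h1, h2, rfl⟩
  have hge : ∀ n ∈ l, 2 ≤ n := by
    intro n hn
    have h1 := hl.1 n hn
    by_contra hcon
    have h2 : n = 1 := by omega
    subst h2
    obtain ⟨l', rfl⟩ := Multiset.exists_cons_of_mem hn
    have h3 := hl.2
    rw [Multiset.map_cons, Multiset.sum_cons] at h3
    have h4 := sum_nonneg' l'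
    rw [Nat.cast_one, div_one] at h3
    linarith
  have hnodup : l.Nodup := by
    by_contra hnd
    rw [Multiset.nodup_iff_le] at hnd
    push Not at hnd
    obtain ⟨n, hn⟩ := hnd
    obtain ⟨l', rfl⟩ := Multiset.le_iff_exists_add.1 hn
    have hnmem : n ∈ n ::ₘ n ::ₘ (0 : Multiset ℕ) + l' := by simp
    have hn2 := hge n hnmem
    have hnq : (0 : ℚ) < n := by exact_mod_cast (by omega : 0 < n)
    have hs := hl.2
    have hpos := hl.1
    simp only [Multiset.cons_add, zero_add, Multiset.map_cons, Multiset.sum_cons] at hs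
    rcases Nat.even_or_odd n with ⟨t, ht⟩ | ⟨t, ht⟩
    · -- n = 2 t
      have htpos : 0 < t := by omega
      have htq : (0 : ℚ) < t := by exact_mod_cast htpos
      have hg : Good x (t ::ₘ l') := by
        constructor
        · intro p hp
          rcases Multiset.mem_cons.1 hp with rfl | hp
          · exact htpos
          · exact hpos p (by simp [hp])
        · rw [Multiset.map_cons, Multiset.sum_cons, ← hs]
          have : (n : ℚ) = 2 * t := by rw [ht]; push_cast; ring
          rw [this]
          field_simp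
          ring
      have h1 := hmin _ hg
      simp only [Multiset.cons_add, zero_add, Multiset.card_cons] at hcard
      rw [Multiset.card_cons] at h1
      omega
    · -- n = 2 t + 1, use t + 1
      have htq : (n : ℚ) = 2 * t + 1 := by rw [ht]; push_cast; ring
      have ht1 : 1 ≤ t := by omega
      have hg : Good x ((t + 1) ::ₘ (n * (t + 1)) ::ₘ l') := by
        constructor
        · intro p hp
          rcases Multiset.mem_cons.1 hp with rfl | hp
          · omega
          rcases Multiset.mem_cons.1 hp with rfl | hp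
          · exact Nat.mul_pos (by omega) (by omega)
          · exact hpos p (by simp [hp])
        · rw [Multiset.map_cons, Multiset.sum_cons, Multiset.map_cons, Multiset.sum_cons, ← hs]
          push_cast
          rw [htq]
          have h1 : (0 : ℚ) < 2 * t + 1 := by positivity
          have h2 : (0 : ℚ) < (t : ℚ) + 1 := by positivity
          field_simp
          ring
      simp only [Multiset.cons_add, zero_add, Multiset.card_cons] at hcard
      have h1 := hmax _ hg (by simp only [Multiset.card_cons]; exact hcard)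
      simp only [Multiset.cons_add, zero_add, Multiset.prod_cons] at h1
      have hl'pos : 0 < l'.prod := by
        apply Multiset.prod_pos
        intro p hp
        exact hpos p (by simp [hp])
      have h2 : (t + 1) * (n * (t + 1) * l'.prod) = (t + 1) * (t + 1) * (n * l'.prod) := by ring
      rw [h2] at h1
      have h3 : n * (n * l'.prod) = n * (n * l'.prod) := rfl
      have h4 : 0 < n * l'.prod := Nat.mul_pos (by omega) hl'pos
      have h5 : (t + 1) * (t + 1) ≤ n := Nat.le_of_mul_le_mul_right h1 h4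
      rw [ht] at h5
      nlinarith
  refine ⟨l.toFinset, ?_, ?_, ?_⟩
  · intro n hn
    exact hge n (Multiset.mem_toFinset.1 hn)
  · rw [Multiset.toFinset_card_of_nodup hnodup, hcard]
    exact hmk
  · rw [← hl.2]
    rw [Finset.sum_eq_multiset_sum, Multiset.toFinset_val, Multiset.dedup_eq_self.2 hnodup]

end Vale.Agent.H2.P012
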