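import Vale.Agent.H2.P012.Defs

namespace Vale.Agent.H2.P012

open Finset

private lemma UF_cons {y : ℚ} {k : ℕ} (h : UF y k) {n : ℕ} (hn : 0 < n) :
    UF (y + 1 / (n : ℚ)) (k + 1) := by
  obtain ⟨l, h1, h2, h3⟩ := h
  refine ⟨n ::ₘ l, ?_, ?_, ?_⟩
  · intro m hm
    rcases Multiset.mem_cons.1 hm with rfl | hm
    · exact hn
    · exact h1 m hm
  · rw [Multiset.card_cons]
    omega
  · rw [Multiset.map_cons, Multiset.sum_cons, h3, add_comm]

private def EE : ℕ → ℕ
  | 0 => 1
  | i + 1 => 2 ^ 2 ^ i

private lemma EE_pos (i : ℕ) : 0 < EE i := by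
  cases i <;> simp [EE]

private lemma EE_succ_le (i : ℕ) : EE (i + 1) ≤ EE i * (EE i + 1) := by
  rcases i with _ | i
  · simp [EE]
  · simp only [EE]
    rw [pow_succ 2 i, pow_mul]
    nlinarith [Nat.zero_le (2 ^ 2 ^ i)]

private lemma UF_mono' {x : ℚ} {k l : ℕ} (h : UF x k) (hkl : k ≤ l) : UF x l := by
  obtain ⟨m, h1, h2, h3⟩ := h
  exact ⟨m, h1, h2.trans hkl, h3⟩

theorem greedy (a b : ℕ) (_ha : 0 < a) (hab : a < b) (T g : ℕ) (hT : 0 < T)
    (hg : T ≤ 2 ^ 2 ^ g) :
    ∃ c P : ℕ, 0 < P ∧ P ≤ T * (T + 1) ∧ c < b ∧ ((c : ℚ) / (b * P) < 1 / T) ∧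
      ∃ y : ℚ, UF y (g + 2) ∧ (a : ℚ) / b = y + c / (b * P) := by
  have hb : 0 < b := by omega
  have hbq : (0 : ℚ) < b := by exact_mod_cast hb
  have hTq : (0 : ℚ) < T := by exact_mod_cast hT
  have key : ∀ i : ℕ, ∃ c P : ℕ, 0 < P ∧ P ≤ T * (T + 1) ∧ c < b ∧
      ((c : ℚ) / (b * P) < 1 / T ∨ (c : ℚ) / (b * P) < 1 / EE i) ∧
      ∃ y : ℚ, UF y i ∧ (a : ℚ) / b = y + c / (b * P) := by
    intro i
    induction i with
    | zero =>
      refine ⟨a, 1, one_pos, Nat.mul_pos hT (by omega), hab, Or.inr ?_, 0, ⟨0, by simp, by simp, by simp⟩, by simp⟩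
      simp only [EE, Nat.cast_one, mul_one, div_one]
      rw [div_lt_one hbq]
      exact_mod_cast hab
    | succ i ih =>
      obtain ⟨c, P, hP, hPT, hc, hor, y, hy, hxy⟩ := ih
      have hPq : (0 : ℚ) < P := by exact_mod_cast hP
      by_cases hx : (c : ℚ) / (b * P) < 1 / T
      · exact ⟨c, P, hP, hPT, hc, Or.inl hx, y, UF_mono' hy (by omega), hxy⟩
      · have hE : (c : ℚ) / (b * P) < 1 / EE i := by
          rcases hor with h | h
          · exact absurd h hx
          · exact h
        push Not at hx
        have hxpos : (0 : ℚ) < (c : ℚ) / (b * P) := lt_of_lt_of_le (by positivity) hx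
        have hcq : (0 : ℚ) < c := by
          by_contra hcon
          have : (c : ℚ) = 0 := le_antisymm (not_lt.1 hcon) (by positivity)
          rw [this, zero_div] at hxpos
          exact lt_irrefl _ hxpos
        have hcpos : 0 < c := by exact_mod_cast hcq
        -- n = ceil (b P / c)
        let n := (b * P + c - 1) / c
        have hn1 : b * P ≤ n * c := by
          have h1 := Nat.lt_div_mul_add (a := b * P + c - 1) hcpos
          have h2 : (b * P + c - 1) / c * c = n * c := rfl
          omega
        have hn2 : n * c < b * P + c := by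
          have h1 := Nat.div_mul_le_self (b * P + c - 1) c
          have h2 : (b * P + c - 1) / c * c = n * c := rfl
          have : 0 < b * P := Nat.mul_pos hb hP
          omega
        have hEi := EE_pos i
        have hEq : (0 : ℚ) < EE i := by exact_mod_cast hEi
        -- c * EE i < b * P
        have hcE : c * EE i < b * P := by
          rw [div_lt_div_iff₀ (by positivity) hEq] at hE
          have : (c : ℚ) * EE i < b * P := by linarith
          exact_mod_cast this
        have hnE : EE i + 1 ≤ n := by
          by_contra hcon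
          push Not at hcon
          have h1 : n ≤ EE i := by omega
          have h2 : n * c ≤ EE i * c := Nat.mul_le_mul_right c h1
          have h3 : EE i * c = c * EE i := mul_comm _ _
          omega
        -- b * P ≤ c * T
        have hcT : b * P ≤ c * T := by
          rw [div_le_div_iff₀ hTq (by positivity)] at hx
          have : (b : ℚ) * P ≤ c * T := by linarith
          exact_mod_cast this
        have hnT : n ≤ T := by
          by_contra hcon
          push Not at hcon
          have h1 : (T + 1) * c ≤ n * c := Nat.mul_le_mul_right c hcon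
          have h2 : (T + 1) * c = c * T + c := by ring
          omega
        have hPT' : P ≤ T := by
          by_contra hcon
          push Not at hcon
          have h1 : c * T ≤ b * T := Nat.mul_le_mul_right T hc.le
          have h2 : b * (T + 1) ≤ b * P := Nat.mul_le_mul_left b hcon
          have h3 : b * (T + 1) = b * T + b := by ring
          omega
        have hnpos : 0 < n := by omega
        have hnq : (0 : ℚ) < n := by exact_mod_cast hnpos
        refine ⟨n * c - b * P, P * n, Nat.mul_pos hP hnpos, ?_, by omega, Or.inr ?_,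
          y + 1 / (n : ℚ), UF_cons hy hnpos, ?_⟩
        · exact Nat.mul_le_mul hPT' (by omega)
        · -- (n c - b P) / (b P n) < 1 / EE (i+1)
          have hE1 := EE_succ_le i
          have hE2 := EE_pos (i + 1)
          have hcast : ((n * c - b * P : ℕ) : ℚ) = n * c - b * P := by
            rw [Nat.cast_sub hn1]
            push_cast
            ring
          rw [hcast]
          push_cast
          -- x - 1/n, x < 1/(n-1)
          have hxn : (c : ℚ) * (n - 1) < b * P := by
            have : (n : ℚ) * c < b * P + c := by exact_mod_cast hn2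
            linarith
          have hE2q : (0 : ℚ) < EE (i + 1) := by exact_mod_cast hE2
          rw [div_lt_div_iff₀ (by positivity) hE2q, one_mul]
          have hnE' : (EE i : ℚ) + 1 ≤ n := by exact_mod_cast hnE
          have hE1' : (EE (i + 1) : ℚ) ≤ EE i * (EE i + 1) := by exact_mod_cast hE1
          have hn1q : (0 : ℚ) < n - 1 := by linarith
          have h5 : (EE (i + 1) : ℚ) ≤ n * (n - 1) := by
            calc (EE (i + 1) : ℚ) ≤ EE i * (EE i + 1) := hE1'
              _ ≤ (n - 1) * n := by
                apply mul_le_mul _ hnE' (by positivity) hn1q.le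
                linarith
              _ = n * (n - 1) := by ring
          have h6 : (n * c - b * P : ℚ) * (n - 1) < b * P := by
            have h7 : (n : ℚ) * (c * (n - 1)) < n * (b * P) := mul_lt_mul_of_pos_left hxn hnq
            nlinarith
          have h8 : (0 : ℚ) ≤ n * c - b * P := by
            have : (b : ℚ) * P ≤ n * c := by exact_mod_cast hn1
            linarith
          calc (n * c - b * P : ℚ) * EE (i + 1) ≤ (n * c - b * P) * (n * (n - 1)) :=
                mul_le_mul_of_nonneg_left h5 h8
            _ = n * ((n * c - b * P) * (n - 1)) := by ring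
            _ < n * (b * P) := mul_lt_mul_of_pos_left h6 hnq
            _ = b * (P * n) := by ring
        · have hcast : ((n * c - b * P : ℕ) : ℚ) = n * c - b * P := by
            rw [Nat.cast_sub hn1]
            push_cast
            ring
          rw [hcast, hxy]
          push_cast
          field_simp
          ring
  obtain ⟨c, P, hP, hPT, hc, hor, y, hy, hxy⟩ := key (g + 1)
  refine ⟨c, P, hP, hPT, hc, ?_, y, UF_mono' hy (by omega), hxy⟩
  rcases hor with h | h
  · exact h
  · refine lt_of_lt_of_le h ?_
    apply one_div_le_one_div_of_le hTq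
    simp only [EE]
    exact_mod_cast hg

end Vale.Agent.H2.P012
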