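import Vale.Agent.H2.P012.Defs

namespace Vale.Agent.H2.P012

open Finset

/-- The exponential sum `∑ e(a f_i g_j / r)`. -/
noncomputable def B_S {ι κ : Type} [Fintype ι] [Fintype κ] (f : ι → ℕ) (g : κ → ℕ)
    (r a : ℕ) : ℂ :=
  ∑ i, ∑ j, Complex.exp (2 * Real.pi * Complex.I * ((a * f i * g j : ℕ) : ℂ) / (r : ℂ))

lemma B_S_eq {ι κ : Type} [Fintype ι] [Fintype κ] (f : ι → ℕ) (g : κ → ℕ)
    (r : ℕ) [NeZero r] (a : ℕ) :
    B_S f g r a = ∑ i, ∑ j,
      ZMod.stdAddChar ((a : ZMod r) * ((f i : ZMod r) * (g j : ZMod r))) := by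
  unfold B_S
  refine sum_congr rfl fun i _ => sum_congr rfl fun j _ => ?_
  have h := ZMod.stdAddChar_coe (N := r) ((a * f i * g j : ℕ) : ℤ)
  have e : (((a * f i * g j : ℕ) : ℤ) : ZMod r) =
      (a : ZMod r) * ((f i : ZMod r) * (g j : ZMod r)) := by
    push_cast; ring
  rw [e] at h
  rw [h]
  norm_cast

lemma B_S_scale {ι κ : Type} [Fintype ι] [Fintype κ] (f : ι → ℕ) (g : κ → ℕ)
    (d r a : ℕ) (hd : 0 < d) : B_S f g (d * r) (d * a) = B_S f g r a := by
  unfold B_S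
  refine sum_congr rfl fun i _ => sum_congr rfl fun j _ => ?_
  congr 1
  rcases Nat.eq_zero_or_pos r with rfl | hr
  · simp
  · have hd' : (d : ℂ) ≠ 0 := by exact_mod_cast hd.ne'
    have hr' : (r : ℂ) ≠ 0 := by exact_mod_cast hr.ne'
    push_cast
    field_simp

lemma B_map_sum {A M ι : Type} [AddCommMonoid A] [CommMonoid M] (ψ : AddChar A M)
    (s : Finset ι) (h : ι → A) : ψ (∑ i ∈ s, h i) = ∏ i ∈ s, ψ (h i) := by
  classical
  induction s using Finset.induction_on with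
  | empty => simp
  | insert a s ha ih => rw [sum_insert ha, prod_insert ha, AddChar.map_add_eq_mul, ih]

lemma B_parseval {ι : Type} [Fintype ι] (r : ℕ) [NeZero r] (F : ι → ZMod r) (u : ZMod r)
    (hu : IsUnit u) :
    ∑ s : ZMod r, ‖∑ i, ZMod.stdAddChar (s * (u * F i))‖ ^ 2 =
      (r : ℝ) * (((univ : Finset (ι × ι)).filter (fun p => F p.1 = F p.2)).card : ℝ) := by
  classical
  have hC : ((∑ s : ZMod r, ‖∑ i, ZMod.stdAddChar (s * (u * F i))‖ ^ 2 : ℝ) : ℂ) =
      (((r : ℝ) * (((univ : Finset (ι × ι)).filter (fun p => F p.1 = F p.2)).card : ℝ) : ℝ) : ℂ) := by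
    push_cast
    have h1 : ∀ s : ZMod r, ((‖∑ i, ZMod.stdAddChar (s * (u * F i))‖ : ℂ)) ^ 2 =
        ∑ p : ι × ι, ZMod.stdAddChar (s * (u * (F p.1 - F p.2))) := by
      intro s
      rw [← Complex.mul_conj', map_sum, sum_mul_sum, ← univ_product_univ, sum_product]
      refine sum_congr rfl fun i _ => sum_congr rfl fun i' _ => ?_
      rw [← AddChar.map_neg_eq_conj, ← AddChar.map_add_eq_mul]
      congr 1; ring
    rw [sum_congr rfl fun s _ => h1 s, sum_comm]
    have h2 : ∀ p : ι × ι, ∑ s : ZMod r, ZMod.stdAddChar (s * (u * (F p.1 - F p.2))) =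
        if F p.1 = F p.2 then (r : ℂ) else 0 := by
      intro p
      rw [AddChar.sum_mulShift _ (ZMod.isPrimitive_stdAddChar r)]
      by_cases h : F p.1 = F p.2
      · simp [h, ZMod.card]
      · have : u * (F p.1 - F p.2) ≠ 0 := by
          intro h0
          exact h (sub_eq_zero.1 ((hu.mul_right_eq_zero).1 h0))
        simp [h, this]
    rw [sum_congr rfl fun p _ => h2 p, ← sum_filter, sum_const, nsmul_eq_mul, mul_comm]
  exact_mod_cast hC

/-- Collision counts. -/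
lemma B_coll {ι : Type} [Fintype ι] [Nonempty ι] (f : ι → ℕ) (r : ℕ) :
    (((univ : Finset (ι × ι)).filter
      (fun p => ((f p.1 : ℕ) : ZMod r) = ((f p.2 : ℕ) : ZMod r))).card : ℝ) =
      cp f r * (Fintype.card ι : ℝ) ^ 2 := by
  classical
  have : (Fintype.card ι : ℝ) ^ 2 ≠ 0 := by positivity
  unfold cp
  rw [div_mul_cancel₀ _ this]
  congr 2
  ext p
  simp only [mem_filter, mem_univ, true_and]
  exact ZMod.natCast_eq_natCast_iff _ _ _

/-- Bound (i). -/
lemma B_sup {ι κ : Type} [Fintype ι] [Fintype κ] [Nonempty ι] [Nonempty κ]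
    (f : ι → ℕ) (g : κ → ℕ) (r : ℕ) [NeZero r] (a : ℕ) (ha : Nat.Coprime a r) :
    ‖B_S f g r a‖ ^ 2 ≤ (r : ℝ) * (cp f r * (Fintype.card ι : ℝ) ^ 2) *
      (cp g r * (Fintype.card κ : ℝ) ^ 2) := by
  classical
  set h : ZMod r → ℂ := fun x => ∑ j, ZMod.stdAddChar (x * ((a : ZMod r) * (g j : ZMod r))) with hh
  set N : ZMod r → ℝ := fun x => (((univ : Finset ι).filter (fun i => (f i : ZMod r) = x)).card : ℝ)
    with hN
  have e1 : B_S f g r a = ∑ x : ZMod r, (N x : ℂ) * h x := by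
    rw [B_S_eq]
    have : ∀ i, ∑ j, ZMod.stdAddChar ((a : ZMod r) * ((f i : ZMod r) * (g j : ZMod r))) =
        h (f i : ZMod r) := by
      intro i
      rw [hh]
      refine sum_congr rfl fun j _ => ?_
      congr 1; ring
    rw [sum_congr rfl fun i _ => this i]
    rw [← sum_fiberwise_of_maps_to (s := (univ : Finset ι)) (t := (univ : Finset (ZMod r)))
      (g := fun i => (f i : ZMod r)) (fun _ _ => mem_univ _)]
    refine sum_congr rfl fun x _ => ?_
    rw [sum_congr rfl (g := fun _ => h x) (fun i hi => by rw [(mem_filter.1 hi).2]), sum_const,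
      nsmul_eq_mul]
    simp [hN]
  have e2 : ∑ x : ZMod r, N x ^ 2 = cp f r * (Fintype.card ι : ℝ) ^ 2 := by
    rw [← B_coll f r, card_filter, ← univ_product_univ, sum_product]
    push_cast
    have : ∀ i : ι, ∑ i' : ι, (if (f i : ZMod r) = (f i' : ZMod r) then (1 : ℝ) else 0) =
        N (f i : ZMod r) := by
      intro i
      rw [hN]
      simp only
      rw [card_filter]
      push_cast
      refine sum_congr rfl fun i' _ => ?_
      by_cases hc : (f i : ZMod r) = (f i' : ZMod r)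
      · rw [if_pos hc, if_pos hc.symm]
      · rw [if_neg hc, if_neg (fun h => hc h.symm)]
    rw [sum_congr rfl fun i _ => this i]
    rw [← sum_fiberwise_of_maps_to (s := (univ : Finset ι)) (t := (univ : Finset (ZMod r)))
      (g := fun i => (f i : ZMod r)) (fun _ _ => mem_univ _)]
    refine sum_congr rfl fun x _ => ?_
    rw [sum_congr rfl (g := fun _ => N x) (fun i hi => by rw [(mem_filter.1 hi).2]), sum_const,
      nsmul_eq_mul]
    rw [sq]
  have e3 : ∑ x : ZMod r, ‖h x‖ ^ 2 = (r : ℝ) * (cp g r * (Fintype.card κ : ℝ) ^ 2) := by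
    rw [hh, B_parseval r (fun j => (g j : ZMod r)) (a : ZMod r)
      ((ZMod.isUnit_iff_coprime a r).2 ha), B_coll g r]
  have e4 : ‖B_S f g r a‖ ≤ ∑ x : ZMod r, N x * ‖h x‖ := by
    rw [e1]
    refine (norm_sum_le _ _).trans (le_of_eq ?_)
    refine sum_congr rfl fun x _ => ?_
    rw [norm_mul, Complex.norm_real, Real.norm_of_nonneg (by simp [hN])]
  calc ‖B_S f g r a‖ ^ 2 ≤ (∑ x : ZMod r, N x * ‖h x‖) ^ 2 :=
        pow_le_pow_left₀ (norm_nonneg _) e4 2
    _ ≤ (∑ x : ZMod r, N x ^ 2) * ∑ x : ZMod r, ‖h x‖ ^ 2 := sum_mul_sq_le_sq_mul_sq _ _ _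
    _ = _ := by rw [e2, e3]; ring

/-- Bound (ii). -/
lemma B_l2 {ι κ : Type} [Fintype ι] [Fintype κ] [Nonempty ι] [Nonempty κ]
    (f : ι → ℕ) (g : κ → ℕ) (r : ℕ) [NeZero r] (hg : ∀ j, Nat.Coprime (g j) r) :
    ∑ a ∈ (range r).filter (Nat.Coprime r), ‖B_S f g r a‖ ^ 2 ≤
      (r : ℝ) * (cp f r * (Fintype.card ι : ℝ) ^ 2) * (Fintype.card κ : ℝ) ^ 2 := by
  classical
  set S : ZMod r → ℂ := fun s => ∑ i, ∑ j,
      ZMod.stdAddChar (s * ((f i : ZMod r) * (g j : ZMod r))) with hS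
  have h1 : ∑ a ∈ (range r).filter (Nat.Coprime r), ‖B_S f g r a‖ ^ 2 ≤
      ∑ s : ZMod r, ‖S s‖ ^ 2 := by
    have : ∑ a ∈ (range r).filter (Nat.Coprime r), ‖B_S f g r a‖ ^ 2 =
        ∑ s ∈ ((range r).filter (Nat.Coprime r)).image (fun a : ℕ => (a : ZMod r)), ‖S s‖ ^ 2 := by
      rw [sum_image]
      · refine sum_congr rfl fun a _ => ?_
        rw [B_S_eq]
      · intro x hx y hy hxy
        have hx' : x < r := mem_range.1 (mem_filter.1 (mem_coe.1 hx)).1
        have hy' : y < r := mem_range.1 (mem_filter.1 (mem_coe.1 hy)).1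
        have := (ZMod.natCast_eq_natCast_iff x y r).1 hxy
        rw [Nat.ModEq, Nat.mod_eq_of_lt hx', Nat.mod_eq_of_lt hy'] at this
        exact this
    rw [this]
    exact sum_le_sum_of_subset_of_nonneg (subset_univ _) (fun _ _ _ => by positivity)
  refine h1.trans ?_
  have h2 : ∀ s : ZMod r, ‖S s‖ ^ 2 ≤ (Fintype.card κ : ℝ) *
      ∑ j, ‖∑ i, ZMod.stdAddChar (s * ((g j : ZMod r) * (f i : ZMod r)))‖ ^ 2 := by
    intro s
    have : S s = ∑ j, ∑ i, ZMod.stdAddChar (s * ((g j : ZMod r) * (f i : ZMod r))) := by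
      rw [hS]
      simp only
      rw [sum_comm]
      refine sum_congr rfl fun j _ => sum_congr rfl fun i _ => ?_
      congr 1; ring
    rw [this]
    calc ‖∑ j, ∑ i, ZMod.stdAddChar (s * ((g j : ZMod r) * (f i : ZMod r)))‖ ^ 2 ≤
        (∑ j, ‖∑ i, ZMod.stdAddChar (s * ((g j : ZMod r) * (f i : ZMod r)))‖) ^ 2 :=
          pow_le_pow_left₀ (norm_nonneg _) (norm_sum_le _ _) 2
      _ ≤ _ := by
        have := sq_sum_le_card_mul_sum_sq (s := (univ : Finset κ))
          (f := fun j => ‖∑ i, ZMod.stdAddChar (s * ((g j : ZMod r) * (f i : ZMod r)))‖)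
        rw [card_univ] at this
        exact this
  calc ∑ s : ZMod r, ‖S s‖ ^ 2 ≤ ∑ s : ZMod r, (Fintype.card κ : ℝ) *
      ∑ j, ‖∑ i, ZMod.stdAddChar (s * ((g j : ZMod r) * (f i : ZMod r)))‖ ^ 2 :=
        sum_le_sum fun s _ => h2 s
    _ = (Fintype.card κ : ℝ) * ∑ j, ∑ s : ZMod r,
        ‖∑ i, ZMod.stdAddChar (s * ((g j : ZMod r) * (f i : ZMod r)))‖ ^ 2 := by
        rw [← mul_sum, sum_comm]
    _ = (Fintype.card κ : ℝ) * ∑ _j : κ, (r : ℝ) * (cp f r * (Fintype.card ι : ℝ) ^ 2) := by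
        congr 1
        refine sum_congr rfl fun j _ => ?_
        rw [B_parseval r (fun i => (f i : ZMod r)) (g j : ZMod r)
          ((ZMod.isUnit_iff_coprime (g j) r).2 (hg j)), B_coll f r]
    _ = _ := by rw [sum_const, nsmul_eq_mul, card_univ]; ring

/-- Grouping frequencies by denominators. -/
lemma B_group (m : ℕ) (hm : 0 < m) (G : ℕ → ℕ → ℝ) (hG0 : ∀ r a, 0 ≤ G r a)
    (hG : ∀ d r a, 0 < d → G (d * r) (d * a) = G r a) :
    ∑ t ∈ (range m).erase 0, G m t ≤
      ∑ r ∈ m.divisors.erase 1, ∑ a ∈ (range r).filter (Nat.Coprime r), G r a := by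
  classical
  have hmaps : ∀ t ∈ (range m).erase 0, m / Nat.gcd m t ∈ m.divisors.erase 1 := by
    intro t ht
    have ht0 : t ≠ 0 := (mem_erase.1 ht).1
    have htm : t < m := mem_range.1 (mem_erase.1 ht).2
    have hd : Nat.gcd m t ∣ m := Nat.gcd_dvd_left _ _
    refine mem_erase.2 ⟨?_, Nat.mem_divisors.2 ⟨Nat.div_dvd_of_dvd hd, hm.ne'⟩⟩
    intro h1
    have : m = Nat.gcd m t := by
      have := Nat.div_mul_cancel hd
      rw [h1, one_mul] at this
      exact this.symm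
    have h2 : m ∣ t := by
      rw [this]; exact Nat.gcd_dvd_right _ _
    exact absurd (Nat.le_of_dvd (Nat.pos_of_ne_zero ht0) h2) (not_le.2 htm)
  rw [← sum_fiberwise_of_maps_to hmaps]
  refine sum_le_sum fun r hr => ?_
  have hrm : r ∣ m := Nat.dvd_of_mem_divisors (mem_erase.1 hr).2
  obtain ⟨d, hd⟩ := hrm
  have hr0 : 0 < r := Nat.pos_of_ne_zero (by rintro rfl; simp at hd; omega)
  have hd0 : 0 < d := Nat.pos_of_ne_zero (by rintro rfl; simp at hd; omega)
  have hfib : ∀ t ∈ ((range m).erase 0).filter (fun t => m / Nat.gcd m t = r),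
      Nat.gcd m t = d ∧ t = d * (t / d) := by
    intro t ht
    have h1 := (mem_filter.1 ht).2
    have hgd : Nat.gcd m t ∣ m := Nat.gcd_dvd_left _ _
    have h2 : r * Nat.gcd m t = m := by rw [← h1]; exact Nat.div_mul_cancel hgd
    have h3 : Nat.gcd m t = d := by
      have : r * Nat.gcd m t = r * d := by rw [h2, hd]
      exact Nat.eq_of_mul_eq_mul_left hr0 this
    refine ⟨h3, ?_⟩
    have : d ∣ t := by rw [← h3]; exact Nat.gcd_dvd_right _ _
    exact (Nat.mul_div_cancel' this).symm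
  have hinj : Set.InjOn (fun t => t / d)
      (((range m).erase 0).filter (fun t => m / Nat.gcd m t = r) : Set ℕ) := by
    intro x hx y hy hxy
    rw [(hfib x (mem_coe.1 hx)).2, (hfib y (mem_coe.1 hy)).2]
    simp only at hxy
    rw [hxy]
  have e1 : ∑ t ∈ ((range m).erase 0).filter (fun t => m / Nat.gcd m t = r), G m t =
      ∑ a ∈ (((range m).erase 0).filter (fun t => m / Nat.gcd m t = r)).image (fun t => t / d),
        G r a := by
    rw [sum_image hinj]
    refine sum_congr rfl fun t ht => ?_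
    have h2 := (hfib t ht).2
    calc G m t = G (d * r) (d * (t / d)) := by rw [← h2, mul_comm d r, ← hd]
      _ = _ := hG _ _ _ hd0
  rw [e1]
  refine sum_le_sum_of_subset_of_nonneg ?_ (fun _ _ _ => hG0 _ _)
  intro a ha
  obtain ⟨t, ht, rfl⟩ := mem_image.1 ha
  obtain ⟨h1, h2⟩ := hfib t ht
  have htm : t < m := mem_range.1 (mem_erase.1 (mem_filter.1 ht).1).2
  refine mem_filter.2 ⟨mem_range.2 ?_, ?_⟩
  · rw [Nat.div_lt_iff_lt_mul hd0]
    rw [← hd]; exact htm
  · have h3 : Nat.gcd (d * r) (d * (t / d)) = d := by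
      rw [← h2, mul_comm d r, ← hd]; exact h1
    rw [Nat.gcd_mul_left] at h3
    have : Nat.gcd r (t / d) = 1 := by
      have : d * Nat.gcd r (t / d) = d * 1 := by rw [h3, mul_one]
      exact Nat.eq_of_mul_eq_mul_left hd0 this
    exact this

theorem fourier_cover {ι κ : Type} [Fintype ι] [Fintype κ] [Nonempty ι] [Nonempty κ]
    (f : ι → ℕ) (g : κ → ℕ) (m : ℕ) (hm : 0 < m) (hg : ∀ j, Nat.Coprime (g j) m)
    (hsum : ∑ r ∈ m.divisors.erase 1,
      (r : ℝ) * cp f r * ((r : ℝ) * cp f r * cp g r) ^ 3 < 1) (ρ : ℕ) :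
    ∃ (i : Fin 8 → ι) (j : Fin 8 → κ), ∑ l, f (i l) * g (j l) ≡ ρ [MOD m] := by
  classical
  by_contra hno
  push Not at hno
  have : NeZero m := ⟨hm.ne'⟩
  set T : ℝ := (Fintype.card ι : ℝ) * (Fintype.card κ : ℝ) with hT
  have hT0 : 0 < T := by rw [hT]; positivity
  -- the count as an exponential sum
  have hcount : ∑ t : ZMod m, ZMod.stdAddChar (t * (-(ρ : ZMod m))) *
      (∑ i, ∑ j, ZMod.stdAddChar (t * ((f i : ZMod m) * (g j : ZMod m)))) ^ 8 = 0 := by
    have h1 : ∀ t : ZMod m, ZMod.stdAddChar (t * (-(ρ : ZMod m))) *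
      (∑ i, ∑ j, ZMod.stdAddChar (t * ((f i : ZMod m) * (g j : ZMod m)))) ^ 8 =
        ∑ p : Fin 8 → ι × κ, ZMod.stdAddChar (t *
          ((∑ l, ((f (p l).1 : ZMod m) * (g (p l).2 : ZMod m))) - (ρ : ZMod m))) := by
      intro t
      have e0 : ∑ i, ∑ j, ZMod.stdAddChar (t * ((f i : ZMod m) * (g j : ZMod m))) =
          ∑ x : ι × κ, ZMod.stdAddChar (t * ((f x.1 : ZMod m) * (g x.2 : ZMod m))) := by
        rw [← univ_product_univ, sum_product]
      rw [e0, Fintype.sum_pow, mul_sum]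
      refine sum_congr rfl fun p _ => ?_
      rw [← B_map_sum, ← AddChar.map_add_eq_mul]
      congr 1
      rw [← mul_sum]; ring
    rw [sum_congr rfl fun t _ => h1 t, sum_comm]
    refine sum_eq_zero fun p _ => ?_
    rw [AddChar.sum_mulShift _ (ZMod.isPrimitive_stdAddChar m), if_neg]
    · simp
    · intro h0
      have h2 := hno (fun l => (p l).1) (fun l => (p l).2)
      apply h2
      have h3 : ((∑ l, f (p l).1 * g (p l).2 : ℕ) : ZMod m) = (ρ : ZMod m) := by
        push_cast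
        exact sub_eq_zero.1 h0
      exact (ZMod.natCast_eq_natCast_iff _ _ _).1 h3
  -- rewrite over `range m`
  have hcount2 : ∑ t ∈ range m, ZMod.stdAddChar (((t : ℕ) : ZMod m) * (-(ρ : ZMod m))) *
      (B_S f g m t) ^ 8 = 0 := by
    rw [← hcount]
    symm
    refine sum_bij' (fun (t : ZMod m) _ => t.val) (fun (t : ℕ) _ => (t : ZMod m)) ?_ ?_ ?_ ?_ ?_
    · intro t _; exact mem_range.2 (ZMod.val_lt t)
    · intro t _; exact mem_univ _
    · intro t _; simp
    · intro t ht; exact ZMod.val_cast_of_lt (mem_range.1 ht)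
    · intro t _
      rw [B_S_eq]
      simp
  have hzero : B_S f g m 0 = (T : ℂ) := by
    rw [B_S_eq]
    simp [hT]
  have hmem : (0 : ℕ) ∈ range m := mem_range.2 hm
  rw [← add_sum_erase _ _ hmem, hzero] at hcount2
  simp only [Nat.cast_zero, zero_mul, AddChar.map_zero_eq_one, one_mul] at hcount2
  have hle : T ^ 8 ≤ ∑ t ∈ (range m).erase 0, ‖B_S f g m t‖ ^ 8 := by
    have h1 : (T : ℂ) ^ 8 = - ∑ t ∈ (range m).erase 0,
        ZMod.stdAddChar (((t : ℕ) : ZMod m) * (-(ρ : ZMod m))) * (B_S f g m t) ^ 8 :=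
      eq_neg_of_add_eq_zero_left hcount2
    have h2 : T ^ 8 = ‖(T : ℂ) ^ 8‖ := by
      rw [norm_pow, Complex.norm_real, Real.norm_of_nonneg hT0.le]
    rw [h2, h1, norm_neg]
    refine (norm_sum_le _ _).trans (sum_le_sum fun t _ => ?_)
    rw [norm_mul, norm_pow, AddChar.norm_apply, one_mul]
  -- group
  have hgr : ∑ t ∈ (range m).erase 0, ‖B_S f g m t‖ ^ 8 ≤
      ∑ r ∈ m.divisors.erase 1, ∑ a ∈ (range r).filter (Nat.Coprime r), ‖B_S f g r a‖ ^ 8 :=
    B_group m hm (fun r a => ‖B_S f g r a‖ ^ 8) (fun _ _ => by positivity)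
      (fun d r a hd => by rw [B_S_scale f g d r a hd])
  have hr : ∀ r ∈ m.divisors.erase 1, ∑ a ∈ (range r).filter (Nat.Coprime r), ‖B_S f g r a‖ ^ 8 ≤
      T ^ 8 * ((r : ℝ) * cp f r * ((r : ℝ) * cp f r * cp g r) ^ 3) := by
    intro r hr
    have hrm : r ∣ m := Nat.dvd_of_mem_divisors (mem_erase.1 hr).2
    have hr0 : r ≠ 0 := by rintro rfl; exact hm.ne' (zero_dvd_iff.1 hrm)
    have : NeZero r := ⟨hr0⟩
    have hgr : ∀ j, Nat.Coprime (g j) r := fun j => Nat.Coprime.coprime_dvd_right hrm (hg j)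
    have hcf : 0 ≤ cp f r := by unfold cp; positivity
    have hcg : 0 ≤ cp g r := by unfold cp; positivity
    set B : ℝ := (r : ℝ) * (cp f r * (Fintype.card ι : ℝ) ^ 2) *
      (cp g r * (Fintype.card κ : ℝ) ^ 2) with hB
    have hB0 : 0 ≤ B := by positivity
    calc ∑ a ∈ (range r).filter (Nat.Coprime r), ‖B_S f g r a‖ ^ 8 ≤
        ∑ a ∈ (range r).filter (Nat.Coprime r), B ^ 3 * ‖B_S f g r a‖ ^ 2 := by
          refine sum_le_sum fun a ha => ?_
          have hac : Nat.Coprime a r := ((mem_filter.1 ha).2).symm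
          have h1 := B_sup f g r a hac
          calc ‖B_S f g r a‖ ^ 8 = (‖B_S f g r a‖ ^ 2) ^ 3 * ‖B_S f g r a‖ ^ 2 := by ring
            _ ≤ B ^ 3 * ‖B_S f g r a‖ ^ 2 :=
              mul_le_mul_of_nonneg_right (pow_le_pow_left₀ (by positivity) h1 3) (by positivity)
      _ = B ^ 3 * ∑ a ∈ (range r).filter (Nat.Coprime r), ‖B_S f g r a‖ ^ 2 := by rw [mul_sum]
      _ ≤ B ^ 3 * ((r : ℝ) * (cp f r * (Fintype.card ι : ℝ) ^ 2) * (Fintype.card κ : ℝ) ^ 2) :=
          mul_le_mul_of_nonneg_left (B_l2 f g r hgr) (by positivity)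
      _ = _ := by rw [hB, hT]; ring
  have hfin : T ^ 8 < T ^ 8 := by
    calc T ^ 8 ≤ _ := hle
      _ ≤ _ := hgr
      _ ≤ ∑ r ∈ m.divisors.erase 1, T ^ 8 *
          ((r : ℝ) * cp f r * ((r : ℝ) * cp f r * cp g r) ^ 3) := sum_le_sum hr
      _ = T ^ 8 * ∑ r ∈ m.divisors.erase 1,
          ((r : ℝ) * cp f r * ((r : ℝ) * cp f r * cp g r) ^ 3) := by rw [mul_sum]
      _ < T ^ 8 * 1 := mul_lt_mul_of_pos_left hsum (by positivity)
      _ = T ^ 8 := mul_one _
  exact lt_irrefl _ hfin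

end Vale.Agent.H2.P012
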