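import Vale.Agent.H2.P012.Defs

namespace Vale.Agent.H2.P012

open Finset

/-- A product of primes determines the number of times each prime is used. -/
lemma C_factorization {ι : Type} [Fintype ι] [DecidableEq ι] (P : Finset ℕ)
    (hP : ∀ p ∈ P, p.Prime) (w : ι → P) (p : P) :
    (∏ i, (w i : ℕ)).factorization p = Fintype.card {i // w i = p} := by
  classical
  rw [Nat.factorization_prod (fun i _ => (hP _ (w i).2).ne_zero)]
  rw [Finsupp.finsetSum_apply, Fintype.card_subtype, card_filter]
  refine sum_congr rfl fun i _ => ?_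
  rw [(hP _ (w i).2).factorization, Finsupp.single_apply]
  by_cases h : w i = p
  · simp [h]
  · rw [if_neg h, if_neg]
    intro h'
    exact h (Subtype.ext h')

lemma C_card_prod_eq_le {ι : Type} [Fintype ι] [DecidableEq ι] (P : Finset ℕ)
    (hP : ∀ p ∈ P, p.Prime) (n : ℕ) :
    ((univ : Finset (ι → P)).filter (fun w => ∏ i, (w i : ℕ) = n)).card ≤
      (Fintype.card ι).factorial := by
  classical
  rcases ((univ : Finset (ι → P)).filter (fun w => ∏ i, (w i : ℕ) = n)).eq_empty_or_nonempty with
    h | ⟨w0, hw0⟩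
  · simp [h]
  · have hw0' : ∏ i, (w0 i : ℕ) = n := (mem_filter.1 hw0).2
    have hsub : ((univ : Finset (ι → P)).filter (fun w => ∏ i, (w i : ℕ) = n)) ⊆
        (univ : Finset (Equiv.Perm ι)).image (fun σ : Equiv.Perm ι => (fun i => w0 (σ i))) := by
      intro w hw
      have hw' : ∏ i, (w i : ℕ) = n := (mem_filter.1 hw).2
      have e : ∀ p : P, {i // w i = p} ≃ {i // w0 i = p} := fun p =>
        Fintype.equivOfCardEq (by
          rw [← C_factorization P hP w p, ← C_factorization P hP w0 p, hw', hw0'])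
      refine mem_image.2 ⟨Equiv.ofFiberEquiv e, mem_univ _, ?_⟩
      funext i
      exact Equiv.ofFiberEquiv_map e i
    calc _ ≤ _ := card_le_card hsub
      _ ≤ (univ : Finset (Equiv.Perm ι)).card := card_image_le
      _ = _ := by rw [card_univ, Fintype.card_perm]

lemma C_card_residue_le (N r v : ℕ) (hr : 0 < r) :
    (((Ioc 0 N).filter (fun x => x ≡ v [MOD r])).card : ℝ) ≤ (N : ℝ) / r + 1 := by
  have h := Nat.Ioc_filter_modEq_card 0 N hr v
  have hQ : ((((Ioc 0 N).filter (fun x => x ≡ v [MOD r])).card : ℤ) : ℚ) ≤ (N : ℚ) / r + 1 := by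
    rw [h]
    have hrQ : (0 : ℚ) < r := by exact_mod_cast hr
    have h1 : ((⌊((N : ℚ) - v) / r⌋ : ℤ) : ℚ) ≤ ((N : ℚ) - v) / r := Int.floor_le _
    have h2 : (((0 : ℕ) : ℚ) - v) / r < ((⌊(((0 : ℕ) : ℚ) - v) / r⌋ : ℤ) : ℚ) + 1 :=
      Int.lt_floor_add_one _
    push_cast [Int.cast_max] at *
    apply max_le
    · have : ((N : ℚ) - v) / r - (0 - v) / r = N / r := by ring
      linarith
    · positivity
  have : ((((Ioc 0 N).filter (fun x => x ≡ v [MOD r])).card : ℚ)) ≤ (N : ℚ) / r + 1 := by
    exact_mod_cast hQ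
  have h3 := (Rat.cast_le (K := ℝ)).2 this
  push_cast at h3
  exact h3

/-- The number of tuples of primes with a product in a given class. -/
lemma C_card_inner {ι : Type} [Fintype ι] [DecidableEq ι] (P : Finset ℕ)
    (hP : ∀ p ∈ P, p.Prime) (Y : ℕ) (hY : ∀ p ∈ P, p ≤ Y) (r : ℕ) (hr : 0 < r)
    (u c : ℕ) (hu : Nat.Coprime u r) :
    (((univ : Finset (ι → P)).filter
      (fun w => (∏ i, (w i : ℕ)) * u ≡ c [MOD r])).card : ℝ) ≤
      ((Fintype.card ι).factorial : ℝ) * ((Y : ℝ) ^ (Fintype.card ι) / r + 1) := by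
  classical
  set W := (univ : Finset (ι → P)).filter (fun w => (∏ i, (w i : ℕ)) * u ≡ c [MOD r]) with hW
  rcases W.eq_empty_or_nonempty with h | ⟨w0, hw0⟩
  · rw [h]; simp only [card_empty, Nat.cast_zero]; positivity
  · have hw0' : (∏ i, (w0 i : ℕ)) * u ≡ c [MOD r] := (mem_filter.1 hw0).2
    set n0 := ∏ i, (w0 i : ℕ) with hn0
    set N := (Ioc 0 (Y ^ Fintype.card ι)).filter (fun x => x ≡ n0 [MOD r]) with hN
    have hsub : W ⊆ N.biUnion (fun n => (univ : Finset (ι → P)).filter
        (fun w => ∏ i, (w i : ℕ) = n)) := by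
      intro w hw
      have hw' : (∏ i, (w i : ℕ)) * u ≡ c [MOD r] := (mem_filter.1 hw).2
      refine mem_biUnion.2 ⟨∏ i, (w i : ℕ), ?_, mem_filter.2 ⟨mem_univ _, rfl⟩⟩
      refine mem_filter.2 ⟨mem_Ioc.2 ⟨?_, ?_⟩, ?_⟩
      · exact Finset.prod_pos fun i _ => (hP _ (w i).2).pos
      · calc ∏ i, (w i : ℕ) ≤ ∏ _i : ι, Y := Finset.prod_le_prod' fun i _ => hY _ (w i).2
          _ = Y ^ Fintype.card ι := by simp
      · exact Nat.ModEq.cancel_right_of_coprime (c := u)
          (by rw [Nat.gcd_comm]; exact hu) (hw'.trans hw0'.symm)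
    have h1 : W.card ≤ N.card * (Fintype.card ι).factorial := by
      calc W.card ≤ _ := card_le_card hsub
        _ ≤ ∑ n ∈ N, ((univ : Finset (ι → P)).filter
            (fun w => ∏ i, (w i : ℕ) = n)).card := card_biUnion_le
        _ ≤ ∑ _n ∈ N, (Fintype.card ι).factorial :=
            sum_le_sum fun n _ => C_card_prod_eq_le P hP n
        _ = _ := by rw [sum_const, smul_eq_mul]
    have h2 : (N.card : ℝ) ≤ ((Y ^ Fintype.card ι : ℕ) : ℝ) / r + 1 :=
      C_card_residue_le _ r n0 hr
    calc (W.card : ℝ) ≤ ((N.card * (Fintype.card ι).factorial : ℕ) : ℝ) := by exact_mod_cast h1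
      _ = ((Fintype.card ι).factorial : ℝ) * N.card := by push_cast; ring
      _ ≤ _ := by
        refine mul_le_mul_of_nonneg_left ?_ (by positivity)
        calc (N.card : ℝ) ≤ _ := h2
          _ = _ := by push_cast; ring

/-- Replace the atoms in positions `(i, J i)`, `i ∈ I`, by `w`. -/
def C_comb {P : Finset ℕ} {m g : ℕ} (I : Finset (Fin m)) (J : Fin m → Fin g)
    (v : Fin m → Fin g → P) (w : I → P) : Fin m → Fin g → P :=
  fun i j => if h : i ∈ I ∧ j = J i then w ⟨i, h.1⟩ else v i j

/-- The swap involution. -/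
def C_swap {P : Finset ℕ} {m g : ℕ} (I : Finset (Fin m)) (J : Fin m → Fin g) :
    ((Fin m → Fin g → P) × (I → P)) ≃ ((Fin m → Fin g → P) × (I → P)) where
  toFun x := (C_comb I J x.1 x.2, fun i => x.1 i (J i))
  invFun x := (C_comb I J x.1 x.2, fun i => x.1 i (J i))
  left_inv := by
    rintro ⟨v, w⟩
    ext i j
    · by_cases h : i ∈ I ∧ j = J i
      · obtain ⟨h1, rfl⟩ := h
        simp [C_comb, h1]
      · simp [C_comb, h]
    · simp [C_comb]
  right_inv := by
    rintro ⟨v, w⟩
    ext i j
    · by_cases h : i ∈ I ∧ j = J i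
      · obtain ⟨h1, rfl⟩ := h
        simp [C_comb, h1]
      · simp [C_comb, h]
    · simp [C_comb]

lemma C_pair_bound (P : Finset ℕ) (hP : ∀ p ∈ P, p.Prime) (hPne : P.Nonempty) (Y : ℕ)
    (hY : ∀ p ∈ P, p ≤ Y) (m g : ℕ) (r : ℕ) (hr : 0 < r)
    (hrP : ∀ p ∈ P, Nat.Coprime p r) (l : ℕ) (J J' : Fin m → Fin g)
    (hJ : l ≤ ((univ : Finset (Fin m)).filter (fun i => J i ≠ J' i)).card) :
    (((univ : Finset (Fin m → Fin g → P)).filter
      (fun v => atomProd v J ≡ atomProd v J' [MOD r])).card : ℝ) ≤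
      (Fintype.card (Fin m → Fin g → P) : ℝ) *
        ((l.factorial : ℝ) * ((Y : ℝ) ^ l / r + 1) / (P.card : ℝ) ^ l) := by
  classical
  obtain ⟨I, hI, hIc⟩ := exists_subset_card_eq hJ
  have hPc : (0 : ℝ) < (P.card : ℝ) ^ l := by
    have : 0 < P.card := hPne.card_pos
    positivity
  have hcardI : Fintype.card I = l := by simp [hIc]
  set G := (univ : Finset (Fin m → Fin g → P)).filter
      (fun v => atomProd v J ≡ atomProd v J' [MOD r]) with hG
  -- double counting
  have h1 : ((univ : Finset ((Fin m → Fin g → P) × (I → P))).filter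
      (fun x => x.1 ∈ G)).card = G.card * P.card ^ l := by
    have : (univ : Finset ((Fin m → Fin g → P) × (I → P))).filter
      (fun x => x.1 ∈ G) = G ×ˢ univ := by
      ext x; simp
    rw [this, card_product]
    simp [hIc]
  have h2 : ((univ : Finset ((Fin m → Fin g → P) × (I → P))).filter
      (fun x => x.1 ∈ G)).card = ((univ : Finset ((Fin m → Fin g → P) × (I → P))).filter
      (fun x => C_comb I J x.1 x.2 ∈ G)).card := by
    symm
    refine Finset.card_bij (fun x _ => C_swap I J x) ?_ ?_ ?_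
    · intro x hx
      simpa [C_swap] using hx
    · intro x _ y _ h
      exact (C_swap I J).injective h
    · intro y hy
      refine ⟨(C_swap I J) y, ?_, ?_⟩
      · have : C_comb I J ((C_swap I J) y).1 ((C_swap I J) y).2 = y.1 := by
          have := (C_swap I J).left_inv y
          exact congrArg Prod.fst this
        simp only [mem_filter, mem_univ, true_and] at hy ⊢
        rw [this]; exact hy
      · exact (C_swap I J).left_inv y
  have h3 : ((univ : Finset ((Fin m → Fin g → P) × (I → P))).filter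
      (fun x => C_comb I J x.1 x.2 ∈ G)).card =
      ∑ v : Fin m → Fin g → P, ((univ : Finset (I → P)).filter
        (fun w => C_comb I J v w ∈ G)).card := by
    rw [card_filter, ← univ_product_univ, sum_product]
    refine sum_congr rfl fun v _ => ?_
    rw [card_filter]
  have h4 : ∀ v : Fin m → Fin g → P, (((univ : Finset (I → P)).filter
        (fun w => C_comb I J v w ∈ G)).card : ℝ) ≤ (l.factorial : ℝ) * ((Y : ℝ) ^ l / r + 1) := by
    intro v
    have hcop : Nat.Coprime (∏ i ∈ univ \ I, (v i (J i) : ℕ)) r :=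
      Nat.Coprime.prod_left fun i _ => hrP _ (v i (J i)).2
    have key := C_card_inner (ι := I) P hP Y hY r hr
      (∏ i ∈ univ \ I, (v i (J i) : ℕ)) (atomProd v J') hcop
    rw [hcardI] at key
    refine le_trans (le_of_eq ?_) key
    congr 2
    ext w
    simp only [hG, mem_filter, mem_univ, true_and]
    have e1 : atomProd (C_comb I J v w) J =
        (∏ i, (w i : ℕ)) * ∏ i ∈ univ \ I, (v i (J i) : ℕ) := by
      unfold atomProd
      rw [← prod_sdiff (subset_univ I), mul_comm]
      congr 1
      · rw [← prod_coe_sort]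
        refine prod_congr rfl fun i _ => ?_
        simp [C_comb]
      · refine prod_congr rfl fun i hi => ?_
        have : i ∉ I := (mem_sdiff.1 hi).2
        simp [C_comb, this]
    have e2 : atomProd (C_comb I J v w) J' = atomProd v J' := by
      unfold atomProd
      refine prod_congr rfl fun i _ => ?_
      by_cases hi : i ∈ I
      · have : J i ≠ J' i := (mem_filter.1 (hI hi)).2
        simp [C_comb, this.symm]
      · simp [C_comb, hi]
    rw [e1, e2]
  have h5 : (G.card : ℝ) * (P.card : ℝ) ^ l ≤ (Fintype.card (Fin m → Fin g → P) : ℝ) *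
      ((l.factorial : ℝ) * ((Y : ℝ) ^ l / r + 1)) := by
    have : (G.card : ℝ) * (P.card : ℝ) ^ l = ((∑ v : Fin m → Fin g → P,
        ((univ : Finset (I → P)).filter (fun w => C_comb I J v w ∈ G)).card : ℕ) : ℝ) := by
      rw [← h3, ← h2, h1]; push_cast; ring
    rw [this]
    push_cast
    calc _ ≤ ∑ _v : Fin m → Fin g → P, (l.factorial : ℝ) * ((Y : ℝ) ^ l / r + 1) :=
          sum_le_sum fun v _ => h4 v
      _ = _ := by rw [sum_const, nsmul_eq_mul, card_univ]
  rw [← mul_div_assoc, le_div_iff₀ hPc]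
  exact h5

/-- Number of `J'` differing from `J` in fewer than `l` places. -/
lemma C_close (m g l : ℕ) (hg : 0 < g) (J : Fin m → Fin g) :
    ((univ : Finset (Fin m → Fin g)).filter
      (fun J' => ((univ : Finset (Fin m)).filter (fun i => J i ≠ J' i)).card < l)).card ≤
      2 ^ m * g ^ l := by
  classical
  have hsub : ((univ : Finset (Fin m → Fin g)).filter
      (fun J' => ((univ : Finset (Fin m)).filter (fun i => J i ≠ J' i)).card < l)) ⊆
      ((univ : Finset (Finset (Fin m))).filter (fun D => D.card < l)).biUnion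
        (fun D => (univ : Finset (Fin m → Fin g)).filter (fun J' =>
          (univ : Finset (Fin m)).filter (fun i => J i ≠ J' i) = D)) := by
    intro J' hJ'
    refine mem_biUnion.2 ⟨(univ : Finset (Fin m)).filter (fun i => J i ≠ J' i), ?_, ?_⟩
    · exact mem_filter.2 ⟨mem_univ _, (mem_filter.1 hJ').2⟩
    · exact mem_filter.2 ⟨mem_univ _, rfl⟩
  have hD : ∀ D : Finset (Fin m), ((univ : Finset (Fin m → Fin g)).filter (fun J' =>
          (univ : Finset (Fin m)).filter (fun i => J i ≠ J' i) = D)).card ≤ g ^ D.card := by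
    intro D
    have : ((univ : Finset (Fin m → Fin g)).filter (fun J' =>
          (univ : Finset (Fin m)).filter (fun i => J i ≠ J' i) = D)).card ≤
          (univ : Finset (D → Fin g)).card := by
      refine card_le_card_of_injOn (fun J' => fun i => J' i) (fun _ _ => mem_coe.2 (mem_univ _)) ?_
      intro A hA B hB hAB
      funext i
      by_cases hi : i ∈ D
      · exact congrFun hAB ⟨i, hi⟩
      · have hA' := (mem_filter.1 (mem_coe.1 hA)).2
        have hB' := (mem_filter.1 (mem_coe.1 hB)).2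
        have h1 : ¬ (J i ≠ A i) := fun h => hi (hA' ▸ mem_filter.2 ⟨mem_univ _, h⟩)
        have h2 : ¬ (J i ≠ B i) := fun h => hi (hB' ▸ mem_filter.2 ⟨mem_univ _, h⟩)
        rw [not_not] at h1 h2
        rw [← h1, ← h2]
    refine this.trans (le_of_eq ?_)
    simp
  calc _ ≤ _ := card_le_card hsub
    _ ≤ ∑ D ∈ (univ : Finset (Finset (Fin m))).filter (fun D => D.card < l),
        ((univ : Finset (Fin m → Fin g)).filter (fun J' =>
          (univ : Finset (Fin m)).filter (fun i => J i ≠ J' i) = D)).card := card_biUnion_le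
    _ ≤ ∑ D ∈ (univ : Finset (Finset (Fin m))).filter (fun D => D.card < l), g ^ l := by
        refine sum_le_sum fun D hD' => (hD D).trans ?_
        exact Nat.pow_le_pow_right hg (le_of_lt (mem_filter.1 hD').2)
    _ ≤ ∑ D ∈ (univ : Finset (Finset (Fin m))), g ^ l :=
        sum_le_sum_of_subset (filter_subset _ _)
    _ = _ := by simp

theorem sum_cp_atomProd_le (P : Finset ℕ) (hP : ∀ p ∈ P, p.Prime) (hPne : P.Nonempty) (Y : ℕ)
    (hY : ∀ p ∈ P, p ≤ Y) (m g : ℕ) (hg : 0 < g) (r : ℕ) (hr : 0 < r)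
    (hrP : ∀ p ∈ P, Nat.Coprime p r) (l : ℕ) (hl : l ≤ m) :
    ∑ v : Fin m → Fin g → P, cp (atomProd v) r ≤
      (Fintype.card (Fin m → Fin g → P) : ℝ) *
        ((2 : ℝ) ^ m / (g : ℝ) ^ (m - l) +
          (l.factorial : ℝ) * ((Y : ℝ) ^ l / r + 1) / (P.card : ℝ) ^ l) := by
  classical
  set C : ℝ := (Fintype.card (Fin m → Fin g → P) : ℝ) with hC
  have hC0 : 0 ≤ C := by rw [hC]; positivity
  have hgR : (0 : ℝ) < g := by exact_mod_cast hg
  set b : ℝ := (l.factorial : ℝ) * ((Y : ℝ) ^ l / r + 1) / (P.card : ℝ) ^ l with hb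
  have hb0 : 0 ≤ b := by rw [hb]; positivity
  have hι : (Fintype.card (Fin m → Fin g) : ℝ) = (g : ℝ) ^ m := by simp
  -- swap the sums
  have hswap : ∑ v : Fin m → Fin g → P, cp (atomProd v) r =
      (∑ J : Fin m → Fin g, ∑ J' : Fin m → Fin g,
        (((univ : Finset (Fin m → Fin g → P)).filter
          (fun v => atomProd v J ≡ atomProd v J' [MOD r])).card : ℝ)) / ((g : ℝ) ^ m) ^ 2 := by
    unfold cp
    rw [← sum_div, hι]
    congr 1
    have : ∀ v : Fin m → Fin g → P, (((univ : Finset ((Fin m → Fin g) × (Fin m → Fin g))).filter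
        (fun p => atomProd v p.1 ≡ atomProd v p.2 [MOD r])).card : ℝ) =
        ∑ J : Fin m → Fin g, ∑ J' : Fin m → Fin g,
          (if atomProd v J ≡ atomProd v J' [MOD r] then (1 : ℝ) else 0) := by
      intro v
      rw [card_filter, ← univ_product_univ, sum_product]
      push_cast
      rfl
    rw [sum_congr rfl fun v _ => this v, sum_comm]
    refine sum_congr rfl fun J _ => ?_
    rw [sum_comm]
    refine sum_congr rfl fun J' _ => ?_
    rw [card_filter]
    push_cast
    rfl
  rw [hswap, div_le_iff₀ (by positivity)]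
  -- bound each `J`
  have hJ : ∀ J : Fin m → Fin g, ∑ J' : Fin m → Fin g,
        (((univ : Finset (Fin m → Fin g → P)).filter
          (fun v => atomProd v J ≡ atomProd v J' [MOD r])).card : ℝ) ≤
        C * ((2 : ℝ) ^ m * (g : ℝ) ^ l) + (g : ℝ) ^ m * (C * b) := by
    intro J
    have hpt : ∀ J' : Fin m → Fin g, (((univ : Finset (Fin m → Fin g → P)).filter
          (fun v => atomProd v J ≡ atomProd v J' [MOD r])).card : ℝ) ≤
          C * (if ((univ : Finset (Fin m)).filter (fun i => J i ≠ J' i)).card < l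
            then (1 : ℝ) else 0) + C * b := by
      intro J'
      by_cases h : ((univ : Finset (Fin m)).filter (fun i => J i ≠ J' i)).card < l
      · rw [if_pos h, mul_one]
        have h1 : (((univ : Finset (Fin m → Fin g → P)).filter
          (fun v => atomProd v J ≡ atomProd v J' [MOD r])).card : ℝ) ≤ C := by
          rw [hC]
          exact_mod_cast card_le_univ _
        have : 0 ≤ C * b := mul_nonneg hC0 hb0
        linarith
      · rw [if_neg h, mul_zero, zero_add]
        exact C_pair_bound P hP hPne Y hY m g r hr hrP l J J' (not_lt.1 h)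
    calc _ ≤ ∑ J' : Fin m → Fin g, (C * (if ((univ : Finset (Fin m)).filter
          (fun i => J i ≠ J' i)).card < l then (1 : ℝ) else 0) + C * b) :=
          sum_le_sum fun J' _ => hpt J'
      _ = C * (((univ : Finset (Fin m → Fin g)).filter (fun J' =>
          ((univ : Finset (Fin m)).filter (fun i => J i ≠ J' i)).card < l)).card : ℝ) +
          (g : ℝ) ^ m * (C * b) := by
          rw [sum_add_distrib, ← mul_sum, sum_const, nsmul_eq_mul, card_univ, hι, card_filter]
          push_cast
          rfl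
      _ ≤ _ := by
          have := C_close m g l hg J
          have h' : (((univ : Finset (Fin m → Fin g)).filter (fun J' =>
            ((univ : Finset (Fin m)).filter (fun i => J i ≠ J' i)).card < l)).card : ℝ) ≤
            (2 : ℝ) ^ m * (g : ℝ) ^ l := by exact_mod_cast this
          have := mul_le_mul_of_nonneg_left h' hC0
          linarith
  calc _ ≤ ∑ J : Fin m → Fin g, (C * ((2 : ℝ) ^ m * (g : ℝ) ^ l) + (g : ℝ) ^ m * (C * b)) :=
        sum_le_sum fun J _ => hJ J
    _ = (g : ℝ) ^ m * (C * ((2 : ℝ) ^ m * (g : ℝ) ^ l) + (g : ℝ) ^ m * (C * b)) := by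
        rw [sum_const, nsmul_eq_mul, card_univ, hι]
    _ = C * ((2 : ℝ) ^ m / (g : ℝ) ^ (m - l) + b) * ((g : ℝ) ^ m) ^ 2 := by
        have hsplit : (g : ℝ) ^ m = (g : ℝ) ^ (m - l) * (g : ℝ) ^ l := by
          rw [← pow_add, Nat.sub_add_cancel hl]
        have h0 : (g : ℝ) ^ (m - l) ≠ 0 := by positivity
        field_simp
        rw [hsplit]
        ring

end Vale.Agent.H2.P012
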