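import Vale.Agent.H2.P012.Defs

namespace Vale.Agent.H2.P012

open Finset

theorem card_divisors_le (n Z t : ℕ) (hn : 0 < n) (hnZ : n ≤ 2 ^ Z) (ht : 0 < t) :
    n.divisors.card ≤ (Z + 1) ^ (2 ^ t) * 2 ^ (Z / t) := by
  classical
  rw [Nat.card_divisors hn.ne']
  have hsplit := Finset.prod_filter_mul_prod_filter_not n.primeFactors (fun p => p < 2 ^ t)
    (fun p => n.factorization p + 1)
  rw [← hsplit]
  apply Nat.mul_le_mul
  · have h1 : ∀ p ∈ n.primeFactors.filter (fun p => p < 2 ^ t), n.factorization p + 1 ≤ Z + 1 := by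
      intro p hp
      have hp' := (Finset.mem_filter.1 hp).1
      have hpr := Nat.prime_of_mem_primeFactors hp'
      have h2 : p ^ n.factorization p ≤ n := Nat.le_of_dvd hn (Nat.ordProj_dvd n p)
      have h3 : 2 ^ n.factorization p ≤ 2 ^ Z :=
        (Nat.pow_le_pow_left hpr.two_le _).trans (h2.trans hnZ)
      have := (Nat.pow_le_pow_iff_right (by norm_num)).1 h3
      omega
    refine (Finset.prod_le_pow_card _ _ _ h1).trans ?_
    apply Nat.pow_le_pow_right (by omega)
    calc (n.primeFactors.filter (fun p => p < 2 ^ t)).card ≤ (Finset.range (2 ^ t)).card := by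
          apply Finset.card_le_card
          intro p hp
          exact Finset.mem_range.2 (Finset.mem_filter.1 hp).2
      _ = 2 ^ t := Finset.card_range _
  · set B := n.primeFactors.filter (fun p => ¬ p < 2 ^ t) with hB
    have h1 : ∏ p ∈ B, (n.factorization p + 1) ≤ ∏ p ∈ B, 2 ^ n.factorization p := by
      apply Finset.prod_le_prod'
      intro p _
      exact Nat.lt_two_pow_self
    refine h1.trans ?_
    rw [Finset.prod_pow_eq_pow_sum]
    apply Nat.pow_le_pow_right (by norm_num)
    rw [Nat.le_div_iff_mul_le ht]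
    have h2 : (2 ^ t) ^ (∑ p ∈ B, n.factorization p) ≤ 2 ^ Z := by
      rw [← Finset.prod_pow_eq_pow_sum]
      calc ∏ p ∈ B, (2 ^ t) ^ n.factorization p ≤ ∏ p ∈ B, p ^ n.factorization p := by
            apply Finset.prod_le_prod'
            intro p hp
            have := (Finset.mem_filter.1 hp).2
            exact Nat.pow_le_pow_left (not_lt.1 this) _
        _ ≤ ∏ p ∈ n.primeFactors, p ^ n.factorization p := by
            apply Finset.prod_le_prod_of_subset_of_one_le' (Finset.filter_subset _ _)
            intro p hp _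
            exact Nat.one_le_pow _ _ (Nat.prime_of_mem_primeFactors hp).pos
        _ = n := by
            have := Nat.prod_factorization_pow_eq_self hn.ne'
            simpa [Finsupp.prod] using this
        _ ≤ 2 ^ Z := hnZ
    rw [← pow_mul] at h2
    have := (Nat.pow_le_pow_iff_right (by norm_num)).1 h2
    linarith [mul_comm t (∑ p ∈ B, n.factorization p)]

end Vale.Agent.H2.P012
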