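import Vale.Agent.H2.P012.Defs

set_option autoImplicit false

namespace Vale.Agent.H2.P012

open Finset

private lemma E_step (δ x : ℝ) (hδ : 0 < δ) (hδ1 : δ ≤ 1) (hx : 1 ≤ x) :
    δ * (x + 1) ^ (-(1 + δ)) ≤ x ^ (-δ) - (x + 1) ^ (-δ) := by
  have hx0 : 0 < x := by linarith
  have hx1 : 0 < x + 1 := by linarith
  -- (1 + 1/x)^δ... use: x^(-δ) = (x+1)^(-δ) * (1 - 1/(x+1))^(-δ), and (1-y)^(-δ) ≥ 1 + δ y
  set y : ℝ := 1 / (x + 1) with hy
  have hy0 : 0 < y := by positivity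
  have hy1 : y < 1 := by rw [hy, div_lt_one hx1]; linarith
  have h1 : x = (x + 1) * (1 - y) := by rw [hy]; field_simp; ring
  have h2 : x ^ (-δ) = (x + 1) ^ (-δ) * (1 - y) ^ (-δ) := by
    conv_lhs => rw [h1]
    rw [Real.mul_rpow hx1.le (by linarith)]
  have h3 : 1 + δ * y ≤ (1 - y) ^ (-δ) := by
    have h4 : (1 - y) ^ δ ≤ 1 - δ * y := by
      have := rpow_one_add_le_one_add_mul_self (s := -y) (by linarith) hδ.le hδ1
      have e : 1 + δ * -y = 1 - δ * y := by ring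
      rw [e] at this
      simpa [sub_eq_add_neg] using this
    have hpos : 0 < (1 - y) ^ δ := Real.rpow_pos_of_pos (by linarith) _
    rw [Real.rpow_neg (by linarith), ← one_div, le_div_iff₀ hpos]
    calc (1 + δ * y) * (1 - y) ^ δ ≤ (1 + δ * y) * (1 - δ * y) :=
          mul_le_mul_of_nonneg_left h4 (by positivity)
      _ ≤ 1 := by nlinarith [mul_pos hδ hy0]
  have h5 : (x + 1) ^ (-(1 + δ)) = (x + 1) ^ (-δ) * y := by
    rw [hy, one_div, ← Real.rpow_neg_one (x + 1), ← Real.rpow_add hx1]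
    congr 1; ring
  rw [h2, h5]
  have hp : 0 < (x + 1) ^ (-δ) := Real.rpow_pos_of_pos hx1 _
  nlinarith

theorem sum_rpow_neg_le (R : ℕ) : ∑ r ∈ Icc 1 R, (r : ℝ) ^ (-(9 / 8 : ℝ)) ≤ 9 := by
  have key : ∀ R : ℕ, 1 ≤ R → ∑ r ∈ Icc 1 R, (r : ℝ) ^ (-(9 / 8 : ℝ))
      ≤ 9 - 8 * (R : ℝ) ^ (-(1 / 8 : ℝ)) := by
    intro R hR
    induction R, hR using Nat.le_induction with
    | base => simp; norm_num
    | succ n hn ih =>
      rw [Finset.sum_Icc_succ_top (by omega)]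
      have hn1 : (1 : ℝ) ≤ n := by exact_mod_cast hn
      have h := E_step (1 / 8) n (by norm_num) (by norm_num) hn1
      have e : (-(1 + 1 / 8) : ℝ) = -(9 / 8) := by norm_num
      rw [e] at h
      push_cast
      linarith
  rcases Nat.eq_zero_or_pos R with h | h
  · subst h; simp
  · have := key R h
    have h2 : 0 ≤ (R : ℝ) ^ (-(1 / 8 : ℝ)) := by positivity
    linarith

theorem sum_rpow_neg_tail_le (a b : ℕ) (ha : 0 < a) :
    ∑ r ∈ Ioc a b, (r : ℝ) ^ (-(5 / 4 : ℝ)) ≤ 4 * (a : ℝ) ^ (-(1 / 4 : ℝ)) := by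
  rcases Nat.lt_or_ge a b with hab | hab
  · have key : ∀ b : ℕ, a ≤ b → ∑ r ∈ Ioc a b, (r : ℝ) ^ (-(5 / 4 : ℝ))
        ≤ 4 * (a : ℝ) ^ (-(1 / 4 : ℝ)) - 4 * (b : ℝ) ^ (-(1 / 4 : ℝ)) := by
      intro b hb
      induction b, hb using Nat.le_induction with
      | base => simp
      | succ n hn ih =>
        rw [Finset.sum_Ioc_succ_top (by omega)]
        have hn1 : (1 : ℝ) ≤ n := by exact_mod_cast (by omega : 1 ≤ n)
        have h := E_step (1 / 4) n (by norm_num) (by norm_num) hn1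
        have e : (-(1 + 1 / 4) : ℝ) = -(5 / 4) := by norm_num
        rw [e] at h
        push_cast
        linarith
    have := key b hab.le
    have h2 : 0 ≤ (b : ℝ) ^ (-(1 / 4 : ℝ)) := by positivity
    linarith
  · rw [Finset.Ioc_eq_empty (by omega)]
    simp
    positivity

end Vale.Agent.H2.P012
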