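import Vale.Agent.H2.P012.Defs

namespace Vale.Agent.H2.P012

open Finset

lemma F_energy {ι κ α : Type} [Fintype ι] [Fintype κ] [DecidableEq α] (F : ι → α) (G : κ → α)
    (X : Finset α) (hX : ∀ i, F i ∈ X) :
    (((univ : Finset (ι × κ)).filter (fun p => F p.1 = G p.2)).card : ℝ) =
      ∑ x ∈ X, (((univ : Finset ι).filter (fun i => F i = x)).card : ℝ) *
        (((univ : Finset κ).filter (fun j => G j = x)).card : ℝ) := by
  classical
  rw [card_filter, ← univ_product_univ, sum_product]
  push_cast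
  rw [← sum_fiberwise_of_maps_to (s := (univ : Finset ι)) (t := X) (g := F) (fun i _ => hX i)]
  refine sum_congr rfl fun x _ => ?_
  rw [sum_congr rfl (g := fun _ => (((univ : Finset κ).filter (fun j => G j = x)).card : ℝ)),
    sum_const, nsmul_eq_mul]
  intro i hi
  rw [card_filter]
  push_cast
  refine sum_congr rfl fun j _ => ?_
  rw [(mem_filter.1 hi).2]
  by_cases h : x = G j
  · rw [if_pos h, if_pos h.symm]
  · rw [if_neg h, if_neg (fun h' => h h'.symm)]

lemma F_cs {ι κ α : Type} [Fintype ι] [Fintype κ] [DecidableEq α] (F : ι → α) (G : κ → α) :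
    (((univ : Finset (ι × κ)).filter (fun p => F p.1 = G p.2)).card : ℝ) ^ 2 ≤
      (((univ : Finset (ι × ι)).filter (fun p => F p.1 = F p.2)).card : ℝ) *
      (((univ : Finset (κ × κ)).filter (fun p => G p.1 = G p.2)).card : ℝ) := by
  classical
  set X : Finset α := univ.image F ∪ univ.image G with hX
  have h1 : ∀ i, F i ∈ X := fun i =>
    mem_union_left _ (mem_image.2 ⟨i, mem_univ _, rfl⟩)
  have h2 : ∀ i, G i ∈ X := fun i =>
    mem_union_right _ (mem_image.2 ⟨i, mem_univ _, rfl⟩)
  rw [F_energy F G X h1, F_energy F F X h1, F_energy G G X h2]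
  refine (sum_mul_sq_le_sq_mul_sq _ _ _).trans (le_of_eq ?_)
  simp only [sq]

/-- Shifted collisions are at most the collisions. -/
lemma F_shift {ι : Type} [Fintype ι] (f : ι → ℕ) (q : ℕ) (c : ℤ) :
    ((univ : Finset (ι × ι)).filter
      (fun p => ((f p.1 : ℕ) : ZMod q) = ((f p.2 : ℕ) : ZMod q) + (c : ZMod q))).card ≤
      ((univ : Finset (ι × ι)).filter (fun p => f p.1 ≡ f p.2 [MOD q])).card := by
  classical
  have h := F_cs (fun i => ((f i : ℕ) : ZMod q)) (fun i => ((f i : ℕ) : ZMod q) + (c : ZMod q))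
  have e1 : (univ : Finset (ι × ι)).filter
      (fun p => ((f p.1 : ℕ) : ZMod q) = ((f p.2 : ℕ) : ZMod q)) =
      (univ : Finset (ι × ι)).filter (fun p => f p.1 ≡ f p.2 [MOD q]) := by
    ext p
    simp only [mem_filter, mem_univ, true_and]
    exact ZMod.natCast_eq_natCast_iff _ _ _
  have e2 : (univ : Finset (ι × ι)).filter
      (fun p => ((f p.1 : ℕ) : ZMod q) + (c : ZMod q) = ((f p.2 : ℕ) : ZMod q) + (c : ZMod q)) =
      (univ : Finset (ι × ι)).filter (fun p => f p.1 ≡ f p.2 [MOD q]) := by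
    rw [← e1]
    ext p
    simp only [mem_filter, mem_univ, true_and, add_left_inj]
  rw [e1, e2] at h
  have h' : (((univ : Finset (ι × ι)).filter
      (fun p => ((f p.1 : ℕ) : ZMod q) = ((f p.2 : ℕ) : ZMod q) + (c : ZMod q))).card : ℝ) ≤
      (((univ : Finset (ι × ι)).filter (fun p => f p.1 ≡ f p.2 [MOD q])).card : ℝ) := by
    refine le_of_sq_le_sq ?_ (by positivity)
    rw [sq (Nat.cast (card (filter (fun p : ι × ι => f p.1 ≡ f p.2 [MOD q]) univ)))]
    exact h
  exact_mod_cast h'

lemma F_sum_cons {ι : Type} [Fintype ι] (K : ℕ) (Φ : (Fin (K + 1) → ι) → ℕ) :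
    ∑ w : Fin (K + 1) → ι, Φ w = ∑ a : ι, ∑ u : Fin K → ι, Φ (Fin.cons a u) := by
  classical
  rw [← Fintype.sum_equiv (Fin.consEquiv (fun _ : Fin (K + 1) => ι))
    (fun x => Φ (Fin.cons x.1 x.2)) Φ (fun x => rfl)]
  rw [← univ_product_univ, sum_product]

lemma F_digitSum_cons {ι : Type} (q K : ℕ) (f : ι → ℕ) (a : ι) (u : Fin K → ι) :
    digitSum q (K + 1) f (Fin.cons a u) = f a + q * digitSum q K f u := by
  unfold digitSum
  rw [Fin.sum_univ_succ]
  simp only [Fin.val_zero, pow_zero, one_mul, Fin.cons_zero, Fin.val_succ, Fin.cons_succ]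
  rw [mul_sum]
  congr 1
  refine sum_congr rfl fun i _ => ?_
  ring

lemma F_count_pairs {ι : Type} [Fintype ι] (p : ι × ι → Prop) [DecidablePred p] :
    ((univ : Finset (ι × ι)).filter p).card = ∑ a : ι, ∑ a' : ι, if p (a, a') then 1 else 0 := by
  rw [card_filter, ← univ_product_univ, sum_product]

theorem cp_digitSum_le {ι : Type} [Fintype ι] [Nonempty ι] (f : ι → ℕ) (q K r : ℕ) (hK : 0 < K) :
    cp (digitSum q K f) r ≤ cp f r := by
  classical
  obtain ⟨K, rfl⟩ : ∃ k, K = k + 1 := ⟨K - 1, by omega⟩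
  have hn : (0 : ℝ) < (Fintype.card ι : ℝ) := by
    exact_mod_cast Fintype.card_pos
  have hcount : ((univ : Finset ((Fin (K + 1) → ι) × (Fin (K + 1) → ι))).filter
      (fun p => digitSum q (K + 1) f p.1 ≡ digitSum q (K + 1) f p.2 [MOD r])).card ≤
      (Fintype.card ι ^ K) ^ 2 *
        ((univ : Finset (ι × ι)).filter (fun p => f p.1 ≡ f p.2 [MOD r])).card := by
    rw [F_count_pairs, F_sum_cons]
    have e1 : ∀ a : ι, ∀ u : Fin K → ι, (∑ w' : Fin (K + 1) → ι,
        if digitSum q (K + 1) f (Fin.cons a u) ≡ digitSum q (K + 1) f w' [MOD r] then 1 else 0) =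
        ∑ a' : ι, ∑ u' : Fin K → ι, (if ((f a : ℕ) : ZMod r) = ((f a' : ℕ) : ZMod r) +
          (((q * digitSum q K f u' : ℕ) : ℤ) - ((q * digitSum q K f u : ℕ) : ℤ) : ℤ)
          then 1 else 0) := by
      intro a u
      rw [F_sum_cons]
      refine sum_congr rfl fun a' _ => sum_congr rfl fun u' _ => ?_
      rw [F_digitSum_cons, F_digitSum_cons]
      refine if_congr ?_ rfl rfl
      rw [← ZMod.natCast_eq_natCast_iff]
      push_cast
      constructor
      · intro h
        linear_combination h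
      · intro h
        linear_combination h
    simp only [e1]
    calc ∑ a : ι, ∑ u : Fin K → ι, ∑ a' : ι, ∑ u' : Fin K → ι,
          (if ((f a : ℕ) : ZMod r) = ((f a' : ℕ) : ZMod r) +
          (((q * digitSum q K f u' : ℕ) : ℤ) - ((q * digitSum q K f u : ℕ) : ℤ) : ℤ)
          then 1 else 0) =
        ∑ u : Fin K → ι, ∑ u' : Fin K → ι, ∑ a : ι, ∑ a' : ι,
          (if ((f a : ℕ) : ZMod r) = ((f a' : ℕ) : ZMod r) +
          (((q * digitSum q K f u' : ℕ) : ℤ) - ((q * digitSum q K f u : ℕ) : ℤ) : ℤ)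
          then 1 else 0) := by
          rw [sum_comm]
          refine sum_congr rfl fun u _ => ?_
          rw [sum_congr rfl fun a _ => sum_comm]
          rw [sum_comm]
      _ ≤ ∑ _u : Fin K → ι, ∑ _u' : Fin K → ι,
          ((univ : Finset (ι × ι)).filter (fun p => f p.1 ≡ f p.2 [MOD r])).card := by
          refine sum_le_sum fun u _ => sum_le_sum fun u' _ => ?_
          refine le_trans (le_of_eq ?_) (F_shift f r
            (((q * digitSum q K f u' : ℕ) : ℤ) - ((q * digitSum q K f u : ℕ) : ℤ)))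
          rw [F_count_pairs]
      _ = _ := by
          simp only [sum_const, card_univ, smul_eq_mul, Fintype.card_fun, Fintype.card_fin]
          ring
  unfold cp
  have hcard : (Fintype.card (Fin (K + 1) → ι) : ℝ) = (Fintype.card ι : ℝ) ^ (K + 1) := by
    simp
  rw [hcard, div_le_div_iff₀ (by positivity) (by positivity)]
  have h' : (((univ : Finset ((Fin (K + 1) → ι) × (Fin (K + 1) → ι))).filter
      (fun p => digitSum q (K + 1) f p.1 ≡ digitSum q (K + 1) f p.2 [MOD r])).card : ℝ) ≤
      ((Fintype.card ι : ℝ) ^ K) ^ 2 *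
        (((univ : Finset (ι × ι)).filter (fun p => f p.1 ≡ f p.2 [MOD r])).card : ℝ) := by
    exact_mod_cast hcount
  calc _ ≤ ((Fintype.card ι : ℝ) ^ K) ^ 2 *
        (((univ : Finset (ι × ι)).filter (fun p => f p.1 ≡ f p.2 [MOD r])).card : ℝ) *
        (Fintype.card ι : ℝ) ^ 2 := mul_le_mul_of_nonneg_right h' (by positivity)
    _ = _ := by ring

lemma F_zero_count {ι : Type} [Fintype ι] (f : ι → ℕ) (q : ℕ) (hq : 0 < q) (K : ℕ) :
    ∀ c : ℤ, ((univ : Finset ((Fin K → ι) × (Fin K → ι))).filter
      (fun p => (digitSum q K f p.1 : ℤ) = (digitSum q K f p.2 : ℤ) + c)).card ≤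
      ((univ : Finset (ι × ι)).filter (fun p => f p.1 ≡ f p.2 [MOD q])).card ^ K := by
  classical
  induction K with
  | zero =>
    intro c
    rw [pow_zero]
    refine (card_le_univ _).trans ?_
    simp
  | succ K ih =>
    intro c
    rw [F_count_pairs, F_sum_cons]
    have e1 : ∀ a : ι, ∀ u : Fin K → ι, (∑ w' : Fin (K + 1) → ι,
        if (digitSum q (K + 1) f (Fin.cons a u) : ℤ) = (digitSum q (K + 1) f w' : ℤ) + c
          then 1 else 0) =
        ∑ a' : ι, ∑ u' : Fin K → ι, (if (f a : ℤ) + q * (digitSum q K f u : ℤ) =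
          (f a' : ℤ) + q * (digitSum q K f u' : ℤ) + c then 1 else 0) := by
      intro a u
      rw [F_sum_cons]
      refine sum_congr rfl fun a' _ => sum_congr rfl fun u' _ => ?_
      rw [F_digitSum_cons, F_digitSum_cons]
      refine if_congr ?_ rfl rfl
      push_cast
      exact Iff.rfl
    simp only [e1]
    calc ∑ a : ι, ∑ u : Fin K → ι, ∑ a' : ι, ∑ u' : Fin K → ι,
          (if (f a : ℤ) + q * (digitSum q K f u : ℤ) =
          (f a' : ℤ) + q * (digitSum q K f u' : ℤ) + c then 1 else 0) =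
        ∑ a : ι, ∑ a' : ι, ∑ u : Fin K → ι, ∑ u' : Fin K → ι,
          (if (f a : ℤ) + q * (digitSum q K f u : ℤ) =
          (f a' : ℤ) + q * (digitSum q K f u' : ℤ) + c then 1 else 0) := by
          refine sum_congr rfl fun a _ => ?_
          rw [sum_comm]
      _ ≤ ∑ a : ι, ∑ a' : ι, (if ((f a : ℕ) : ZMod q) = ((f a' : ℕ) : ZMod q) + (c : ZMod q)
          then 1 else 0) *
          ((univ : Finset (ι × ι)).filter (fun p => f p.1 ≡ f p.2 [MOD q])).card ^ K := by
          refine sum_le_sum fun a _ => sum_le_sum fun a' _ => ?_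
          by_cases hc : ((f a : ℕ) : ZMod q) = ((f a' : ℕ) : ZMod q) + (c : ZMod q)
          · rw [if_pos hc, one_mul]
            have hdvd : (q : ℤ) ∣ (f a' : ℤ) + c - (f a : ℤ) := by
              have : (((f a' : ℤ) + c - (f a : ℤ) : ℤ) : ZMod q) = 0 := by
                push_cast
                rw [hc]; ring
              exact (ZMod.intCast_zmod_eq_zero_iff_dvd _ _).1 this
            obtain ⟨c', hc'⟩ := hdvd
            refine le_trans (le_of_eq ?_) (ih c')
            rw [F_count_pairs]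
            refine sum_congr rfl fun u _ => sum_congr rfl fun u' _ => ?_
            refine if_congr ?_ rfl rfl
            have hq' : (q : ℤ) ≠ 0 := by exact_mod_cast hq.ne'
            constructor
            · intro h
              have h2 : (q : ℤ) * (digitSum q K f u : ℤ) =
                  (q : ℤ) * ((digitSum q K f u' : ℤ) + c') := by
                linear_combination h + hc'
              exact mul_left_cancel₀ hq' h2
            · intro h
              rw [h]
              linear_combination -hc'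
          · rw [if_neg hc, zero_mul]
            refine le_of_eq ?_
            refine sum_eq_zero fun u _ => sum_eq_zero fun u' _ => ?_
            rw [if_neg]
            intro h
            apply hc
            have h2 := congrArg (fun z : ℤ => (z : ZMod q)) h
            push_cast at h2
            simp only [CharP.cast_eq_zero, zero_mul, add_zero] at h2
            exact h2
      _ = ((univ : Finset (ι × ι)).filter
          (fun p => ((f p.1 : ℕ) : ZMod q) = ((f p.2 : ℕ) : ZMod q) + (c : ZMod q))).card *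
          ((univ : Finset (ι × ι)).filter (fun p => f p.1 ≡ f p.2 [MOD q])).card ^ K := by
          rw [F_count_pairs (fun p : ι × ι =>
            ((f p.1 : ℕ) : ZMod q) = ((f p.2 : ℕ) : ZMod q) + (c : ZMod q)), sum_mul]
          refine sum_congr rfl fun a _ => ?_
          rw [sum_mul]
      _ ≤ _ := by
          rw [pow_succ, mul_comm]
          exact Nat.mul_le_mul_left _ (F_shift f q c)

theorem cp_digitSum_zero_le {ι : Type} [Fintype ι] [Nonempty ι] (f : ι → ℕ) (q K : ℕ)
    (hq : 0 < q) : cp (digitSum q K f) 0 ≤ (cp f q) ^ K := by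
  classical
  have h := F_zero_count f q hq K 0
  have e1 : (univ : Finset ((Fin K → ι) × (Fin K → ι))).filter
      (fun p => (digitSum q K f p.1 : ℤ) = (digitSum q K f p.2 : ℤ) + 0) =
      (univ : Finset ((Fin K → ι) × (Fin K → ι))).filter
      (fun p => digitSum q K f p.1 ≡ digitSum q K f p.2 [MOD 0]) := by
    ext p
    simp only [mem_filter, mem_univ, true_and, add_zero, Nat.ModEq, Nat.mod_zero]
    exact Nat.cast_inj
  rw [e1] at h
  unfold cp
  have hcard : (Fintype.card (Fin K → ι) : ℝ) = (Fintype.card ι : ℝ) ^ K := by simp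
  have hn : (0 : ℝ) < (Fintype.card ι : ℝ) := by exact_mod_cast Fintype.card_pos
  rw [hcard, div_pow, div_le_div_iff₀ (by positivity) (by positivity)]
  have h' : (((univ : Finset ((Fin K → ι) × (Fin K → ι))).filter
      (fun p => digitSum q K f p.1 ≡ digitSum q K f p.2 [MOD 0])).card : ℝ) ≤
      (((univ : Finset (ι × ι)).filter (fun p => f p.1 ≡ f p.2 [MOD q])).card : ℝ) ^ K := by
    exact_mod_cast h
  calc _ ≤ (((univ : Finset (ι × ι)).filter (fun p => f p.1 ≡ f p.2 [MOD q])).card : ℝ) ^ K *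
      ((Fintype.card ι : ℝ) ^ 2) ^ K := mul_le_mul_of_nonneg_right h' (by positivity)
    _ = _ := by ring

theorem sum_cp_le {ι : Type} [Fintype ι] [Nonempty ι] (f : ι → ℕ) (R B D : ℕ)
    (hB : ∀ w, f w ≤ B) (hD : ∀ n, 0 < n → n ≤ B → n.divisors.card ≤ D) :
    ∑ r ∈ Icc 1 R, cp f r ≤ D + R * cp f 0 := by
  classical
  have hn : (0 : ℝ) < (Fintype.card ι : ℝ) := by exact_mod_cast Fintype.card_pos
  have hcount : ∑ r ∈ Icc 1 R,
      ((univ : Finset (ι × ι)).filter (fun p => f p.1 ≡ f p.2 [MOD r])).card ≤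
      D * Fintype.card ι ^ 2 +
        R * ((univ : Finset (ι × ι)).filter (fun p => f p.1 ≡ f p.2 [MOD 0])).card := by
    have e1 : ∑ r ∈ Icc 1 R,
      ((univ : Finset (ι × ι)).filter (fun p => f p.1 ≡ f p.2 [MOD r])).card =
      ∑ p : ι × ι, ((Icc 1 R).filter (fun r => f p.1 ≡ f p.2 [MOD r])).card := by
      simp only [card_filter]
      exact sum_comm
    rw [e1]
    have e2 : ∀ p : ι × ι, ((Icc 1 R).filter (fun r => f p.1 ≡ f p.2 [MOD r])).card ≤
        D + R * (if f p.1 ≡ f p.2 [MOD 0] then 1 else 0) := by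
      intro p
      by_cases h : f p.1 = f p.2
      · have h0 : f p.1 ≡ f p.2 [MOD 0] := by rw [h]
        rw [if_pos h0, mul_one]
        refine (card_le_card (filter_subset _ _)).trans ?_
        simp
      · have hdiv : ∀ n : ℕ, 0 < n → n ≤ B → (∀ r ∈ Icc 1 R, f p.1 ≡ f p.2 [MOD r] → r ∣ n) →
            ((Icc 1 R).filter (fun r => f p.1 ≡ f p.2 [MOD r])).card ≤ D := by
          intro n hn0 hnB hr
          refine le_trans (card_le_card ?_) (hD n hn0 hnB)
          intro r hr'
          have h1 := mem_filter.1 hr'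
          exact Nat.mem_divisors.2 ⟨hr r h1.1 h1.2, hn0.ne'⟩
        refine le_trans ?_ (Nat.le_add_right _ _)
        rcases Nat.lt_or_gt_of_ne h with hlt | hgt
        · refine hdiv (f p.2 - f p.1) (by omega) ?_ ?_
          · have := hB p.2; omega
          · intro r _ hr
            exact (Nat.modEq_iff_dvd' hlt.le).1 hr
        · refine hdiv (f p.1 - f p.2) (by omega) ?_ ?_
          · have := hB p.1; omega
          · intro r _ hr
            exact (Nat.modEq_iff_dvd' hgt.le).1 hr.symm
    calc _ ≤ ∑ p : ι × ι, (D + R * (if f p.1 ≡ f p.2 [MOD 0] then 1 else 0)) :=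
          sum_le_sum fun p _ => e2 p
      _ = _ := by
          rw [sum_add_distrib, ← mul_sum, sum_const, card_univ, Fintype.card_prod, card_filter,
            smul_eq_mul]
          ring
  have h' : ∑ r ∈ Icc 1 R,
      (((univ : Finset (ι × ι)).filter (fun p => f p.1 ≡ f p.2 [MOD r])).card : ℝ) ≤
      (D : ℝ) * (Fintype.card ι : ℝ) ^ 2 +
        R * (((univ : Finset (ι × ι)).filter (fun p => f p.1 ≡ f p.2 [MOD 0])).card : ℝ) := by
    exact_mod_cast hcount
  unfold cp
  rw [← sum_div, div_le_iff₀ (by positivity)]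
  refine h'.trans (le_of_eq ?_)
  field_simp

end Vale.Agent.H2.P012
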