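import Vale.Agent.H2.P012.Defs

namespace Vale.Agent.H2.P012

open Finset

lemma G_two_pow (i : ℕ) (hi : 15 ≤ i) : 2048 * i ≤ 2 ^ i := by
  induction i, hi using Nat.le_induction with
  | base => norm_num
  | succ n hn ih => rw [pow_succ]; omega

theorem exists_prime_set : ∃ i0 : ℕ, ∀ i ≥ i0, ∃ P : Finset ℕ,
    (∀ p ∈ P, p.Prime ∧ 2 ^ (2046 * i) < p ∧ p ≤ 2 ^ (2048 * i)) ∧ P.card = 2 ^ (2044 * i) := by
  refine ⟨15, fun i hi => ?_⟩
  set a : ℕ := 2 ^ (2046 * i) with ha
  set b : ℕ := 2 ^ (2048 * i) with hb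
  set P0 := (Ioc a b).filter Nat.Prime with hP0
  have hi0 : 0 < i := by omega
  have h2i := G_two_pow i hi
  -- lower bound for the number of primes
  have hπ : (b : ℝ) / (2048 * i) - 2 ≤ (Nat.primeCounting b : ℝ) := by
    have h := Chebyshev.pi_ge b
    refine le_trans ?_ h
    have hlog2 : 0 < Real.log 2 := Real.log_pos (by norm_num)
    have hlogb : Real.log (b : ℝ) = 2048 * i * Real.log 2 := by
      rw [hb]; push_cast
      rw [Real.log_pow]; push_cast; ring
    have hiR : (0 : ℝ) < i := by exact_mod_cast hi0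
    have hlogb0 : 0 < Real.log (b : ℝ) := by rw [hlogb]; positivity
    have hb1 : (1 : ℝ) ≤ b := by
      have : 1 ≤ b := Nat.one_le_two_pow
      exact_mod_cast this
    have hb2 : (2 : ℝ) ≤ b := by
      have : 2 ^ 1 ≤ b := Nat.pow_le_pow_right (by norm_num) (by omega)
      exact_mod_cast this
    have hlogb1 : Real.log ((b : ℝ) + 1) ≤ 2 * Real.log b := by
      rw [← Real.log_rpow (by linarith)]
      apply Real.log_le_log (by linarith)
      have : (b : ℝ) ^ (2 : ℝ) = b ^ 2 := by exact_mod_cast Real.rpow_natCast (b : ℝ) 2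
      rw [this]
      nlinarith
    rw [le_div_iff₀ hlogb0, sub_mul]
    have : (b : ℝ) / (2048 * i) * Real.log b = b * Real.log 2 := by
      rw [hlogb]; field_simp
    rw [this]
    linarith
  -- count
  have hsub : (range (b + 1)).filter Nat.Prime ⊆ range (a + 1) ∪ P0 := by
    intro p hp
    have h1 := mem_filter.1 hp
    have h2 := mem_range.1 h1.1
    by_cases hpa : p ≤ a
    · exact mem_union_left _ (mem_range.2 (by omega))
    · exact mem_union_right _ (mem_filter.2 ⟨mem_Ioc.2 ⟨by omega, by omega⟩, h1.2⟩)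
  have hcard : Nat.primeCounting b ≤ a + 1 + P0.card := by
    have h1 : Nat.primeCounting b = ((range (b + 1)).filter Nat.Prime).card := by
      rw [Nat.primeCounting, Nat.primeCounting', Nat.count_eq_card_filter_range]
    rw [h1]
    refine (card_le_card hsub).trans ((card_union_le _ _).trans ?_)
    rw [card_range]
  -- powers
  have hab : (2 * a : ℝ) ≤ (b : ℝ) / (2048 * i) := by
    have hiR : (0 : ℝ) < i := by exact_mod_cast hi0
    rw [le_div_iff₀ (by positivity)]
    have h1 : 2 * a * (2048 * i) ≤ b := by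
      calc 2 * a * (2048 * i) ≤ 2 * a * 2 ^ i := Nat.mul_le_mul_left _ h2i
        _ = 2 ^ (1 + 2046 * i + i) := by rw [ha, pow_add, pow_add]; ring
        _ ≤ b := Nat.pow_le_pow_right (by norm_num) (by omega)
    exact_mod_cast h1
  have hc : 2 ^ (2044 * i) + 3 ≤ a := by
    have h1 : 4 * 2 ^ (2044 * i) ≤ a := by
      calc 4 * 2 ^ (2044 * i) = 2 ^ (2 + 2044 * i) := by rw [pow_add]; norm_num
        _ ≤ a := Nat.pow_le_pow_right (by norm_num) (by omega)
    have h2 : 1 ≤ 2 ^ (2044 * i) := Nat.one_le_two_pow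
    omega
  have hfin : 2 ^ (2044 * i) ≤ P0.card := by
    have h1 : (2 * a : ℝ) - 2 ≤ (a : ℝ) + 1 + P0.card := by
      have : (Nat.primeCounting b : ℝ) ≤ (a : ℝ) + 1 + P0.card := by exact_mod_cast hcard
      linarith
    have h2 : (a : ℝ) ≤ P0.card + 3 := by linarith
    have h3 : a ≤ P0.card + 3 := by exact_mod_cast h2
    omega
  obtain ⟨P, hPsub, hPcard⟩ := exists_subset_card_eq hfin
  refine ⟨P, fun p hp => ?_, hPcard⟩
  have h1 := mem_filter.1 (hPsub hp)
  have h2 := mem_Ioc.1 h1.1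
  exact ⟨h1.2, h2.1, h2.2⟩

end Vale.Agent.H2.P012
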