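import Vale.Agent.H2.P012.L_C

set_option autoImplicit false

namespace Vale.Agent.H2.P012

open Finset

private lemma H_key (i l M r : ℕ) (hi : 1 ≤ i) (hl1 : 1 ≤ l) (hlM : l ≤ M)
    (hM : M ≤ 2 ^ (128 * i)) (hr1 : 2 ^ (64 * i) ≤ r)
    (hr : (2 ^ (2048 * i)) ^ (l - 1) ≤ r) :
    (l.factorial * 2 ^ (4 * i * (l + 1))) ^ 8 ≤ r := by
  rcases Nat.lt_or_ge l 2 with h | h
  · have : l = 1 := by omega
    subst this
    have e : (Nat.factorial 1 * 2 ^ (4 * i * (1 + 1))) ^ 8 = 2 ^ (64 * i) := by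
      rw [Nat.factorial_one, one_mul, ← pow_mul]
      congr 1
      ring
    rw [e]; exact hr1
  · obtain ⟨k, rfl⟩ : ∃ k, l = k + 2 := ⟨l - 2, by omega⟩
    have hfac : (k + 2).factorial ≤ (k + 2) ^ (k + 1) := by
      have : ∀ n : ℕ, (n + 1).factorial ≤ (n + 1) ^ n := by
        intro n
        induction n with
        | zero => simp
        | succ n ih =>
          rw [Nat.factorial_succ, pow_succ, mul_comm]
          refine Nat.mul_le_mul ?_ le_rfl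
          exact ih.trans (Nat.pow_le_pow_left (Nat.le_succ _) _)
      exact this (k + 1)
    have h1 : (k + 2).factorial ≤ 2 ^ (128 * i * (k + 1)) := by
      calc (k + 2).factorial ≤ (k + 2) ^ (k + 1) := hfac
        _ ≤ (2 ^ (128 * i)) ^ (k + 1) := Nat.pow_le_pow_left (hlM.trans hM) _
        _ = 2 ^ (128 * i * (k + 1)) := by rw [← pow_mul]
    have h2 : 4 * i * (k + 2 + 1) ≤ 12 * i * (k + 1) := by nlinarith
    calc ((k + 2).factorial * 2 ^ (4 * i * (k + 2 + 1))) ^ 8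
        ≤ (2 ^ (128 * i * (k + 1)) * 2 ^ (12 * i * (k + 1))) ^ 8 :=
          Nat.pow_le_pow_left (Nat.mul_le_mul h1 (Nat.pow_le_pow_right (by norm_num) h2)) _
      _ = 2 ^ ((128 * i * (k + 1) + 12 * i * (k + 1)) * 8) := by rw [← pow_add, ← pow_mul]
      _ ≤ 2 ^ (2048 * i * (k + 1)) := Nat.pow_le_pow_right (by norm_num) (by nlinarith)
      _ = (2 ^ (2048 * i)) ^ (k + 2 - 1) := by rw [← pow_mul]; congr 1
      _ ≤ r := hr

theorem avg_cp_le (i : ℕ) (hi : 1 ≤ i) (P : Finset ℕ)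
    (hP : ∀ p ∈ P, p.Prime ∧ 2 ^ (2046 * i) < p ∧ p ≤ 2 ^ (2048 * i))
    (hPc : P.card = 2 ^ (2044 * i)) (M g r : ℕ) (hM : M ≤ 2 ^ (128 * i)) (hg : g = 2 ^ 2048)
    (hr1 : 2 ^ (64 * i) ≤ r) (hr2 : r ≤ (2 ^ (2048 * i)) ^ (M / 2))
    (hrP : ∀ p ∈ P, Nat.Coprime p r) :
    ∑ v : Fin M → Fin g → P, cp (atomProd v) r ≤
      (Fintype.card (Fin M → Fin g → P) : ℝ) *
        ((1 / 2 : ℝ) ^ (1023 * M) + 2 * (1 / 2 : ℝ) ^ (4 * i) * (r : ℝ) ^ (-(7 / 8 : ℝ))) := by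
  classical
  obtain ⟨Y, hY⟩ : ∃ Y : ℕ, Y = 2 ^ (2048 * i) := ⟨_, rfl⟩
  rw [← hY] at hr2
  have hPne : P.Nonempty := by
    rw [← Finset.card_pos, hPc]; positivity
  have hgpos : 0 < g := by rw [hg]; exact pow_pos (by norm_num) _
  have hrpos : 0 < r := lt_of_lt_of_le (by positivity) hr1
  have hex : ∃ l, r ≤ Y ^ l := ⟨M / 2, hr2⟩
  obtain ⟨l, hl, hlmin⟩ : ∃ l, r ≤ Y ^ l ∧ ∀ k < l, ¬ r ≤ Y ^ k :=
    ⟨Nat.find hex, Nat.find_spec hex, fun k hk => Nat.find_min hex hk⟩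
  have hlM2 : l ≤ M / 2 := by
    by_contra hcon
    exact hlmin (M / 2) (by omega) hr2
  have hlM : l ≤ M := hlM2.trans (Nat.div_le_self _ _)
  have hl1 : 1 ≤ l := by
    by_contra hcon
    have h0 : l = 0 := by omega
    rw [h0, pow_zero] at hl
    have : 2 ^ 1 ≤ 2 ^ (64 * i) := Nat.pow_le_pow_right (by norm_num) (by omega)
    omega
  have hprev : Y ^ (l - 1) ≤ r := by
    have := hlmin (l - 1) (by omega)
    omega
  have hkey : (l.factorial * 2 ^ (4 * i * (l + 1))) ^ 8 ≤ r :=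
    H_key i l M r hi hl1 hlM hM hr1 (by rw [← hY]; exact hprev)
  have hC := sum_cp_atomProd_le P (fun p hp => (hP p hp).1) hPne Y
    (fun p hp => by rw [hY]; exact (hP p hp).2.2) M g hgpos r hrpos hrP l hlM
  refine hC.trans (mul_le_mul_of_nonneg_left ?_ (Nat.cast_nonneg _))
  have hrR : (0 : ℝ) < r := by exact_mod_cast hrpos
  refine add_le_add ?_ ?_
  · -- first term
    have hgR : (g : ℝ) = 2 ^ 2048 := by rw [hg]; exact Nat.cast_pow 2 2048
    rw [hgR, ← pow_mul, one_div, inv_pow, div_le_iff₀ (by positivity)]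
    rw [inv_mul_eq_div, le_div_iff₀ (by positivity), ← pow_add]
    exact pow_le_pow_right₀ (by norm_num) (by omega)
  · -- second term
    have hPcR : (P.card : ℝ) = 2 ^ (2044 * i) := by rw [hPc]; push_cast; rfl
    have hYR : (Y : ℝ) = 2 ^ (2048 * i) := by rw [hY]; push_cast; rfl
    have h1 : (1 : ℝ) ≤ (Y : ℝ) ^ l / r := by
      rw [le_div_iff₀ hrR, one_mul]; exact_mod_cast hl
    have hP0 : (0 : ℝ) < (P.card : ℝ) ^ l := by rw [hPcR]; positivity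
    have h2 : (l.factorial : ℝ) * ((Y : ℝ) ^ l / r + 1) / (P.card : ℝ) ^ l
        ≤ (l.factorial : ℝ) * (2 * ((Y : ℝ) ^ l / r)) / (P.card : ℝ) ^ l := by
      refine div_le_div_of_nonneg_right ?_ hP0.le
      exact mul_le_mul_of_nonneg_left (by linarith) (Nat.cast_nonneg _)
    have h3 : (Y : ℝ) ^ l / (P.card : ℝ) ^ l = 2 ^ (4 * i * l) := by
      rw [hYR, hPcR, div_eq_iff (by positivity), ← pow_mul, ← pow_mul, ← pow_add]
      congr 1
      have : 2048 * i = 4 * i + 2044 * i := by ring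
      rw [this]; ring
    have h4 : (l.factorial : ℝ) * (2 * ((Y : ℝ) ^ l / r)) / (P.card : ℝ) ^ l
        = 2 * ((l.factorial : ℝ) * 2 ^ (4 * i * l)) / r := by
      rw [← h3]; field_simp
    -- A ≤ r^(1/8)
    have hA : (l.factorial : ℝ) * 2 ^ (4 * i * (l + 1)) ≤ (r : ℝ) ^ ((1 : ℝ) / 8) := by
      have h8 : ((l.factorial : ℝ) * 2 ^ (4 * i * (l + 1))) ^ 8 ≤ (r : ℝ) := by
        exact_mod_cast hkey
      have hA0 : (0 : ℝ) ≤ (l.factorial : ℝ) * 2 ^ (4 * i * (l + 1)) := by positivity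
      generalize (l.factorial : ℝ) * 2 ^ (4 * i * (l + 1)) = A at h8 hA0
      calc A = (A ^ (8 : ℕ)) ^ ((1 : ℝ) / 8) := by
            rw [← Real.rpow_natCast, ← Real.rpow_mul hA0]; norm_num
        _ ≤ (r : ℝ) ^ ((1 : ℝ) / 8) := Real.rpow_le_rpow (by positivity) h8 (by norm_num)
    have hrp : (r : ℝ) ^ (-(7 / 8 : ℝ)) = (r : ℝ) ^ ((1 : ℝ) / 8) / r := by
      rw [eq_div_iff hrR.ne']
      nth_rw 2 [← Real.rpow_one (r : ℝ)]
      rw [← Real.rpow_add hrR]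
      norm_num
    refine h2.trans ?_
    have hfin : (l.factorial : ℝ) * 2 ^ (4 * i * l)
        ≤ (1 / 2 : ℝ) ^ (4 * i) * (r : ℝ) ^ ((1 : ℝ) / 8) := by
      have e : (l.factorial : ℝ) * 2 ^ (4 * i * l)
          = (1 / 2 : ℝ) ^ (4 * i) * ((l.factorial : ℝ) * 2 ^ (4 * i * (l + 1))) := by
        have : (2 : ℝ) ^ (4 * i * (l + 1)) = 2 ^ (4 * i * l) * 2 ^ (4 * i) := by
          rw [← pow_add]; congr 1
        rw [this, one_div, inv_pow]
        field_simp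
      rw [e]
      exact mul_le_mul_of_nonneg_left hA (by positivity)
    rw [h4, hrp]
    calc 2 * ((l.factorial : ℝ) * 2 ^ (4 * i * l)) / r
        ≤ 2 * ((1 / 2 : ℝ) ^ (4 * i) * (r : ℝ) ^ ((1 : ℝ) / 8)) / r := by
          refine div_le_div_of_nonneg_right ?_ hrR.le
          exact mul_le_mul_of_nonneg_left hfin (by norm_num)
      _ = 2 * (1 / 2 : ℝ) ^ (4 * i) * ((r : ℝ) ^ ((1 : ℝ) / 8) / r) := by ring

end Vale.Agent.H2.P012
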