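import Vale.Agent.H2.P012.L_H
import Vale.Agent.H2.P012.L_E1E2

set_option autoImplicit false

/-! Choice of the atoms by averaging. -/

namespace Vale.Agent.H2.P012

open Finset

private lemma I_cp_nonneg {ι : Type} [Fintype ι] (f : ι → ℕ) (r : ℕ) : 0 ≤ cp f r := by
  unfold cp; positivity

private lemma I_harmonic (M : ℕ) (k : ℕ) (hM : M ≤ 2 ^ k) :
    ∑ r ∈ Icc 1 M, (1 : ℝ) / r ≤ 1 + k := by
  have h1 : ∑ r ∈ Icc 1 M, (1 : ℝ) / r = ((harmonic M : ℚ) : ℝ) := by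
    rw [harmonic_eq_sum_Icc]
    push_cast
    exact Finset.sum_congr rfl fun r _ => by rw [one_div]
  rw [h1]
  refine (harmonic_le_one_add_log M).trans ?_
  rcases Nat.eq_zero_or_pos M with rfl | hM0
  · simp
  have h2 : Real.log M ≤ Real.log ((2 : ℝ) ^ k) :=
    Real.log_le_log (by exact_mod_cast hM0) (by exact_mod_cast hM)
  rw [Real.log_pow] at h2
  have h3 : Real.log 2 ≤ 1 := by
    have := Real.log_two_lt_d9
    linarith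
  have h4 : (k : ℝ) * Real.log 2 ≤ k := by
    have : (0 : ℝ) ≤ k := Nat.cast_nonneg k
    nlinarith
  linarith

private lemma I_half (k : ℕ) : (2 : ℝ) ^ k * (1 / 2 : ℝ) ^ k = 1 := by
  rw [← mul_pow]; norm_num

private lemma I_delta1 (m : ℕ) (hm16 : 16 ≤ m) :
    (2 : ℝ) ^ (256 * m) * (1 / 2 : ℝ) ^ (1023 * m) ≤ 1 / 65536 := by
  have e : (1 / 2 : ℝ) ^ (1023 * m) = (1 / 2 : ℝ) ^ (256 * m) * (1 / 2 : ℝ) ^ (767 * m) := by
    rw [← pow_add]; congr 1; ring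
  rw [e, ← mul_assoc, I_half, one_mul]
  calc (1 / 2 : ℝ) ^ (767 * m) ≤ (1 / 2 : ℝ) ^ 16 :=
        pow_le_pow_of_le_one (by norm_num) (by norm_num) (by omega)
    _ = 1 / 65536 := by norm_num

private lemma I_delta2 (m i : ℕ) (hm16 : 16 ≤ m) (him : i < m) :
    (2 : ℝ) ^ (128 * m) * (1 / 2 : ℝ) ^ (1023 * m) * (256 * m * i + 2) ≤ 1 / 65536 := by
  have hmr : (m : ℝ) ≤ 2 ^ m := by exact_mod_cast Nat.lt_two_pow_self.le
  have him' : (i : ℝ) ≤ m := by exact_mod_cast him.le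
  have hm0 : (0 : ℝ) ≤ m := Nat.cast_nonneg _
  have hi0 : (0 : ℝ) ≤ i := Nat.cast_nonneg _
  have hbig : (256 * m * i + 2 : ℝ) ≤ 2 ^ (11 * m) := by
    have h1 : (1 : ℝ) ≤ 2 ^ m := one_le_pow₀ (by norm_num)
    have h2 : (256 * m * i + 2 : ℝ) ≤ 256 * (2 ^ m * 2 ^ m) + 2 * (2 ^ m * 2 ^ m) := by
      have h3 : (m : ℝ) * i ≤ 2 ^ m * 2 ^ m :=
        mul_le_mul hmr (him'.trans hmr) hi0 (by positivity)
      nlinarith
    have h4 : (2 : ℝ) ^ 9 ≤ 2 ^ (9 * m) := pow_le_pow_right₀ (by norm_num) (by omega)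
    have h5 : (2 : ℝ) ^ (11 * m) = 2 ^ (9 * m) * (2 ^ m * 2 ^ m) := by
      rw [← pow_add, ← pow_add]; congr 1; ring
    rw [h5]
    refine h2.trans ?_
    have h6 : (0 : ℝ) ≤ 2 ^ m * 2 ^ m := by positivity
    nlinarith
  have e : (1 / 2 : ℝ) ^ (1023 * m) = (1 / 2 : ℝ) ^ (128 * m) *
      ((1 / 2 : ℝ) ^ (11 * m) * (1 / 2 : ℝ) ^ (884 * m)) := by
    rw [← pow_add, ← pow_add]; congr 1; ring
  rw [e, ← mul_assoc, I_half, one_mul]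
  have h7 : (1 / 2 : ℝ) ^ (11 * m) * (256 * m * i + 2) ≤ 1 := by
    calc (1 / 2 : ℝ) ^ (11 * m) * (256 * m * i + 2)
        ≤ (1 / 2 : ℝ) ^ (11 * m) * 2 ^ (11 * m) :=
          mul_le_mul_of_nonneg_left hbig (by positivity)
      _ = 1 := by rw [mul_comm, I_half]
  calc (1 / 2 : ℝ) ^ (11 * m) * (1 / 2 : ℝ) ^ (884 * m) * (256 * m * i + 2)
      = ((1 / 2 : ℝ) ^ (11 * m) * (256 * m * i + 2)) * (1 / 2 : ℝ) ^ (884 * m) := by ring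
    _ ≤ 1 * (1 / 2 : ℝ) ^ (884 * m) := mul_le_mul_of_nonneg_right h7 (by positivity)
    _ ≤ (1 / 2 : ℝ) ^ 16 := by
        rw [one_mul]
        exact pow_le_pow_of_le_one (by norm_num) (by norm_num) (by omega)
    _ = 1 / 65536 := by norm_num

private lemma I_s1 (m q : ℕ) (δ ε : ℝ) (hδ0 : 0 ≤ δ) (hε0 : 0 ≤ ε) (hq1' : (1 : ℝ) ≤ q)
    (hq2 : q ≤ 2 ^ (256 * m)) :
    (q : ℝ) ^ (3 / 4 : ℝ) * (δ + ε * (q : ℝ) ^ (-(7 / 8 : ℝ))) ≤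
      (2 : ℝ) ^ (256 * m) * δ + ε := by
  have hqpos : (0 : ℝ) < q := by linarith
  have h1 : (q : ℝ) ^ (3 / 4 : ℝ) ≤ (2 : ℝ) ^ (256 * m) := by
    calc (q : ℝ) ^ (3 / 4 : ℝ) ≤ (q : ℝ) ^ (1 : ℝ) :=
          Real.rpow_le_rpow_of_exponent_le hq1' (by norm_num)
      _ = q := Real.rpow_one _
      _ ≤ _ := by exact_mod_cast hq2
  have h2 : (q : ℝ) ^ (3 / 4 : ℝ) * (q : ℝ) ^ (-(7 / 8 : ℝ)) ≤ 1 := by
    rw [← Real.rpow_add hqpos]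
    exact Real.rpow_le_one_of_one_le_of_nonpos hq1' (by norm_num)
  calc (q : ℝ) ^ (3 / 4 : ℝ) * (δ + ε * (q : ℝ) ^ (-(7 / 8 : ℝ)))
      = (q : ℝ) ^ (3 / 4 : ℝ) * δ + ε * ((q : ℝ) ^ (3 / 4 : ℝ) * (q : ℝ) ^ (-(7 / 8 : ℝ))) := by
        ring
    _ ≤ (2 : ℝ) ^ (256 * m) * δ + ε * 1 :=
        add_le_add (mul_le_mul_of_nonneg_right h1 hδ0) (mul_le_mul_of_nonneg_left h2 hε0)
    _ = _ := by ring

private lemma I_s2 (M : ℕ) (A : Finset ℕ) (hA : A ⊆ Icc 1 M) (δ ε : ℝ) (hδ0 : 0 ≤ δ)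
    (hε0 : 0 ≤ ε) :
    ∑ r ∈ A, (1 / (r : ℝ)) * ((r : ℝ) ^ (3 / 4 : ℝ) *
      (δ + ε * (r : ℝ) ^ (-(7 / 8 : ℝ)))) ≤ M * δ + 9 * ε := by
  have hterm : ∀ r ∈ A, (1 / (r : ℝ)) * ((r : ℝ) ^ (3 / 4 : ℝ) *
      (δ + ε * (r : ℝ) ^ (-(7 / 8 : ℝ)))) ≤ δ + ε * (r : ℝ) ^ (-(9 / 8 : ℝ)) := by
    intro r hr
    have hr1 : (1 : ℝ) ≤ r := by exact_mod_cast (Finset.mem_Icc.1 (hA hr)).1
    have hr0 : (0 : ℝ) < r := by linarith
    have e1 : (1 / (r : ℝ)) * (r : ℝ) ^ (3 / 4 : ℝ) = (r : ℝ) ^ (-(1 / 4 : ℝ)) := by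
      rw [show (1 / (r : ℝ)) = (r : ℝ) ^ (-1 : ℝ) by rw [Real.rpow_neg_one, one_div],
        ← Real.rpow_add hr0]
      norm_num
    have e2 : (r : ℝ) ^ (-(1 / 4 : ℝ)) * (r : ℝ) ^ (-(7 / 8 : ℝ)) =
        (r : ℝ) ^ (-(9 / 8 : ℝ)) := by
      rw [← Real.rpow_add hr0]; norm_num
    have e3 : (r : ℝ) ^ (-(1 / 4 : ℝ)) ≤ 1 :=
      Real.rpow_le_one_of_one_le_of_nonpos hr1 (by norm_num)
    calc (1 / (r : ℝ)) * ((r : ℝ) ^ (3 / 4 : ℝ) * (δ + ε * (r : ℝ) ^ (-(7 / 8 : ℝ))))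
        = ((1 / (r : ℝ)) * (r : ℝ) ^ (3 / 4 : ℝ)) * δ +
          ε * (((1 / (r : ℝ)) * (r : ℝ) ^ (3 / 4 : ℝ)) * (r : ℝ) ^ (-(7 / 8 : ℝ))) := by ring
      _ = (r : ℝ) ^ (-(1 / 4 : ℝ)) * δ + ε * (r : ℝ) ^ (-(9 / 8 : ℝ)) := by rw [e1, e2]
      _ ≤ 1 * δ + ε * (r : ℝ) ^ (-(9 / 8 : ℝ)) :=
          add_le_add (mul_le_mul_of_nonneg_right e3 hδ0) le_rfl
      _ = _ := by rw [one_mul]
  calc ∑ r ∈ A, (1 / (r : ℝ)) * ((r : ℝ) ^ (3 / 4 : ℝ) *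
      (δ + ε * (r : ℝ) ^ (-(7 / 8 : ℝ))))
      ≤ ∑ r ∈ A, (δ + ε * (r : ℝ) ^ (-(9 / 8 : ℝ))) := Finset.sum_le_sum hterm
    _ ≤ ∑ r ∈ Icc 1 M, (δ + ε * (r : ℝ) ^ (-(9 / 8 : ℝ))) :=
        Finset.sum_le_sum_of_subset_of_nonneg hA fun r _ _ => by positivity
    _ = M * δ + ε * ∑ r ∈ Icc 1 M, (r : ℝ) ^ (-(9 / 8 : ℝ)) := by
        rw [Finset.sum_add_distrib, Finset.sum_const, Nat.card_Icc, ← Finset.mul_sum,
          nsmul_eq_mul]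
        simp
    _ ≤ _ := by
        have := mul_le_mul_of_nonneg_left (sum_rpow_neg_le M) hε0
        linarith

private lemma I_s3 (m i M : ℕ) (hM : M ≤ 2 ^ (256 * m * i + 1)) (B : Finset ℕ)
    (hB : B ⊆ Icc 1 M) (hBbig : ∀ r ∈ B, 2 ^ (256 * m) ≤ r) (δ ε : ℝ) (hδ0 : 0 ≤ δ)
    (hε0 : 0 ≤ ε) :
    ∑ r ∈ B, (1 / (r : ℝ)) * ((2 : ℝ) ^ (128 * m) *
      (δ + ε * (r : ℝ) ^ (-(7 / 8 : ℝ)))) ≤
      (2 : ℝ) ^ (128 * m) * δ * (256 * m * i + 2) + 9 * ε := by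
  have hterm : ∀ r ∈ B, (1 / (r : ℝ)) * ((2 : ℝ) ^ (128 * m) *
      (δ + ε * (r : ℝ) ^ (-(7 / 8 : ℝ)))) ≤
      (2 : ℝ) ^ (128 * m) * δ * (1 / (r : ℝ)) + ε * (r : ℝ) ^ (-(9 / 8 : ℝ)) := by
    intro r hr
    have hr1 : (1 : ℝ) ≤ r := by exact_mod_cast (Finset.mem_Icc.1 (hB hr)).1
    have hr0 : (0 : ℝ) < r := by linarith
    have hrbig : (2 : ℝ) ^ (256 * m) ≤ r := by exact_mod_cast hBbig r hr
    have e1 : (2 : ℝ) ^ (128 * m) ≤ (r : ℝ) ^ (3 / 4 : ℝ) := by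
      calc (2 : ℝ) ^ (128 * m) ≤ (2 : ℝ) ^ (192 * m) :=
            pow_le_pow_right₀ (by norm_num) (by omega)
        _ = ((2 : ℝ) ^ (256 * m)) ^ (3 / 4 : ℝ) := by
            rw [← Real.rpow_natCast, ← Real.rpow_natCast, ← Real.rpow_mul (by norm_num)]
            congr 1
            push_cast; ring
        _ ≤ (r : ℝ) ^ (3 / 4 : ℝ) := Real.rpow_le_rpow (by positivity) hrbig (by norm_num)
    have e2 : (1 / (r : ℝ)) * (r : ℝ) ^ (3 / 4 : ℝ) * (r : ℝ) ^ (-(7 / 8 : ℝ)) =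
        (r : ℝ) ^ (-(9 / 8 : ℝ)) := by
      rw [show (1 / (r : ℝ)) = (r : ℝ) ^ (-1 : ℝ) by rw [Real.rpow_neg_one, one_div],
        ← Real.rpow_add hr0, ← Real.rpow_add hr0]
      norm_num
    calc (1 / (r : ℝ)) * ((2 : ℝ) ^ (128 * m) * (δ + ε * (r : ℝ) ^ (-(7 / 8 : ℝ))))
        = (2 : ℝ) ^ (128 * m) * δ * (1 / (r : ℝ)) +
          ε * ((1 / (r : ℝ)) * (2 : ℝ) ^ (128 * m) * (r : ℝ) ^ (-(7 / 8 : ℝ))) := by ring
      _ ≤ (2 : ℝ) ^ (128 * m) * δ * (1 / (r : ℝ)) +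
          ε * ((1 / (r : ℝ)) * (r : ℝ) ^ (3 / 4 : ℝ) * (r : ℝ) ^ (-(7 / 8 : ℝ))) := by
          gcongr
      _ = _ := by rw [e2]
  have hharm := I_harmonic M (256 * m * i + 1) hM
  push_cast at hharm
  calc ∑ r ∈ B, (1 / (r : ℝ)) * ((2 : ℝ) ^ (128 * m) *
      (δ + ε * (r : ℝ) ^ (-(7 / 8 : ℝ))))
      ≤ ∑ r ∈ B, ((2 : ℝ) ^ (128 * m) * δ * (1 / (r : ℝ)) +
          ε * (r : ℝ) ^ (-(9 / 8 : ℝ))) := Finset.sum_le_sum hterm
    _ ≤ ∑ r ∈ Icc 1 M, ((2 : ℝ) ^ (128 * m) * δ * (1 / (r : ℝ)) +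
          ε * (r : ℝ) ^ (-(9 / 8 : ℝ))) :=
        Finset.sum_le_sum_of_subset_of_nonneg hB fun r _ _ => by positivity
    _ = (2 : ℝ) ^ (128 * m) * δ * ∑ r ∈ Icc 1 M, (1 / (r : ℝ)) +
          ε * ∑ r ∈ Icc 1 M, (r : ℝ) ^ (-(9 / 8 : ℝ)) := by
        rw [Finset.sum_add_distrib, ← Finset.mul_sum, ← Finset.mul_sum]
    _ ≤ _ := by
        have h1 := mul_le_mul_of_nonneg_left (sum_rpow_neg_le M) hε0
        have h2 := mul_le_mul_of_nonneg_left hharm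
          (show (0 : ℝ) ≤ (2 : ℝ) ^ (128 * m) * δ by positivity)
        have e : (2 : ℝ) ^ (128 * m) * δ * (1 + (256 * m * i + 1)) =
          (2 : ℝ) ^ (128 * m) * δ * (256 * m * i + 2) := by ring
        rw [e] at h2
        linarith

private lemma I_pick {V : Type} [Fintype V] [Nonempty V] (c : V → ℕ → ℝ) (β : ℕ → ℝ)
    (a : ℕ → ℝ) (ha : ∀ r, 0 ≤ a r) (x b : ℝ) (hx : 0 ≤ x) (hb : 0 ≤ b) (A B : Finset ℕ) (q : ℕ)
    (hq : ∑ v : V, c v q ≤ (Fintype.card V : ℝ) * β q)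
    (hA : ∀ r ∈ A, ∑ v : V, c v r ≤ (Fintype.card V : ℝ) * β r)
    (hB : ∀ r ∈ B, ∑ v : V, c v r ≤ (Fintype.card V : ℝ) * β r)
    (hT : x * β q + 100 * ∑ r ∈ A, (1 / (r : ℝ)) * (a r * β r) +
      100 * ∑ r ∈ B, (1 / (r : ℝ)) * (b * β r) ≤ 1) :
    ∃ v : V, x * c v q + 100 * ∑ r ∈ A, (1 / (r : ℝ)) * (a r * c v r) +
      100 * ∑ r ∈ B, (1 / (r : ℝ)) * (b * c v r) ≤ 1 := by
  have hsum : ∑ v : V, (x * c v q + 100 * ∑ r ∈ A, (1 / (r : ℝ)) * (a r * c v r) +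
      100 * ∑ r ∈ B, (1 / (r : ℝ)) * (b * c v r)) ≤ ∑ _v : V, (1 : ℝ) := by
    have hswapA : ∑ v : V, ∑ r ∈ A, (1 / (r : ℝ)) * (a r * c v r) =
        ∑ r ∈ A, (1 / (r : ℝ)) * (a r * ∑ v : V, c v r) := by
      rw [Finset.sum_comm]
      refine Finset.sum_congr rfl fun r _ => ?_
      rw [Finset.mul_sum, Finset.mul_sum]
    have hswapB : ∑ v : V, ∑ r ∈ B, (1 / (r : ℝ)) * (b * c v r) =
        ∑ r ∈ B, (1 / (r : ℝ)) * (b * ∑ v : V, c v r) := by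
      rw [Finset.sum_comm]
      refine Finset.sum_congr rfl fun r _ => ?_
      rw [Finset.mul_sum, Finset.mul_sum]
    have hA' : ∑ r ∈ A, (1 / (r : ℝ)) * (a r * ∑ v : V, c v r) ≤
        (Fintype.card V : ℝ) * ∑ r ∈ A, (1 / (r : ℝ)) * (a r * β r) := by
      rw [Finset.mul_sum]
      refine Finset.sum_le_sum fun r hr => ?_
      have h := hA r hr
      have h' := ha r
      calc (1 / (r : ℝ)) * (a r * ∑ v : V, c v r)
          ≤ (1 / (r : ℝ)) * (a r * ((Fintype.card V : ℝ) * β r)) := by gcongr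
        _ = _ := by ring
    have hB' : ∑ r ∈ B, (1 / (r : ℝ)) * (b * ∑ v : V, c v r) ≤
        (Fintype.card V : ℝ) * ∑ r ∈ B, (1 / (r : ℝ)) * (b * β r) := by
      rw [Finset.mul_sum]
      refine Finset.sum_le_sum fun r hr => ?_
      have h := hB r hr
      calc (1 / (r : ℝ)) * (b * ∑ v : V, c v r)
          ≤ (1 / (r : ℝ)) * (b * ((Fintype.card V : ℝ) * β r)) := by gcongr
        _ = _ := by ring
    have hq' : x * ∑ v : V, c v q ≤ (Fintype.card V : ℝ) * (x * β q) := by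
      calc x * ∑ v : V, c v q ≤ x * ((Fintype.card V : ℝ) * β q) := by gcongr
        _ = _ := by ring
    rw [Finset.sum_add_distrib, Finset.sum_add_distrib, ← Finset.mul_sum, ← Finset.mul_sum,
      ← Finset.mul_sum, hswapA, hswapB, Finset.sum_const, Finset.card_univ, nsmul_eq_mul, mul_one]
    have h8 := mul_le_mul_of_nonneg_left hT (Nat.cast_nonneg (α := ℝ) (Fintype.card V))
    linarith [hA', hB', hq', h8]
  obtain ⟨v, -, hv⟩ := Finset.exists_le_of_sum_le (s := (univ : Finset V))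
    (Finset.univ_nonempty) hsum
  exact ⟨v, hv⟩

private lemma I_concl (c : ℕ → ℝ) (hc0 : ∀ r, 0 ≤ c r) (q : ℕ) (hq : 0 < q) (m : ℕ)
    (S T : Finset ℕ) (hS : ∀ r ∈ S, 0 < r) (hT : ∀ r ∈ T, 0 < r) (Q : ℕ → Prop)
    [DecidablePred Q] [DecidablePred fun r : ℕ => Q r ∧ (r : ℝ) ^ (-(3 / 4 : ℝ)) < c r]
    [DecidablePred fun r : ℕ => Q r ∧ (1 / 2 : ℝ) ^ (128 * m) < c r]
    (hv : (q : ℝ) ^ (3 / 4 : ℝ) * c q +
      100 * ∑ r ∈ S.filter Q, (1 / (r : ℝ)) * ((r : ℝ) ^ (3 / 4 : ℝ) * c r) +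
      100 * ∑ r ∈ T.filter Q, (1 / (r : ℝ)) * ((2 : ℝ) ^ (128 * m) * c r) ≤ 1) :
    c q ≤ (q : ℝ) ^ (-(3 / 4 : ℝ)) ∧
      (∑ r ∈ S.filter (fun r => Q r ∧ (r : ℝ) ^ (-(3 / 4 : ℝ)) < c r), (1 : ℝ) / r ≤ 1 / 100) ∧
      (∑ r ∈ T.filter (fun r => Q r ∧ (1 / 2 : ℝ) ^ (128 * m) < c r),
          (1 : ℝ) / r ≤ 1 / 100) := by
  have hqpos : (0 : ℝ) < q := by exact_mod_cast hq
  have hn1 : 0 ≤ (q : ℝ) ^ (3 / 4 : ℝ) * c q := mul_nonneg (by positivity) (hc0 _)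
  have hn2 : 0 ≤ ∑ r ∈ S.filter Q, (1 / (r : ℝ)) * ((r : ℝ) ^ (3 / 4 : ℝ) * c r) :=
    Finset.sum_nonneg fun r _ => mul_nonneg (by positivity) (mul_nonneg (by positivity) (hc0 _))
  have hn3 : 0 ≤ ∑ r ∈ T.filter Q, (1 / (r : ℝ)) * ((2 : ℝ) ^ (128 * m) * c r) :=
    Finset.sum_nonneg fun r _ => mul_nonneg (by positivity) (mul_nonneg (by positivity) (hc0 _))
  refine ⟨?_, ?_, ?_⟩
  · have h1 : (q : ℝ) ^ (3 / 4 : ℝ) * c q ≤ 1 := by linarith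
    have h2 : 0 < (q : ℝ) ^ (3 / 4 : ℝ) := Real.rpow_pos_of_pos hqpos _
    rw [Real.rpow_neg hqpos.le, ← one_div, le_div_iff₀ h2]
    linarith
  · have h1 : ∑ r ∈ S.filter Q, (1 / (r : ℝ)) * ((r : ℝ) ^ (3 / 4 : ℝ) * c r) ≤ 1 / 100 := by
      linarith
    refine le_trans ?_ h1
    have hsub : S.filter (fun r => Q r ∧ (r : ℝ) ^ (-(3 / 4 : ℝ)) < c r) ⊆ S.filter Q := by
      intro r hr
      rw [Finset.mem_filter] at hr ⊢
      exact ⟨hr.1, hr.2.1⟩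
    refine le_trans (Finset.sum_le_sum fun r hr => ?_)
      (Finset.sum_le_sum_of_subset_of_nonneg hsub fun r _ _ => mul_nonneg (by positivity)
        (mul_nonneg (by positivity) (hc0 _)))
    rw [Finset.mem_filter] at hr
    have hr0 : (0 : ℝ) < r := by exact_mod_cast hS r hr.1
    have h3 : 1 ≤ (r : ℝ) ^ (3 / 4 : ℝ) * c r := by
      have h4 := hr.2.2.le
      have h5 : 0 < (r : ℝ) ^ (3 / 4 : ℝ) := Real.rpow_pos_of_pos hr0 _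
      rw [Real.rpow_neg hr0.le, ← one_div, div_le_iff₀ h5] at h4
      linarith
    have h6 : (0 : ℝ) < 1 / r := by positivity
    nlinarith
  · have h1 : ∑ r ∈ T.filter Q, (1 / (r : ℝ)) * ((2 : ℝ) ^ (128 * m) * c r) ≤ 1 / 100 := by
      linarith
    refine le_trans ?_ h1
    have hsub : T.filter (fun r => Q r ∧ (1 / 2 : ℝ) ^ (128 * m) < c r) ⊆ T.filter Q := by
      intro r hr
      rw [Finset.mem_filter] at hr ⊢
      exact ⟨hr.1, hr.2.1⟩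
    refine le_trans (Finset.sum_le_sum fun r hr => ?_)
      (Finset.sum_le_sum_of_subset_of_nonneg hsub fun r _ _ => mul_nonneg (by positivity)
        (mul_nonneg (by positivity) (hc0 _)))
    rw [Finset.mem_filter] at hr
    have hr0 : (0 : ℝ) < r := by exact_mod_cast hT r hr.1
    have h3 : 1 ≤ (2 : ℝ) ^ (128 * m) * c r := by
      have h4 := hr.2.2.le
      have h5 := mul_le_mul_of_nonneg_left h4 (show (0 : ℝ) ≤ (2 : ℝ) ^ (128 * m) by positivity)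
      rw [I_half] at h5
      exact h5
    have h6 : (0 : ℝ) < 1 / r := by positivity
    nlinarith

private lemma I_eps (i : ℕ) (hi : 4 ≤ i) : 2 * (1 / 2 : ℝ) ^ (4 * i) ≤ 2 / 65536 := by
  have : (1 / 2 : ℝ) ^ (4 * i) ≤ (1 / 2 : ℝ) ^ 16 :=
    pow_le_pow_of_le_one (by norm_num) (by norm_num) (by omega)
  calc 2 * (1 / 2 : ℝ) ^ (4 * i) ≤ 2 * (1 / 2 : ℝ) ^ 16 := by linarith
    _ = 2 / 65536 := by norm_num

private lemma I_m (i m : ℕ) (hi : 4 ≤ i) (hm : m = 2 ^ (128 * i)) :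
    i < m ∧ 8 * i ≤ m ∧ 16 ≤ m ∧ 2 * (m / 2) = m ∧ 2048 * i < 256 * m - 1 := by
  have h8 : 8 * i + 1 ≤ m := by
    rw [hm]
    calc 8 * i + 1 ≤ 2 ^ 4 * 2 ^ i := by
          have := Nat.lt_two_pow_self (n := i)
          omega
      _ = 2 ^ (4 + i) := by rw [pow_add]
      _ ≤ 2 ^ (128 * i) := Nat.pow_le_pow_right (by norm_num) (by omega)
  have h2 : 2 ∣ m := by
    rw [hm]; exact dvd_pow_self 2 (by omega)
  refine ⟨by omega, by omega, by omega, by omega, by omega⟩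

theorem exists_atoms : ∃ i0 : ℕ, ∀ i ≥ i0, ∀ P : Finset ℕ,
    (∀ p ∈ P, p.Prime ∧ 2 ^ (2046 * i) < p ∧ p ≤ 2 ^ (2048 * i)) → P.card = 2 ^ (2044 * i) →
    ∀ m g q N : ℕ, m = 2 ^ (128 * i) → g = 2 ^ 2048 → q.Prime → 2 ^ (256 * m - 1) ≤ q →
    q ≤ 2 ^ (256 * m) → N ≤ 2 ^ (256 * m * i) →
    ∃ v : Fin m → Fin g → P,
      cp (atomProd v) q ≤ (q : ℝ) ^ (-(3 / 4 : ℝ)) ∧
      (∑ r ∈ (Icc (2 ^ (64 * i)) (2 ^ (256 * m))).filter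
        (fun r => (∀ p ∈ P, Nat.Coprime p r) ∧ (r : ℝ) ^ (-(3 / 4 : ℝ)) < cp (atomProd v) r),
          (1 : ℝ) / r ≤ 1 / 100) ∧
      (∑ r ∈ (Ioc (2 ^ (256 * m)) (2 * N)).filter
        (fun r => (∀ p ∈ P, Nat.Coprime p r) ∧ (1 / 2 : ℝ) ^ (128 * m) < cp (atomProd v) r),
          (1 : ℝ) / r ≤ 1 / 100) := by
  classical
  refine ⟨4, ?_⟩
  intro i hi P hP hPc m g q N hm hg hq hq1 hq2 hN
  have hgpos : 0 < g := by rw [hg]; exact pow_pos (by norm_num) _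
  have hPne : P.Nonempty := by
    rw [← Finset.card_pos, hPc]; positivity
  have : Nonempty P := hPne.to_subtype
  have hi1 : 1 ≤ i := le_trans (by norm_num) hi
  have havg0 := fun (r : ℕ) h1 h2 h3 => avg_cp_le i hi1 P hP hPc m g r hm.le hg h1 h2 h3
  clear hg
  obtain ⟨him, hm8, hm16, hmeven, hmbig⟩ := I_m i m hi hm
  clear hm
  have hY : (2 ^ (2048 * i)) ^ (m / 2) = 2 ^ (1024 * m * i) := by
    rw [← pow_mul]
    congr 1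
    have : 2048 * i * (m / 2) = 1024 * i * (2 * (m / 2)) := by ring
    rw [this, hmeven]; ring
  rw [hY] at havg0
  have h64 : 2 ^ (64 * i) ≤ 2 ^ (256 * m - 1) := Nat.pow_le_pow_right (by norm_num) (by omega)
  have h256 : 2 ^ (256 * m - 1) ≤ 2 ^ (256 * m) := Nat.pow_le_pow_right (by norm_num) (by omega)
  have hmi : m ≤ m * i := Nat.le_mul_of_pos_right m (by omega)
  have h1024 : 2 ^ (256 * m) ≤ 2 ^ (1024 * m * i) :=
    Nat.pow_le_pow_right (by norm_num) (by nlinarith)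
  have h2N : 2 * N ≤ 2 ^ (256 * m * i + 1) := by
    rw [pow_succ]; omega
  have h2N' : 2 * N ≤ 2 ^ (1024 * m * i) :=
    h2N.trans (Nat.pow_le_pow_right (by norm_num) (by nlinarith))
  have hqP : ∀ p ∈ P, Nat.Coprime p q := by
    intro p hp
    rw [Nat.coprime_primes (hP p hp).1 hq]
    rintro rfl
    have h1 := (hP p hp).2.2
    have h2 : 2 ^ (2048 * i) < 2 ^ (256 * m - 1) := Nat.pow_lt_pow_right (by norm_num) hmbig
    omega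
  have hq1' : (1 : ℝ) ≤ q := by exact_mod_cast hq.one_lt.le
  have hδ0 : (0 : ℝ) ≤ (1 / 2 : ℝ) ^ (1023 * m) := by positivity
  have hε0 : (0 : ℝ) ≤ 2 * (1 / 2 : ℝ) ^ (4 * i) := by positivity
  have hS : ∀ r ∈ Icc (2 ^ (64 * i)) (2 ^ (256 * m)), 0 < r := by
    intro r hr
    exact lt_of_lt_of_le (by positivity) (Finset.mem_Icc.1 hr).1
  have hT : ∀ r ∈ Ioc (2 ^ (256 * m)) (2 * N), 0 < r := by
    intro r hr
    exact lt_of_le_of_lt (Nat.zero_le _) (Finset.mem_Ioc.1 hr).1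
  have hs1 := I_s1 m q _ _ hδ0 hε0 hq1' hq2
  have hs2 := I_s2 (2 ^ (256 * m)) ((Icc (2 ^ (64 * i)) (2 ^ (256 * m))).filter
    (fun r => ∀ p ∈ P, Nat.Coprime p r)) (by
      intro r hr
      rw [Finset.mem_filter] at hr
      rw [Finset.mem_Icc]
      exact ⟨hS r hr.1, (Finset.mem_Icc.1 hr.1).2⟩) _ _ hδ0 hε0
  have hs3 := I_s3 m i (2 * N) h2N ((Ioc (2 ^ (256 * m)) (2 * N)).filter
    (fun r => ∀ p ∈ P, Nat.Coprime p r)) (by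
      intro r hr
      rw [Finset.mem_filter] at hr
      rw [Finset.mem_Icc]
      exact ⟨hT r hr.1, (Finset.mem_Ioc.1 hr.1).2⟩) (by
      intro r hr
      rw [Finset.mem_filter] at hr
      exact (Finset.mem_Ioc.1 hr.1).1.le) _ _ hδ0 hε0
  obtain ⟨v, hv⟩ := I_pick (V := Fin m → Fin g → P) (fun v r => cp (atomProd v) r)
    (fun r => (1 / 2 : ℝ) ^ (1023 * m) + 2 * (1 / 2 : ℝ) ^ (4 * i) * (r : ℝ) ^ (-(7 / 8 : ℝ)))
    (fun r => (r : ℝ) ^ (3 / 4 : ℝ)) (fun r => by positivity) ((q : ℝ) ^ (3 / 4 : ℝ))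
    ((2 : ℝ) ^ (128 * m)) (by positivity) (by positivity)
    ((Icc (2 ^ (64 * i)) (2 ^ (256 * m))).filter (fun r => ∀ p ∈ P, Nat.Coprime p r))
    ((Ioc (2 ^ (256 * m)) (2 * N)).filter (fun r => ∀ p ∈ P, Nat.Coprime p r)) q
    (havg0 q (h64.trans hq1) (hq2.trans h1024) hqP)
    (by
      intro r hr
      rw [Finset.mem_filter, Finset.mem_Icc] at hr
      exact havg0 r hr.1.1 (hr.1.2.trans h1024) hr.2)
    (by
      intro r hr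
      rw [Finset.mem_filter, Finset.mem_Ioc] at hr
      exact havg0 r (h64.trans (h256.trans hr.1.1.le)) (hr.1.2.trans h2N') hr.2)
    (by
      have h1 := I_delta1 m hm16
      have h2 := I_delta2 m i hm16 him
      have h3 := I_eps i hi
      push_cast at hs2
      linarith)
  exact ⟨v, I_concl (fun r => cp (atomProd v) r) (fun r => I_cp_nonneg _ _) q hq.pos m _ _ hS hT
    (fun r => ∀ p ∈ P, Nat.Coprime p r) hv⟩

end Vale.Agent.H2.P012
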