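import Vale.Agent.H2.P012.Defs

/-! P012, lemma J: counting integers with a divisor in a given set. -/

namespace Vale.Agent.H2.P012

open Finset

theorem card_filter_dvd_single_le (N s : ℕ) (hs : 0 < s) (hsN : s ≤ 2 * N) :
    (((Ico N (2 * N)).filter (fun n => s ∣ n)).card : ℝ) ≤ 3 * N * ((1 : ℝ) / s) := by
  have hsR : (0 : ℝ) < s := by exact_mod_cast hs
  have hNR : (s : ℝ) ≤ 2 * N := by exact_mod_cast hsN
  -- inject into an interval of quotients
  have h1 : ((Ico N (2 * N)).filter (fun n => s ∣ n)).card ≤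
      (Ico ((N + s - 1) / s) ((2 * N + s - 1) / s)).card := by
    apply Finset.card_le_card_of_injOn (fun n => n / s)
    · intro n hn
      simp only [coe_filter, mem_Ico, Set.mem_ofPred_eq] at hn
      obtain ⟨⟨ha, hb⟩, c, rfl⟩ := hn
      simp only [coe_Ico, Set.mem_Ico]
      rw [Nat.mul_div_cancel_left c hs]
      constructor
      · rw [Nat.div_le_iff_le_mul_add_pred hs]
        omega
      · rw [Nat.lt_iff_add_one_le, Nat.le_div_iff_mul_le hs]
        have : (c + 1) * s = s * c + s := by ring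
        omega
    · intro a ha b hb hab
      simp only [coe_filter, mem_Ico, Set.mem_ofPred_eq] at ha hb
      obtain ⟨_, c, rfl⟩ := ha
      obtain ⟨_, d, rfl⟩ := hb
      simp only [Nat.mul_div_cancel_left _ hs] at hab
      rw [hab]
  rw [Nat.card_Ico] at h1
  have h2 : (((Ico N (2 * N)).filter (fun n => s ∣ n)).card : ℝ) ≤ (N : ℝ) / s + 1 := by
    have h3 : (2 * N + s - 1) / s - (N + s - 1) / s ≤ N / s + 1 := by
      have h4 : (2 * N + s - 1) / s ≤ (N + s - 1) / s + (N / s + 1) := by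
        have h5 : 2 * N + s - 1 = (N + s - 1) + N := by omega
        rw [h5]
        have e1 := Nat.div_add_mod (N + s - 1) s
        have e2 := Nat.div_add_mod N s
        have m1 := Nat.mod_lt (N + s - 1) hs
        have m2 := Nat.mod_lt N hs
        rw [← Nat.lt_add_one_iff, Nat.div_lt_iff_lt_mul hs]
        have e3 : ((N + s - 1) / s + (N / s + 1) + 1) * s =
          s * ((N + s - 1) / s) + s * (N / s) + s + s := by ring
        omega
      exact Nat.sub_le_iff_le_add'.mpr h4
    have h6 : (((Ico N (2 * N)).filter (fun n => s ∣ n)).card : ℝ) ≤ ((N / s + 1 : ℕ) : ℝ) := by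
      exact_mod_cast h1.trans h3
    refine h6.trans ?_
    push_cast
    have := @Nat.cast_div_le ℝ _ _ _ N s
    linarith
  refine h2.trans ?_
  rw [div_add_one hsR.ne', mul_one_div, div_le_div_iff_of_pos_right hsR]
  linarith

/-- L-J (counting integers with a divisor in a given set) -/
theorem card_filter_dvd_le (N : ℕ) (S : Finset ℕ) (hS : ∀ s ∈ S, 0 < s ∧ s ≤ 2 * N) :
    (((Ico N (2 * N)).filter (fun n => ∃ s ∈ S, s ∣ n)).card : ℝ) ≤
      3 * N * ∑ s ∈ S, (1 : ℝ) / s := by
  have h1 : (Ico N (2 * N)).filter (fun n => ∃ s ∈ S, s ∣ n) =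
      S.biUnion (fun s => (Ico N (2 * N)).filter (fun n => s ∣ n)) := by
    ext n
    simp only [mem_filter, mem_biUnion]
    constructor
    · rintro ⟨h, s, hs, hd⟩
      exact ⟨s, hs, h, hd⟩
    · rintro ⟨s, hs, h, hd⟩
      exact ⟨h, s, hs, hd⟩
  rw [h1, Finset.mul_sum]
  calc ((S.biUnion (fun s => (Ico N (2 * N)).filter (fun n => s ∣ n))).card : ℝ)
      ≤ ((∑ s ∈ S, ((Ico N (2 * N)).filter (fun n => s ∣ n)).card : ℕ) : ℝ) := by
        exact_mod_cast Finset.card_biUnion_le
    _ = ∑ s ∈ S, (((Ico N (2 * N)).filter (fun n => s ∣ n)).card : ℝ) := by push_cast; rfl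
    _ ≤ ∑ s ∈ S, 3 * (N : ℝ) * ((1 : ℝ) / s) :=
        Finset.sum_le_sum (fun s hs => card_filter_dvd_single_le N s (hS s hs).1 (hS s hs).2)

end Vale.Agent.H2.P012
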