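import Vale.Agent.H2.P012.Defs

/-! P012, lemma X: the lower bound. -/

namespace Vale.Agent.H2.P012

open Finset

/-- If `x < 1`... a remainder which is a sum of at most `k` unit fractions plus `1 / b`, and which
is at least `1 / P`, forces `b ≤ (2 k P) ^ (2 ^ k)`. -/
theorem lower_aux (b K : ℕ) (hb : 0 < b) : ∀ (k : ℕ), k ≤ K → ∀ (s : Multiset ℕ),
    (∀ n ∈ s, 0 < n) → Multiset.card s ≤ k → ∀ (e : ℚ) (P : ℕ), 0 < P → (1 : ℚ) / P ≤ e →
    (∃ c : ℕ, e = c / P) →
    e = (s.map (fun n : ℕ => (1 : ℚ) / (n : ℚ))).sum + 1 / b →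
    b ≤ (2 * K + 2) ^ (2 ^ k - 1) * P ^ (2 ^ k) := by
  intro k
  induction k with
  | zero =>
    intro _ s hs hc e P hP h1 _ h2
    have hs0 : s = 0 := by
      rw [← Multiset.card_eq_zero]; omega
    subst hs0
    simp only [Multiset.map_zero, Multiset.sum_zero, zero_add] at h2
    rw [h2] at h1
    have hPQ : (0 : ℚ) < P := by exact_mod_cast hP
    have hbQ : (0 : ℚ) < b := by exact_mod_cast hb
    rw [div_le_div_iff₀ hPQ hbQ] at h1
    simp only [one_mul] at h1
    have h3 : b ≤ P := by exact_mod_cast h1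
    simpa using h3
  | succ k ih =>
    intro hkK s hs hc e P hP h1 hcP h2
    have hPQ : (0 : ℚ) < P := by exact_mod_cast hP
    have hbQ : (0 : ℚ) < b := by exact_mod_cast hb
    have hKpos : 0 < 2 * K + 2 := by omega
    by_cases hbP : b ≤ 2 * P
    · refine hbP.trans ?_
      have h3 : 2 ≤ (2 * K + 2) ^ (2 ^ (k + 1) - 1) := by
        have h4 : 1 ≤ 2 ^ (k + 1) - 1 := by
          have : 2 ^ (k + 1) = 2 * 2 ^ k := by ring
          have : 0 < 2 ^ k := by positivity
          omega
        calc 2 ≤ (2 * K + 2) := by omega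
          _ = (2 * K + 2) ^ 1 := by ring
          _ ≤ _ := Nat.pow_le_pow_right hKpos h4
      have h5 : P ≤ P ^ (2 ^ (k + 1)) := Nat.le_self_pow (by positivity) P
      exact Nat.mul_le_mul h3 h5
    · push Not at hbP
      -- there is a small denominator
      have h3 : (1 : ℚ) / b < 1 / (2 * P) := by
        apply one_div_lt_one_div_of_lt (by positivity)
        exact_mod_cast hbP
      have h4 : (1 : ℚ) / (2 * P) < (s.map (fun n : ℕ => (1 : ℚ) / (n : ℚ))).sum := by
        have : (1 : ℚ) / P = 1 / (2 * P) + 1 / (2 * P) := by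
          field_simp; norm_num
        linarith
      have h5 : ∃ n ∈ s, (1 : ℚ) / (2 * P * (k + 1)) ≤ 1 / n := by
        by_contra hcon
        push Not at hcon
        have h6 : (s.map (fun n : ℕ => (1 : ℚ) / (n : ℚ))).sum ≤
            Multiset.card (s.map (fun n : ℕ => (1 : ℚ) / (n : ℚ))) • ((1 : ℚ) / (2 * P * (k + 1))) := by
          apply Multiset.sum_le_card_nsmul
          intro x hx
          obtain ⟨n, hn, rfl⟩ := Multiset.mem_map.mp hx
          exact (hcon n hn).le
        rw [Multiset.card_map, nsmul_eq_mul] at h6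
        have h7 : (Multiset.card s : ℚ) ≤ k + 1 := by exact_mod_cast hc
        have h8 : (Multiset.card s : ℚ) * ((1 : ℚ) / (2 * P * (k + 1))) ≤ 1 / (2 * P) := by
          calc (Multiset.card s : ℚ) * ((1 : ℚ) / (2 * P * (k + 1)))
              ≤ (k + 1) * ((1 : ℚ) / (2 * P * (k + 1))) := by gcongr
            _ = 1 / (2 * P) := by field_simp
        linarith
      obtain ⟨n, hn, h6⟩ := h5
      have hn0 : 0 < n := hs n hn
      have hnQ : (0 : ℚ) < n := by exact_mod_cast hn0
      have h7 : n ≤ 2 * P * (k + 1) := by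
        have := (one_div_le_one_div (by positivity) hnQ).mp h6
        exact_mod_cast this
      obtain ⟨t, rfl⟩ := Multiset.exists_cons_of_mem hn
      simp only [Multiset.map_cons, Multiset.sum_cons] at h2
      obtain ⟨c, hcP⟩ := hcP
      have he' : e - 1 / n = (t.map (fun n : ℕ => (1 : ℚ) / (n : ℚ))).sum + 1 / b := by
        rw [h2]; ring
      have hpos : 0 < e - 1 / n := by
        rw [he']
        have : 0 ≤ (t.map (fun n : ℕ => (1 : ℚ) / (n : ℚ))).sum := by
          apply Multiset.sum_nonneg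
          intro x hx
          obtain ⟨n, _, rfl⟩ := Multiset.mem_map.mp hx
          positivity
        positivity
      have hint : e - 1 / n = ((c * n - P : ℤ) : ℚ) / ((P * n : ℕ) : ℚ) := by
        rw [hcP]; push_cast; field_simp
      have hPn : (0 : ℚ) < ((P * n : ℕ) : ℚ) := by exact_mod_cast Nat.mul_pos hP hn0
      have hcz : 0 < (c * n - P : ℤ) := by
        rw [hint] at hpos
        have := (div_pos_iff_of_pos_right hPn).mp hpos
        exact_mod_cast this
      have key := ih (by omega) t (fun m hm => hs m (Multiset.mem_cons_of_mem hm))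
        (by rw [Multiset.card_cons] at hc; omega) (e - 1 / n) (P * n) (Nat.mul_pos hP hn0)
        (by
          rw [hint]
          apply div_le_div_of_nonneg_right _ hPn.le
          exact_mod_cast hcz)
        ⟨(c * n - P : ℤ).toNat, by
          rw [hint]
          congr 1
          have : (((c * n - P : ℤ).toNat : ℤ) : ℚ) = ((c * n - P : ℤ) : ℚ) := by
            rw [Int.toNat_of_nonneg hcz.le]
          exact_mod_cast this.symm⟩ he'
      refine key.trans ?_
      have h8 : P * n ≤ (2 * K + 2) * P ^ 2 := by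
        calc P * n ≤ P * (2 * P * (k + 1)) := Nat.mul_le_mul_left _ h7
          _ = (2 * (k + 1)) * P ^ 2 := by ring
          _ ≤ (2 * K + 2) * P ^ 2 := Nat.mul_le_mul_right _ (by omega)
      calc (2 * K + 2) ^ (2 ^ k - 1) * (P * n) ^ 2 ^ k
          ≤ (2 * K + 2) ^ (2 ^ k - 1) * ((2 * K + 2) * P ^ 2) ^ 2 ^ k := by gcongr
        _ = (2 * K + 2) ^ (2 ^ k - 1 + 2 ^ k) * P ^ (2 * 2 ^ k) := by
            rw [mul_pow, ← pow_mul, pow_add]; ring
        _ = _ := by
            have : 0 < 2 ^ k := by positivity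
            congr 2
            · rw [pow_succ]; omega
            · rw [pow_succ]; ring

/-- lower bound for the number of unit fractions needed to represent `(b - 1) / b` -/
theorem lower_bound (b k : ℕ) (hb : 0 < b) (s : Multiset ℕ) (hs : ∀ n ∈ s, 0 < n)
    (hk : Multiset.card s ≤ k)
    (h : (s.map (fun n : ℕ => (1 : ℚ) / (n : ℚ))).sum = ((b : ℚ) - 1) / b) :
    b ≤ (2 * k + 2) ^ (2 ^ k - 1) := by
  have hbQ : (0 : ℚ) < b := by exact_mod_cast hb
  have := lower_aux b k hb k le_rfl s hs hk 1 1 one_pos (by norm_num) ⟨1, by norm_num⟩ (by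
    rw [h]; field_simp; ring)
  simpa using this

end Vale.Agent.H2.P012
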