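import Vale.Agent.H2.P012.PStruct
import Vale.Agent.H2.P012.Assembly

namespace Vale.Agent.H2.P012

open Finset

theorem level : ∃ C i0 : ℕ, ∀ i ≥ i0, ∀ a b : ℕ, 0 < a → a < b → 1000 ≤ b →
    b ≤ 2 ^ 2 ^ (128 * i) → UF ((a : ℚ) / (b : ℚ)) (C * i) := by
  obtain ⟨gg, hgg⟩ : ∃ g : ℕ, g = 2 ^ 2048 := ⟨_, rfl⟩
  have hggpos : 0 < gg := by rw [hgg]; exact Nat.two_pow_pos _
  obtain ⟨i1, hi14, hT⟩ := T_structure gg hgg hggpos
  have hPS := P_structure gg hgg hggpos
  clear hgg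
  obtain ⟨cV, hcV⟩ : ∃ c : ℕ, c = 8192 * gg := ⟨_, rfl⟩
  have hcVpos : 0 < cV := by omega
  rw [← hcV] at hT hPS
  clear hcV
  obtain ⟨i2, hPr⟩ := exists_prime_set
  refine ⟨17 * cV + 198, max i1 i2, ?_⟩
  intro i hi a b ha hab hb hbm
  have hii1 : i1 ≤ i := (le_max_left _ _).trans hi
  have hi4 : 4 ≤ i := hi14.trans hii1
  obtain ⟨P, hP, hPc⟩ := hPr i ((le_max_right _ _).trans hi)
  obtain ⟨V1, N, hV1, hV1le, hNge, GG, hGG, hcard, hgood⟩ := hT i hii1 P hP hPc
  obtain ⟨V2, q, hV2, hV2le, hqge, hq2, hres⟩ := hPS i hi4 P hP hPc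
  set m := 2 ^ (128 * i) with hm
  have hmge : 2 ^ 10 ≤ m := Nat.pow_le_pow_right (by norm_num) (by omega)
  set x := cV * (i * m) with hx
  have him : 4 * m ≤ i * m := Nat.mul_le_mul_right _ hi4
  have hxge : i * m ≤ x := Nat.le_mul_of_pos_left _ hcVpos
  set V := V1 * V2 with hV
  have hVpos : 0 < V := Nat.mul_pos hV1 hV2
  have hVle : V ≤ 2 ^ (2 * x) := by
    calc V ≤ 2 ^ x * 2 ^ x := Nat.mul_le_mul hV1le hV2le
      _ = 2 ^ (2 * x) := by rw [← pow_add]; congr 1; ring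
  have hNge2 : 2 ^ (255 * (i * m)) ≤ N := by
    refine le_trans (Nat.pow_le_pow_right (by norm_num) ?_) hNge
    calc 255 * (i * m) = (255 * m) * i := by ring
      _ ≤ (256 * m - 1) * i := Nat.mul_le_mul_right _ (by omega)
  have hB : 1000 * 2 ^ (128 * (i * m)) ≤ N := by
    calc 1000 * 2 ^ (128 * (i * m)) ≤ 2 ^ 10 * 2 ^ (128 * (i * m)) :=
          Nat.mul_le_mul_right _ (by norm_num)
      _ = 2 ^ (10 + 128 * (i * m)) := by rw [pow_add]
      _ ≤ 2 ^ (255 * (i * m)) := Nat.pow_le_pow_right (by norm_num) (by omega)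
      _ ≤ N := hNge2
  have hN1000 : 1000 ≤ N := by
    have : 1 ≤ 2 ^ (128 * (i * m)) := Nat.one_le_two_pow
    omega
  have hresV : ∀ ρ, ∃ d : Fin 8 → ℕ, (∀ l, d l ∣ V) ∧ (∀ l, d l ≤ 2 ^ (128 * (i * m))) ∧
      ∑ l, d l ≡ ρ [MOD q] := by
    intro ρ
    obtain ⟨d, h1, h2, h3⟩ := hres ρ
    exact ⟨d, fun l => (h1 l).trans (dvd_mul_left _ _), h2, h3⟩
  have hnear : ∀ n G : ℕ, 0 < G → 29 * N ≤ 10 * n → n ≤ 3 * N →
      UF ((n : ℚ) / ((V : ℚ) * (G : ℚ))) (2 * (16 * i)) := by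
    intro n G hG h1 h2
    exact UF_near_three V N (16 * i) GG hGG hcard hN1000
      (fun n hn G hG => hgood n hn V G (dvd_mul_right _ _) hVpos hG) n G hG h1 h2
  -- greedy
  set T := 100 * V with hT'
  have hTpos : 0 < T := by omega
  have hTle : T ≤ 2 ^ (7 + 2 * x) := by
    calc T ≤ 2 ^ 7 * 2 ^ (2 * x) := Nat.mul_le_mul (by norm_num) hVle
      _ = 2 ^ (7 + 2 * x) := by rw [pow_add]
  set g := 3 + cV + 129 * i with hg
  have hTg : T ≤ 2 ^ 2 ^ g := by
    refine hTle.trans (Nat.pow_le_pow_right (by norm_num) ?_)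
    calc 7 + 2 * x ≤ 8 * x := by omega
      _ ≤ 8 * (2 ^ cV * (2 ^ i * m)) := by
          apply Nat.mul_le_mul_left
          exact Nat.mul_le_mul Nat.lt_two_pow_self.le
            (Nat.mul_le_mul_right _ Nat.lt_two_pow_self.le)
      _ = 2 ^ g := by
          rw [hg, hm, show 3 + cV + 129 * i = 3 + (cV + (i + 128 * i)) by ring, pow_add, pow_add,
            pow_add]
          norm_num
  obtain ⟨c, P0, hP0, hP0le, hcb, hclt, y, hy, hyeq⟩ := greedy a b ha hab T g hTpos hTg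
  rw [hyeq]
  rcases Nat.eq_zero_or_pos c with hc0 | hc0
  · subst hc0
    have := hy
    simp only [Nat.cast_zero, zero_div, add_zero]
    refine hy.mono ?_
    have hfin : cV ≤ cV * i := Nat.le_mul_of_pos_right _ (by omega)
    have hexp : (17 * cV + 198) * i = 17 * (cV * i) + 198 * i := by ring
    rw [hexp, hg]
    omega
  · set D := b * P0 with hD
    have hDge : 1000 ≤ D := by
      calc 1000 ≤ b := hb
        _ ≤ D := Nat.le_mul_of_pos_right _ hP0
    have hcD : 100 * (c * V) ≤ D := by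
      have h1 : (c : ℚ) * T < b * P0 := by
        have hb0 : (0 : ℚ) < b * P0 := by
          have : 0 < b := by omega
          positivity
        have hT0 : (0 : ℚ) < T := by exact_mod_cast hTpos
        rw [div_lt_div_iff₀ hb0 hT0] at hclt
        linarith
      have h2 : c * T < D := by exact_mod_cast h1
      rw [hT'] at h2
      calc 100 * (c * V) = c * (100 * V) := by ring
        _ ≤ D := h2.le
    have hk : 20 * D ≤ N * q ^ (cV * i) := by
      have h1 : D ≤ 2 ^ m * (2 ^ (7 + 2 * x) * (2 ^ (7 + 2 * x) * 2)) := by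
        apply Nat.mul_le_mul hbm
        refine hP0le.trans (Nat.mul_le_mul hTle ?_)
        have : 1 ≤ 2 ^ (7 + 2 * x) := Nat.one_le_two_pow
        omega
      have h2 : 2 ^ (7 * x) ≤ q ^ (cV * i) := by
        calc 2 ^ (7 * x) = (2 ^ (7 * m)) ^ (cV * i) := by
              rw [← pow_mul, hx]; congr 1; ring
          _ ≤ (2 ^ (8 * m - 1)) ^ (cV * i) :=
              Nat.pow_le_pow_left (Nat.pow_le_pow_right (by norm_num) (by omega)) _
          _ ≤ q ^ (cV * i) := Nat.pow_le_pow_left hqge _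
      calc 20 * D ≤ 2 ^ 5 * (2 ^ m * (2 ^ (7 + 2 * x) * (2 ^ (7 + 2 * x) * 2))) :=
            Nat.mul_le_mul (by norm_num) h1
        _ = 2 ^ (5 + (m + ((7 + 2 * x) + ((7 + 2 * x) + 1)))) := by
            generalize 7 + 2 * x = z
            rw [pow_add 2 5, pow_add 2 m, pow_add 2 z, pow_add 2 z, pow_one]
        _ = 2 ^ (20 + m + 4 * x) := by congr 1; ring
        _ ≤ 2 ^ (7 * x) := Nat.pow_le_pow_right (by norm_num) (by omega)
        _ ≤ 1 * q ^ (cV * i) := by rw [one_mul]; exact h2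
        _ ≤ N * q ^ (cV * i) := Nat.mul_le_mul_right _ (by omega)
    have hmain := UF_of_remainder V q N (2 ^ (128 * (i * m))) (2 * (16 * i)) hVpos hq2 hB hN1000
      hresV hnear c D (cV * i) hc0 hDge hcD hk
    have hcast : (c : ℚ) / ((b : ℚ) * (P0 : ℚ)) = (c : ℚ) / (D : ℚ) := by
      rw [hD]; push_cast; rfl
    rw [hcast]
    refine (hy.add hmain).mono ?_
    have hfin : cV ≤ cV * i := Nat.le_mul_of_pos_right _ (by omega)
    have hexp : (17 * cV + 198) * i = 17 * (cV * i) + 198 * i := by ring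
    rw [hexp, hg]
    omega

end Vale.Agent.H2.P012
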