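import Vale.Agent.H2.P012.TStruct2

namespace Vale.Agent.H2.P012

open Finset

theorem exists_le_avg {α : Type} [Fintype α] [Nonempty α] (f : α → ℝ) (c : ℝ)
    (h : ∑ a, f a ≤ (Fintype.card α : ℝ) * c) : ∃ a, f a ≤ c := by
  by_contra hcon
  push Not at hcon
  have h1 : ∑ _a : α, c < ∑ a, f a :=
    Finset.sum_lt_sum_of_nonempty Finset.univ_nonempty (fun a _ => hcon a)
  rw [Finset.sum_const, Finset.card_univ, nsmul_eq_mul] at h1
  linarith

theorem P_structure (g : ℕ) (hg : g = 2 ^ 2048) (hgpos : 0 < g) (i : ℕ) (hi : 4 ≤ i) (P : Finset ℕ)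
    (hP : ∀ p ∈ P, p.Prime ∧ 2 ^ (2046 * i) < p ∧ p ≤ 2 ^ (2048 * i))
    (hPc : P.card = 2 ^ (2044 * i)) :
    ∃ V q : ℕ, 0 < V ∧ V ≤ 2 ^ (8192 * g * (i * 2 ^ (128 * i))) ∧ 2 ^ (8 * 2 ^ (128 * i) - 1) ≤ q ∧
      2 ≤ q ∧ ∀ ρ, ∃ d : Fin 8 → ℕ, (∀ l, d l ∣ V) ∧ (∀ l, d l ≤ 2 ^ (128 * (i * 2 ^ (128 * i)))) ∧
        ∑ l, d l ≡ ρ [MOD q] := by
  classical
  set m := 2 ^ (128 * i) with hm
  set M := 2 ^ (128 * i - 5) with hM
  have hMm : 32 * M = m := by
    rw [hM, hm, show 32 = 2 ^ 5 by norm_num, ← pow_add]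
    congr 1
    omega
  have hM2 : M / 2 = 2 ^ (128 * i - 6) := by
    rw [hM, show 128 * i - 5 = (128 * i - 6) + 1 by omega, pow_succ]
    exact Nat.mul_div_cancel _ (by norm_num)
  have hMm2 : 64 * (M / 2) = m := by
    rw [hM2, hm, show 64 = 2 ^ 6 by norm_num, ← pow_add]
    congr 1
    omega
  have hM1 : 1 ≤ M := Nat.one_le_two_pow
  obtain ⟨q, hq, hq1, hq2⟩ := Nat.exists_prime_lt_and_le_two_mul (2 ^ (8 * m - 1)) (by positivity)
  have hq2' : q ≤ 2 ^ (8 * m) := by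
    calc q ≤ 2 * 2 ^ (8 * m - 1) := hq2
      _ = 2 ^ (8 * m) := by rw [← pow_succ']; congr 1; omega
  have hi2 : i + 1 ≤ 2 ^ i := two_pow_ge i
  have hm128 : 2048 * i + 1 ≤ m := by
    calc 2048 * i + 1 ≤ 2 ^ 11 * 2 ^ i := by norm_num; omega
      _ = 2 ^ (11 + i) := by rw [pow_add]
      _ ≤ m := Nat.pow_le_pow_right (by norm_num) (by omega)
  have hqY : 2 ^ (2048 * i) < q := by
    refine lt_of_le_of_lt ?_ hq1
    exact Nat.pow_le_pow_right (by norm_num) (by omega)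
  have hcop : ∀ p ∈ P, Nat.Coprime p q := by
    intro p hp
    rw [Nat.coprime_primes (hP p hp).1 hq]
    have := (hP p hp).2.2
    omega
  have hr1 : 2 ^ (64 * i) ≤ q := by
    refine le_trans ?_ hqY.le
    exact Nat.pow_le_pow_right (by norm_num) (by omega)
  have hr2 : q ≤ (2 ^ (2048 * i)) ^ (M / 2) := by
    refine hq2'.trans ?_
    rw [← pow_mul]
    apply Nat.pow_le_pow_right (by norm_num)
    calc 8 * m = 512 * (M / 2) := by omega
      _ ≤ 2048 * i * (M / 2) := Nat.mul_le_mul_right _ (by omega)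
  have havg := avg_cp_le i (by omega) P hP hPc M g q (by omega) hg hr1 hr2 hcop
  clear hg
  have hPne : P.Nonempty := by
    rw [← Finset.card_pos, hPc]; positivity
  have : Nonempty P := hPne.to_subtype
  obtain ⟨v, hv⟩ := exists_le_avg _ _ havg
  have hq0 : (0 : ℝ) < q := by exact_mod_cast hq.pos
  have hq1' : (1 : ℝ) < q := by exact_mod_cast hq.one_lt
  have hcp : cp (atomProd v) q ≤ (q : ℝ) ^ (-(3 / 4 : ℝ)) := by
    refine hv.trans ?_
    have h1 : (1 / 2 : ℝ) ^ (1023 * M) ≤ 1 / 2 * (q : ℝ) ^ (-(3 / 4 : ℝ)) := by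
      have h2 : (1 / 2 : ℝ) ^ (192 * M) ≤ (q : ℝ) ^ (-(3 / 4 : ℝ)) := by
        have h3 : (q : ℝ) ≤ (2 : ℝ) ^ (256 * M) := by
          have : q ≤ 2 ^ (256 * M) := by
            refine hq2'.trans (Nat.pow_le_pow_right (by norm_num) (by omega))
          exact_mod_cast this
        calc (1 / 2 : ℝ) ^ (192 * M) = ((2 : ℝ) ^ (256 * M)) ^ (-(3 / 4 : ℝ)) := by
              rw [← Real.rpow_natCast, ← Real.rpow_natCast, ← Real.rpow_mul (by norm_num),
                one_div (2 : ℝ), Real.inv_rpow (by norm_num), ← Real.rpow_neg (by norm_num)]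
              congr 1
              push_cast
              ring
          _ ≤ (q : ℝ) ^ (-(3 / 4 : ℝ)) :=
              Real.rpow_le_rpow_of_nonpos hq0 h3 (by norm_num)
      have h4 : (1 / 2 : ℝ) ^ (1023 * M) ≤ 1 / 2 * (1 / 2 : ℝ) ^ (192 * M) := by
        rw [← pow_succ']
        exact pow_le_pow_of_le_one (by norm_num) (by norm_num) (by omega)
      linarith
    have h2 : 2 * (1 / 2 : ℝ) ^ (4 * i) * (q : ℝ) ^ (-(7 / 8 : ℝ)) ≤
        1 / 2 * (q : ℝ) ^ (-(3 / 4 : ℝ)) := by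
      have h3 : (1 / 2 : ℝ) ^ (4 * i) ≤ 1 / 4 := by
        calc (1 / 2 : ℝ) ^ (4 * i) ≤ (1 / 2 : ℝ) ^ 2 :=
              pow_le_pow_of_le_one (by norm_num) (by norm_num) (by omega)
          _ = 1 / 4 := by norm_num
      have h4 : (q : ℝ) ^ (-(7 / 8 : ℝ)) ≤ (q : ℝ) ^ (-(3 / 4 : ℝ)) :=
        Real.rpow_le_rpow_of_exponent_le hq1'.le (by norm_num)
      have h5 : 0 ≤ (q : ℝ) ^ (-(7 / 8 : ℝ)) := by positivity
      have h6 : (0 : ℝ) ≤ (1 / 2 : ℝ) ^ (4 * i) := by positivity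
      nlinarith
    linarith
  have hnn := cp_nonneg (atomProd v) q
  have : Nonempty (Fin g) := ⟨⟨0, hgpos⟩⟩
  have hsum : ∑ r ∈ q.divisors.erase 1,
      (r : ℝ) * cp (atomProd v) r * ((r : ℝ) * cp (atomProd v) r * cp (atomProd v) r) ^ 3 < 1 := by
    rw [hq.divisors]
    have : ({1, q} : Finset ℕ).erase 1 = {q} := by
      rw [Finset.erase_insert]
      simp only [Finset.mem_singleton]
      exact hq.one_lt.ne
    rw [this, Finset.sum_singleton]
    calc (q : ℝ) * cp (atomProd v) q * ((q : ℝ) * cp (atomProd v) q * cp (atomProd v) q) ^ 3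
        ≤ (q : ℝ) * (q : ℝ) ^ (-(3 / 4 : ℝ)) *
            ((q : ℝ) * (q : ℝ) ^ (-(3 / 4 : ℝ)) * (q : ℝ) ^ (-(3 / 4 : ℝ))) ^ 3 := by
          gcongr
      _ = (q : ℝ) ^ (-(5 / 4 : ℝ)) := by
          have e1 : (q : ℝ) * (q : ℝ) ^ (-(3 / 4 : ℝ)) = (q : ℝ) ^ (1 / 4 : ℝ) := by
            nth_rewrite 1 [← Real.rpow_one (q : ℝ)]
            rw [← Real.rpow_add hq0]
            norm_num
          rw [e1, ← Real.rpow_add hq0, ← Real.rpow_natCast, ← Real.rpow_mul hq0.le,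
            ← Real.rpow_add hq0]
          norm_num
      _ < 1 := Real.rpow_lt_one_of_one_lt_of_neg hq1' (by norm_num)
  refine ⟨atomTotal v ^ 2, q, Nat.pow_pos (atomTotal_pos (fun p hp => (hP p hp).1.pos) v), ?_,
    hq1.le, hq.two_le, ?_⟩
  · calc atomTotal v ^ 2 ≤ ((2 ^ (2048 * i)) ^ (M * g)) ^ 2 :=
          Nat.pow_le_pow_left (atomTotal_le (fun p hp => (hP p hp).2.2) v) 2
      _ = 2 ^ (4096 * g * (i * M)) := by rw [← pow_mul, ← pow_mul]; congr 1; ring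
      _ ≤ 2 ^ (8192 * g * (i * m)) := by
          apply Nat.pow_le_pow_right (by norm_num)
          apply Nat.mul_le_mul (Nat.mul_le_mul_right _ (by norm_num))
          exact Nat.mul_le_mul_left _ (by omega)
  · intro ρ
    obtain ⟨I, J, hIJ⟩ := fourier_cover (atomProd v) (atomProd v) q hq.pos
      (fun j => atomProd_coprime hcop v j) hsum ρ
    refine ⟨fun l => atomProd v (I l) * atomProd v (J l), ?_, ?_, hIJ⟩
    · intro l
      rw [pow_two]
      exact Nat.mul_dvd_mul (atomProd_dvd_atomTotal v _) (atomProd_dvd_atomTotal v _)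
    · intro l
      calc atomProd v (I l) * atomProd v (J l) ≤ (2 ^ (2048 * i)) ^ M * (2 ^ (2048 * i)) ^ M :=
            Nat.mul_le_mul (atomProd_le (fun p hp => (hP p hp).2.2) v _)
              (atomProd_le (fun p hp => (hP p hp).2.2) v _)
        _ = 2 ^ (128 * (i * m)) := by
            rw [← pow_mul, ← pow_add, ← hMm]
            congr 1
            ring

end Vale.Agent.H2.P012
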