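import Vale.Agent.H2.P012.L_A0
import Vale.Agent.H2.P012.L_A8
import Vale.Agent.H2.P012.L_A9
import Vale.Agent.H2.P012.L_B
import Vale.Agent.H2.P012.L_C
import Vale.Agent.H2.P012.L_D
import Vale.Agent.H2.P012.L_E1E2
import Vale.Agent.H2.P012.L_F
import Vale.Agent.H2.P012.L_G
import Vale.Agent.H2.P012.L_H
import Vale.Agent.H2.P012.L_I
import Vale.Agent.H2.P012.L_J
import Vale.Agent.H2.P012.L_X
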