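import Vale.Agent.H2.P012.GoodNum

namespace Vale.Agent.H2.P012

open Finset

/-! Parameter inequalities. -/

theorem two_pow_ge (n : ℕ) : n + 1 ≤ 2 ^ n := Nat.lt_two_pow_self

theorem param_tau (i : ℕ) (hi : 1 ≤ i) :
    (2560 * 2 ^ (128 * i) * i + 1) ^ (2 ^ (96 * i)) *
      2 ^ ((2560 * 2 ^ (128 * i) * i) / (96 * i)) ≤ 2 ^ (28 * 2 ^ (128 * i)) := by
  have h1 : (2560 * 2 ^ (128 * i) * i) / (96 * i) ≤ 27 * 2 ^ (128 * i) := by
    apply Nat.div_le_of_le_mul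
    nlinarith [Nat.zero_le (2 ^ (128 * i) * i)]
  have h2 : 2560 * 2 ^ (128 * i) * i + 1 ≤ 2 ^ (12 + 129 * i) := by
    have h3 : i + 1 ≤ 2 ^ i := two_pow_ge i
    have h4 : 2 ^ (12 + 129 * i) = 4096 * 2 ^ (128 * i) * 2 ^ i := by
      rw [show 12 + 129 * i = 12 + 128 * i + i by ring, pow_add, pow_add]
      norm_num
    rw [h4]
    have h5 : 1 ≤ 2 ^ (128 * i) := Nat.one_le_two_pow
    have h6 : 4096 * 2 ^ (128 * i) * (i + 1) ≤ 4096 * 2 ^ (128 * i) * 2 ^ i :=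
      Nat.mul_le_mul_left _ h3
    nlinarith
  have h3 : (12 + 129 * i) * 2 ^ (96 * i) ≤ 2 ^ (128 * i) := by
    have h4 : 2 ^ (128 * i) = 2 ^ (32 * i) * 2 ^ (96 * i) := by
      rw [← pow_add]; congr 1; ring
    rw [h4]
    apply Nat.mul_le_mul_right
    have h5 : 2 ^ (32 * i) = (2 ^ 16) ^ i * (2 ^ 16) ^ i := by
      rw [← pow_mul, ← pow_add]; congr 1; ring
    have h6 : i + 1 ≤ (2 ^ 16) ^ i := by
      calc i + 1 ≤ 2 ^ i := two_pow_ge i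
        _ ≤ (2 ^ 16) ^ i := Nat.pow_le_pow_left (by norm_num) i
    have h7 : 2 ^ 16 ≤ (2 ^ 16) ^ i := by
      calc (2 : ℕ) ^ 16 = (2 ^ 16) ^ 1 := by norm_num
        _ ≤ (2 ^ 16) ^ i := Nat.pow_le_pow_right (by norm_num) hi
    rw [h5]
    calc 12 + 129 * i ≤ 2 ^ 16 * (i + 1) := by norm_num; omega
      _ ≤ _ := Nat.mul_le_mul h7 h6
  calc _ ≤ (2 ^ (12 + 129 * i)) ^ (2 ^ (96 * i)) * 2 ^ (27 * 2 ^ (128 * i)) :=
        Nat.mul_le_mul (Nat.pow_le_pow_left h2 _) (Nat.pow_le_pow_right (by norm_num) h1)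
    _ = 2 ^ ((12 + 129 * i) * 2 ^ (96 * i) + 27 * 2 ^ (128 * i)) := by
        rw [← pow_mul, ← pow_add]
    _ ≤ 2 ^ (28 * 2 ^ (128 * i)) := by
        apply Nat.pow_le_pow_right (by norm_num)
        omega

/-- Number of divisors of every integer up to `2 ^ (2560 m i)`. -/
theorem tau_bound (i : ℕ) (hi : 1 ≤ i) (n : ℕ) (hn : 0 < n)
    (h : n ≤ 2 ^ (2560 * 2 ^ (128 * i) * i)) : n.divisors.card ≤ 2 ^ (28 * 2 ^ (128 * i)) := by
  have := card_divisors_le n (2560 * 2 ^ (128 * i) * i) (96 * i) hn h (by omega)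
  exact this.trans (param_tau i hi)

theorem digitSum_le {P : Finset ℕ} (i : ℕ) (hi : 1 ≤ i) (hP : ∀ p ∈ P, p ≤ 2 ^ (2048 * i)) {m g : ℕ}
    (hm : m = 2 ^ (128 * i)) (v : Fin m → Fin g → P) (q : ℕ) (hq : q ≤ 2 ^ (256 * m))
    (hq1 : 2 * i ≤ q) (w : Fin (2 * i) → (Fin m → Fin g)) :
    digitSum q (2 * i) (atomProd v) w ≤ 2 ^ (2560 * 2 ^ (128 * i) * i) := by
  unfold digitSum
  calc ∑ k : Fin (2 * i), q ^ (k : ℕ) * atomProd v (w k)
      ≤ ∑ _k : Fin (2 * i), q ^ (2 * i - 1) * (2 ^ (2048 * i)) ^ m := by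
        apply Finset.sum_le_sum
        intro k _
        apply Nat.mul_le_mul _ (atomProd_le hP v _)
        apply Nat.pow_le_pow_right (by omega)
        have := k.2
        omega
    _ = (2 * i) * (q ^ (2 * i - 1) * (2 ^ (2048 * i)) ^ m) := by simp
    _ ≤ q * (q ^ (2 * i - 1) * (2 ^ (2048 * i)) ^ m) := Nat.mul_le_mul_right _ hq1
    _ = q ^ (2 * i) * (2 ^ (2048 * i)) ^ m := by
        rw [← mul_assoc, ← pow_succ']
        congr 2
        omega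
    _ ≤ (2 ^ (256 * m)) ^ (2 * i) * (2 ^ (2048 * i)) ^ m :=
        Nat.mul_le_mul_right _ (Nat.pow_le_pow_left hq _)
    _ = 2 ^ (2560 * 2 ^ (128 * i) * i) := by
        rw [← pow_mul, ← pow_mul, ← pow_add, hm]
        congr 1
        ring

/-! The set of excluded divisors. -/

/-- Eighth powers of the primes up to `R`. -/
def pow8 (R N : ℕ) : Finset ℕ :=
  (((Ioc 1 R).filter Nat.Prime).image (fun p => p ^ 8)).filter (fun s => s ≤ 2 * N)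

/-- The bad moduli. -/
noncomputable def badSet {P : Finset ℕ} {m g : ℕ} (v : Fin m → Fin g → P) (q K r2 N : ℕ) :
    Finset ℕ :=
  ((Icc r2 (2 ^ (256 * m))).filter
      (fun r => (∀ p ∈ P, Nat.Coprime p r) ∧ (r : ℝ) ^ (-(3 / 4 : ℝ)) < cp (atomProd v) r)) ∪
    ((Ioc (2 ^ (256 * m)) (2 * N)).filter
      (fun r => (∀ p ∈ P, Nat.Coprime p r) ∧ (1 / 2 : ℝ) ^ (128 * m) < cp (atomProd v) r)) ∪
    ((Ioc (2 ^ (256 * m)) (2 * N)).filter
      (fun r => (2 : ℝ) ^ (64 * m) / r < cp (digitSum q K (atomProd v)) r))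

theorem sum_pow8 (R N : ℕ) : ∑ s ∈ pow8 R N, (1 : ℝ) / s ≤ 1 / 64 := by
  classical
  have h0 : ∑ s ∈ pow8 R N, (1 : ℝ) / s ≤
      ∑ s ∈ (((Ioc 1 R).filter Nat.Prime).image (fun p : ℕ => p ^ 8)), (1 : ℝ) / ((s : ℕ) : ℝ) := by
    apply Finset.sum_le_sum_of_subset_of_nonneg (Finset.filter_subset _ _)
    intro s _ _
    positivity
  have h1 : ∑ s ∈ (((Ioc 1 R).filter Nat.Prime).image (fun p : ℕ => p ^ 8)), (1 : ℝ) / ((s : ℕ) : ℝ) =
      ∑ p ∈ (Ioc 1 R).filter Nat.Prime, (1 : ℝ) / ((p ^ 8 : ℕ) : ℝ) := by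
    apply Finset.sum_image
    intro a _ b _ hab
    exact Nat.pow_left_injective (by norm_num) hab
  have h2 : ∑ p ∈ (Ioc 1 R).filter Nat.Prime, (1 : ℝ) / ((p ^ 8 : ℕ) : ℝ) ≤
      ∑ p ∈ (Ioc 1 R), (1 : ℝ) / ((p ^ 8 : ℕ) : ℝ) := by
    apply Finset.sum_le_sum_of_subset_of_nonneg (Finset.filter_subset _ _)
    intro s _ _
    positivity
  have h3 : ∑ p ∈ (Ioc 1 R), (1 : ℝ) / ((p ^ 8 : ℕ) : ℝ) ≤
      ∑ p ∈ (Ioc 1 R), (1 / 64) * (((p : ℝ) ^ 2)⁻¹) := by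
    apply Finset.sum_le_sum
    intro p hp
    have hp2 : (2 : ℝ) ≤ p := by
      have := (Finset.mem_Ioc.1 hp).1
      exact_mod_cast this
    have hp0 : (0 : ℝ) < p := by linarith
    push_cast
    rw [div_le_iff₀ (by positivity)]
    have h4 : (64 : ℝ) ≤ (p : ℝ) ^ 6 := by
      calc (64 : ℝ) = 2 ^ 6 := by norm_num
        _ ≤ (p : ℝ) ^ 6 := pow_le_pow_left₀ (by norm_num) hp2 6
    have h5 : 1 / 64 * ((p : ℝ) ^ 2)⁻¹ * (p : ℝ) ^ 8 = (p : ℝ) ^ 6 / 64 := by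
      field_simp
    rw [h5]
    linarith
  have h6 : ∑ p ∈ (Ioc 1 R), (((p : ℝ) ^ 2)⁻¹) ≤ 1 := by
    rcases Nat.lt_or_ge R 1 with h | h
    · have : R = 0 := by omega
      subst this
      simp
    · have := sum_Ioc_inv_sq_le_sub (α := ℝ) (k := 1) (n := R) one_ne_zero h
      have h7 : (0 : ℝ) ≤ (R : ℝ)⁻¹ := by positivity
      simp only [Nat.cast_one, inv_one] at this
      linarith
  rw [← Finset.mul_sum] at h3
  linarith

theorem sum_prime_set {P : Finset ℕ} (i : ℕ) (hi : 4 ≤ i)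
    (hP : ∀ p ∈ P, p.Prime ∧ 2 ^ (2046 * i) < p ∧ p ≤ 2 ^ (2048 * i))
    (hPc : P.card = 2 ^ (2044 * i)) : ∑ s ∈ P, (1 : ℝ) / s ≤ 1 / 100 := by
  have h1 : ∑ s ∈ P, (1 : ℝ) / s ≤ ∑ _s ∈ P, (1 : ℝ) / 2 ^ (2046 * i) := by
    apply Finset.sum_le_sum
    intro s hs
    apply one_div_le_one_div_of_le (by positivity)
    exact_mod_cast (hP s hs).2.1.le
  rw [Finset.sum_const, hPc, nsmul_eq_mul] at h1
  have h2 : ((2 ^ (2044 * i) : ℕ) : ℝ) * (1 / 2 ^ (2046 * i)) = 1 / 2 ^ (2 * i) := by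
    push_cast
    rw [show 2046 * i = 2044 * i + 2 * i by ring, pow_add]
    field_simp
  rw [h2] at h1
  refine h1.trans ?_
  apply one_div_le_one_div_of_le (by norm_num)
  calc (100 : ℝ) ≤ 2 ^ 8 := by norm_num
    _ ≤ 2 ^ (2 * i) := pow_le_pow_right₀ (by norm_num) (by omega)

/-- The moduli where the digit sums collide too often. -/
theorem sum_bad3 {P : Finset ℕ} (i : ℕ) (hi : 4 ≤ i)
    (hPle : ∀ p ∈ P, p ≤ 2 ^ (2048 * i)) {m g : ℕ} (hg : 0 < g)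
    (hm : m = 2 ^ (128 * i)) (v : Fin m → Fin g → P) (q : ℕ) (hq : q ≤ 2 ^ (256 * m))
    (hq1 : 2 * i ≤ q) (hcp : cp (atomProd v) q ≤ (q : ℝ) ^ (-(3 / 4 : ℝ))) :
    ∑ r ∈ (Ioc (2 ^ (256 * m)) (2 * q ^ i)).filter
      (fun r => (2 : ℝ) ^ (64 * m) / r < cp (digitSum q (2 * i) (atomProd v)) r),
        (1 : ℝ) / r ≤ 1 / 100 := by
  classical
  have : Nonempty (Fin g) := ⟨⟨0, hg⟩⟩
  set s := digitSum q (2 * i) (atomProd v) with hs
  have hq0 : (0 : ℝ) < q := by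
    have : 0 < q := by omega
    exact_mod_cast this
  have hmpos : 0 < m := by rw [hm]; positivity
  have h1 : ∑ r ∈ (Ioc (2 ^ (256 * m)) (2 * q ^ i)).filter
      (fun r => (2 : ℝ) ^ (64 * m) / r < cp s r), (1 : ℝ) / r ≤
      ∑ r ∈ (Ioc (2 ^ (256 * m)) (2 * q ^ i)).filter
      (fun r => (2 : ℝ) ^ (64 * m) / r < cp s r), cp s r / (2 : ℝ) ^ (64 * m) := by
    apply Finset.sum_le_sum
    intro r hr
    have h2 := (Finset.mem_filter.1 hr).2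
    rw [le_div_iff₀ (by positivity)]
    calc (1 : ℝ) / r * 2 ^ (64 * m) = (2 : ℝ) ^ (64 * m) / r := by ring
      _ ≤ _ := h2.le
  have hcpnn : ∀ r, 0 ≤ cp s r := fun r => by unfold cp; positivity
  have h2 : ∑ r ∈ (Ioc (2 ^ (256 * m)) (2 * q ^ i)).filter
      (fun r => (2 : ℝ) ^ (64 * m) / r < cp s r), cp s r / (2 : ℝ) ^ (64 * m) ≤
      ∑ r ∈ Icc 1 (2 * q ^ i), cp s r / (2 : ℝ) ^ (64 * m) := by
    apply Finset.sum_le_sum_of_subset_of_nonneg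
    · intro r hr
      have := (Finset.mem_Ioc.1 (Finset.mem_filter.1 hr).1)
      exact Finset.mem_Icc.2 ⟨by omega, this.2⟩
    · intro r _ _
      exact div_nonneg (hcpnn r) (by positivity)
  rw [← Finset.sum_div, ← Finset.sum_div] at h2
  rw [← Finset.sum_div] at h1
  have h3 := sum_cp_le s (2 * q ^ i) (2 ^ (2560 * 2 ^ (128 * i) * i)) (2 ^ (28 * 2 ^ (128 * i)))
    (fun w => digitSum_le i (by omega) hPle hm v q hq hq1 w)
    (fun n hn hn2 => tau_bound i (by omega) n hn hn2)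
  have h4 : cp s 0 ≤ ((q : ℝ) ^ (-(3 / 4 : ℝ))) ^ (2 * i) :=
    (cp_digitSum_zero_le (atomProd v) q (2 * i) (by omega)).trans
      (pow_le_pow_left₀ (by unfold cp; positivity) hcp _)
  have h5 : ((2 * q ^ i : ℕ) : ℝ) * cp s 0 ≤ 2 := by
    have h6 : ((q : ℝ) ^ (-(3 / 4 : ℝ))) ^ (2 * i) ≤ ((q : ℝ) ^ i)⁻¹ := by
      rw [← Real.rpow_natCast, ← Real.rpow_mul hq0.le, ← Real.rpow_natCast, ← Real.rpow_neg hq0.le]
      apply Real.rpow_le_rpow_of_exponent_le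
      · have : 1 ≤ q := by omega
        exact_mod_cast this
      · push_cast
        have : (0 : ℝ) ≤ i := by positivity
        nlinarith
    push_cast
    calc 2 * (q : ℝ) ^ i * cp s 0 ≤ 2 * (q : ℝ) ^ i * ((q : ℝ) ^ i)⁻¹ :=
          mul_le_mul_of_nonneg_left (h4.trans h6) (by positivity)
      _ = 2 := by field_simp
  have h7 : ((2 ^ (28 * 2 ^ (128 * i)) : ℕ) : ℝ) = (2 : ℝ) ^ (28 * m) := by
    rw [hm]; push_cast; rfl
  rw [h7] at h3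
  have hm1 : (2 : ℝ) ≤ 2 ^ (28 * m) := by
    calc (2 : ℝ) = 2 ^ 1 := by norm_num
      _ ≤ _ := pow_le_pow_right₀ (by norm_num) (by omega)
  have h8 : (∑ r ∈ Icc 1 (2 * q ^ i), cp s r) / (2 : ℝ) ^ (64 * m) ≤ 1 / 100 := by
    rw [div_le_iff₀ (by positivity)]
    have h9 : (2 : ℝ) ^ (64 * m) = 2 ^ (36 * m) * 2 ^ (28 * m) := by
      rw [← pow_add]; congr 1; ring
    have h10 : (200 : ℝ) ≤ 2 ^ (36 * m) := by
      calc (200 : ℝ) ≤ 2 ^ 8 := by norm_num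
        _ ≤ _ := pow_le_pow_right₀ (by norm_num) (by omega)
    rw [h9]
    nlinarith
  linarith

end Vale.Agent.H2.P012
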