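import Vale.Agent.H2.P012.TStruct

namespace Vale.Agent.H2.P012

open Finset

/-- Product of seventh powers of the small primes. -/
def smallPart (R : ℕ) : ℕ := ∏ p ∈ (Ioc 1 R).filter Nat.Prime, p ^ 7

theorem smallPart_pos (R : ℕ) : 0 < smallPart R :=
  Finset.prod_pos (fun _ hp => Nat.pow_pos (Nat.Prime.pos (Finset.mem_filter.1 hp).2))

theorem pow_dvd_smallPart {R p k : ℕ} (hp : p.Prime) (hpR : p ≤ R) (hk : k ≤ 7) :
    p ^ k ∣ smallPart R := by
  refine (pow_dvd_pow p hk).trans ?_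
  exact Finset.dvd_prod_of_mem (fun p => p ^ 7)
    (Finset.mem_filter.2 ⟨Finset.mem_Ioc.2 ⟨hp.one_lt, hpR⟩, hp⟩)

theorem smallPart_le (R : ℕ) : smallPart R ≤ (R ^ 7) ^ R := by
  rcases Nat.eq_zero_or_pos R with h | h
  · subst h; simp [smallPart]
  unfold smallPart
  calc ∏ p ∈ (Ioc 1 R).filter Nat.Prime, p ^ 7
      ≤ ∏ _p ∈ (Ioc 1 R).filter Nat.Prime, R ^ 7 := by
        apply Finset.prod_le_prod'
        intro p hp
        exact Nat.pow_le_pow_left (Finset.mem_Ioc.1 (Finset.mem_filter.1 hp).1).2 7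
    _ = (R ^ 7) ^ ((Ioc 1 R).filter Nat.Prime).card := by simp
    _ ≤ (R ^ 7) ^ R := by
        apply Nat.pow_le_pow_right (Nat.pow_pos h)
        calc _ ≤ (Ioc 1 R).card := Finset.card_filter_le _ _
          _ ≤ R := by rw [Nat.card_Ioc]; omega

/-- The rough part of a number without eighth powers of small primes. -/
theorem rough_part (R n : ℕ) (hn : 0 < n) (h8 : ∀ p, p.Prime → p ≤ R → ¬ p ^ 8 ∣ n) :
    ∀ p, p.Prime → p ≤ R → ¬ p ∣ n / Nat.gcd n (smallPart R) := by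
  intro p hp hpR hdvd
  set t := Nat.gcd n (smallPart R) with ht
  have htn : t ∣ n := Nat.gcd_dvd_left _ _
  have hv : n.factorization p ≤ 7 := by
    by_contra hcon
    push Not at hcon
    apply h8 p hp hpR
    exact (Nat.pow_dvd_pow p hcon).trans (Nat.ordProj_dvd n p)
  have h1 : p ^ (n.factorization p) ∣ t :=
    Nat.dvd_gcd (Nat.ordProj_dvd n p) (pow_dvd_smallPart hp hpR hv)
  have h2 : p ^ (n.factorization p + 1) ∣ n := by
    rw [pow_succ]
    have h3 : n = t * (n / t) := (Nat.mul_div_cancel' htn).symm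
    rw [h3]
    have h4 : (t * (n / t)).factorization p = n.factorization p := by rw [← h3]
    rw [h4]
    exact Nat.mul_dvd_mul h1 hdvd
  exact Nat.pow_succ_factorization_not_dvd hn.ne' hp h2

theorem cp_nonneg {ι : Type} [Fintype ι] (f : ι → ℕ) (r : ℕ) : 0 ≤ cp f r := by
  unfold cp; positivity

theorem good_of_avoid {P : Finset ℕ} (i : ℕ) (hi : 4 ≤ i)
    (hP : ∀ p ∈ P, p.Prime ∧ 2 ^ (2046 * i) < p ∧ p ≤ 2 ^ (2048 * i)) {m g : ℕ} (hg : 0 < g)
    (hm : m = 2 ^ (128 * i)) (v : Fin m → Fin g → P) (q : ℕ) (hqle : q ≤ 2 ^ (256 * m))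
    (hq1 : 2 * i ≤ q) (n : ℕ) (hn1 : q ^ i ≤ n) (hn2 : n < 2 * q ^ i)
    (hav : ∀ s ∈ P ∪ pow8 (2 ^ (64 * i)) (q ^ i) ∪ badSet v q (2 * i) (2 ^ (64 * i)) (q ^ i),
      ¬ s ∣ n) (V G : ℕ) (hV : smallPart (2 ^ (64 * i)) * (q ^ (2 * i) * atomTotal v ^ 2) ∣ V)
    (hVpos : 0 < V) (hG : 0 < G) :
    UF ((n : ℚ) / ((V : ℚ) * (G : ℚ))) (16 * i) := by
  classical
  have hqpos : 0 < q := by omega
  have hnpos : 0 < n := lt_of_lt_of_le (Nat.pow_pos hqpos) hn1
  have hmpos : 0 < m := by rw [hm]; positivity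
  set R := 2 ^ (64 * i) with hR
  set t := Nat.gcd n (smallPart R) with ht
  set nr := n / t with hnr
  have htn : t ∣ n := Nat.gcd_dvd_left _ _
  have hnt : t * nr = n := Nat.mul_div_cancel' htn
  have hnrpos : 0 < nr := Nat.pos_of_ne_zero (fun h => by rw [h] at hnt; omega)
  have hnrdvd : nr ∣ n := ⟨t, by rw [mul_comm]; exact hnt.symm⟩
  have hPn : ∀ p ∈ P, Nat.Coprime p n := by
    intro p hp
    rw [Nat.Prime.coprime_iff_not_dvd (hP p hp).1]
    exact hav p (by simp [hp])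
  have h8 : ∀ p, p.Prime → p ≤ R → ¬ p ^ 8 ∣ n := by
    intro p hp hpR hdvd
    have hle : p ^ 8 ≤ n := Nat.le_of_dvd hnpos hdvd
    apply hav (p ^ 8) _ hdvd
    apply Finset.mem_union_left
    apply Finset.mem_union_right
    unfold pow8
    rw [Finset.mem_filter]
    refine ⟨Finset.mem_image.2 ⟨p, Finset.mem_filter.2 ⟨Finset.mem_Ioc.2 ⟨hp.one_lt, hpR⟩, hp⟩, rfl⟩, ?_⟩
    omega
  have hrough := rough_part R n hnpos h8
  rw [← ht, ← hnr] at hrough
  have hdiv : ∀ r ∈ nr.divisors.erase 1, R < r ∧ r ≤ 2 * q ^ i ∧ (∀ p ∈ P, Nat.Coprime p r) ∧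
      r ∣ n := by
    intro r hr
    have hr1 : r ≠ 1 := (Finset.mem_erase.1 hr).1
    have hr2 : r ∣ nr := Nat.dvd_of_mem_divisors (Finset.mem_erase.1 hr).2
    have hrn : r ∣ n := hr2.trans hnrdvd
    have hrpos : 0 < r := Nat.pos_of_dvd_of_pos hrn hnpos
    refine ⟨?_, ?_, ?_, hrn⟩
    · by_contra hcon
      push Not at hcon
      have hmf := Nat.minFac_prime hr1
      exact hrough r.minFac hmf ((Nat.minFac_le hrpos).trans hcon)
        ((Nat.minFac_dvd r).trans hr2)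
    · have := Nat.le_of_dvd hnpos hrn
      omega
    · intro p hp
      exact Nat.Coprime.coprime_dvd_right hrn (hPn p hp)
  have : Nonempty (Fin g) := ⟨⟨0, hg⟩⟩
  -- bound for each divisor
  have hterm : ∀ r ∈ nr.divisors.erase 1,
      (r : ℝ) * cp (digitSum q (2 * i) (atomProd v)) r *
        ((r : ℝ) * cp (digitSum q (2 * i) (atomProd v)) r * cp (atomProd v) r) ^ 3 ≤
      if r ≤ 2 ^ (256 * m) then (r : ℝ) ^ (-(5 / 4 : ℝ)) else (1 / 2 : ℝ) ^ (128 * m) := by
    intro r hr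
    obtain ⟨h1, h2, h3, h4⟩ := hdiv r hr
    have hrpos : 0 < r := lt_of_le_of_lt (Nat.zero_le _) h1
    have hr0 : (0 : ℝ) < r := by exact_mod_cast hrpos
    have hnb : r ∉ badSet v q (2 * i) R (q ^ i) := fun hb =>
      hav r (Finset.mem_union_right _ hb) h4
    have hcs : cp (digitSum q (2 * i) (atomProd v)) r ≤ cp (atomProd v) r :=
      cp_digitSum_le (atomProd v) q (2 * i) r (by omega)
    split_ifs with hR0
    · have hc : cp (atomProd v) r ≤ (r : ℝ) ^ (-(3 / 4 : ℝ)) := by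
        by_contra hcon
        push Not at hcon
        apply hnb
        unfold badSet
        apply Finset.mem_union_left
        apply Finset.mem_union_left
        exact Finset.mem_filter.2 ⟨Finset.mem_Icc.2 ⟨h1.le, hR0⟩, h3, hcon⟩
      have hc2 := hcs.trans hc
      have hnn := cp_nonneg (digitSum q (2 * i) (atomProd v)) r
      have hnn2 := cp_nonneg (atomProd v) r
      calc (r : ℝ) * cp (digitSum q (2 * i) (atomProd v)) r *
            ((r : ℝ) * cp (digitSum q (2 * i) (atomProd v)) r * cp (atomProd v) r) ^ 3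
          ≤ (r : ℝ) * (r : ℝ) ^ (-(3 / 4 : ℝ)) *
            ((r : ℝ) * (r : ℝ) ^ (-(3 / 4 : ℝ)) * (r : ℝ) ^ (-(3 / 4 : ℝ))) ^ 3 := by
            gcongr
        _ = (r : ℝ) ^ (-(5 / 4 : ℝ)) := by
            have e1 : (r : ℝ) * (r : ℝ) ^ (-(3 / 4 : ℝ)) = (r : ℝ) ^ (1 / 4 : ℝ) := by
              nth_rewrite 1 [← Real.rpow_one (r : ℝ)]
              rw [← Real.rpow_add hr0]
              norm_num
            rw [e1, ← Real.rpow_add hr0, ← Real.rpow_natCast, ← Real.rpow_mul hr0.le,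
              ← Real.rpow_add hr0]
            norm_num
    · push Not at hR0
      have hc : cp (atomProd v) r ≤ (1 / 2 : ℝ) ^ (128 * m) := by
        by_contra hcon
        push Not at hcon
        apply hnb
        unfold badSet
        apply Finset.mem_union_left
        apply Finset.mem_union_right
        exact Finset.mem_filter.2 ⟨Finset.mem_Ioc.2 ⟨hR0, h2⟩, h3, hcon⟩
      have hc2 : cp (digitSum q (2 * i) (atomProd v)) r ≤ (2 : ℝ) ^ (64 * m) / r := by
        by_contra hcon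
        push Not at hcon
        apply hnb
        unfold badSet
        apply Finset.mem_union_right
        exact Finset.mem_filter.2 ⟨Finset.mem_Ioc.2 ⟨hR0, h2⟩, hcon⟩
      have hnn := cp_nonneg (digitSum q (2 * i) (atomProd v)) r
      have hnn2 := cp_nonneg (atomProd v) r
      calc (r : ℝ) * cp (digitSum q (2 * i) (atomProd v)) r *
            ((r : ℝ) * cp (digitSum q (2 * i) (atomProd v)) r * cp (atomProd v) r) ^ 3
          ≤ (r : ℝ) * ((2 : ℝ) ^ (64 * m) / r) *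
            ((r : ℝ) * ((2 : ℝ) ^ (64 * m) / r) * (1 / 2 : ℝ) ^ (128 * m)) ^ 3 := by
            gcongr
        _ = (1 / 2 : ℝ) ^ (128 * m) := by
            have e1 : (r : ℝ) * ((2 : ℝ) ^ (64 * m) / r) = (2 : ℝ) ^ (64 * m) := by
              field_simp
            have e2 : (2 : ℝ) ^ (64 * m) * (1 / 2 : ℝ) ^ (64 * m) = 1 := by
              rw [← mul_pow]; norm_num
            have e3 : (1 / 2 : ℝ) ^ (128 * m) = (1 / 2 : ℝ) ^ (64 * m) * (1 / 2 : ℝ) ^ (64 * m) := by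
              rw [← pow_add]; congr 1; ring
            rw [e1, e3]
            set A := (2 : ℝ) ^ (64 * m)
            set B := (1 / 2 : ℝ) ^ (64 * m)
            calc A * (A * (B * B)) ^ 3 = (A * B) ^ 4 * (B * B) := by ring
              _ = B * B := by rw [e2]; ring
  have hsum : ∑ r ∈ nr.divisors.erase 1,
      (r : ℝ) * cp (digitSum q (2 * i) (atomProd v)) r *
        ((r : ℝ) * cp (digitSum q (2 * i) (atomProd v)) r * cp (atomProd v) r) ^ 3 < 1 := by
    refine lt_of_le_of_lt (Finset.sum_le_sum hterm) ?_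
    rw [Finset.sum_ite]
    have hs1 : ∑ r ∈ (nr.divisors.erase 1).filter (fun r => r ≤ 2 ^ (256 * m)),
        (r : ℝ) ^ (-(5 / 4 : ℝ)) ≤ 1 / 4 := by
      calc _ ≤ ∑ r ∈ Ioc R (2 ^ (256 * m)), (r : ℝ) ^ (-(5 / 4 : ℝ)) := by
            apply Finset.sum_le_sum_of_subset_of_nonneg
            · intro r hr
              have h1 := Finset.mem_filter.1 hr
              exact Finset.mem_Ioc.2 ⟨(hdiv r h1.1).1, h1.2⟩
            · intro r _ _
              positivity
        _ ≤ 4 * (R : ℝ) ^ (-(1 / 4 : ℝ)) :=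
            sum_rpow_neg_tail_le R _ (by rw [hR]; positivity)
        _ ≤ 1 / 4 := by
            have e1 : (R : ℝ) ^ (-(1 / 4 : ℝ)) = (1 / 2 : ℝ) ^ (16 * i) := by
              rw [hR]
              push_cast
              rw [← Real.rpow_natCast, ← Real.rpow_mul (by norm_num), ← Real.rpow_natCast,
                one_div (2 : ℝ), Real.inv_rpow (by norm_num), ← Real.rpow_neg (by norm_num)]
              congr 1
              push_cast
              ring
            rw [e1]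
            have e2 : (1 / 2 : ℝ) ^ (16 * i) ≤ (1 / 2 : ℝ) ^ 4 :=
              pow_le_pow_of_le_one (by norm_num) (by norm_num) (by omega)
            calc 4 * (1 / 2 : ℝ) ^ (16 * i) ≤ 4 * (1 / 2 : ℝ) ^ 4 := by linarith
              _ = 1 / 4 := by norm_num
    have hs2 : ∑ r ∈ (nr.divisors.erase 1).filter (fun r => ¬ r ≤ 2 ^ (256 * m)),
        (1 / 2 : ℝ) ^ (128 * m) ≤ 1 / 4 := by
      rw [Finset.sum_const, nsmul_eq_mul]
      have hcard : (((nr.divisors.erase 1).filter (fun r => ¬ r ≤ 2 ^ (256 * m))).card : ℝ) ≤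
          (2 : ℝ) ^ (28 * m) := by
        have h1 : ((nr.divisors.erase 1).filter (fun r => ¬ r ≤ 2 ^ (256 * m))).card ≤
            nr.divisors.card :=
          (Finset.card_filter_le _ _).trans (Finset.card_le_card (Finset.erase_subset _ _))
        have h2 : nr.divisors.card ≤ 2 ^ (28 * 2 ^ (128 * i)) := by
          apply tau_bound i (by omega) nr hnrpos
          calc nr ≤ n := Nat.le_of_dvd hnpos hnrdvd
            _ ≤ 2 * q ^ i := by omega
            _ ≤ 2 * (2 ^ (256 * m)) ^ i :=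
                Nat.mul_le_mul_left _ (Nat.pow_le_pow_left hqle i)
            _ = 2 ^ (256 * m * i + 1) := by rw [← pow_mul, pow_succ]; ring
            _ ≤ 2 ^ (2560 * 2 ^ (128 * i) * i) := by
                apply Nat.pow_le_pow_right (by norm_num)
                rw [hm]
                have : 1 ≤ 2 ^ (128 * i) * i := Nat.mul_pos (by positivity) (by omega)
                nlinarith
        rw [← hm] at h2
        calc (((nr.divisors.erase 1).filter (fun r => ¬ r ≤ 2 ^ (256 * m))).card : ℝ)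
            ≤ ((2 ^ (28 * m) : ℕ) : ℝ) := by exact_mod_cast h1.trans h2
          _ = (2 : ℝ) ^ (28 * m) := by push_cast; rfl
      calc _ ≤ (2 : ℝ) ^ (28 * m) * (1 / 2 : ℝ) ^ (128 * m) :=
            mul_le_mul_of_nonneg_right hcard (by positivity)
        _ = (1 / 2 : ℝ) ^ (100 * m) := by
            have e3 : (1 / 2 : ℝ) ^ (128 * m) = (1 / 2 : ℝ) ^ (28 * m) * (1 / 2 : ℝ) ^ (100 * m) := by
              rw [← pow_add]; congr 1; ring
            have e2 : (2 : ℝ) ^ (28 * m) * (1 / 2 : ℝ) ^ (28 * m) = 1 := by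
              rw [← mul_pow]; norm_num
            rw [e3, ← mul_assoc, e2, one_mul]
        _ ≤ (1 / 2 : ℝ) ^ 2 :=
            pow_le_pow_of_le_one (by norm_num) (by norm_num) (by omega)
        _ = 1 / 4 := by norm_num
    linarith
  have hPnr : ∀ p ∈ P, Nat.Coprime p nr := fun p hp =>
    Nat.Coprime.coprime_dvd_right hnrdvd (hPn p hp)
  have := UF_of_good (fun p hp => (hP p hp).1.pos) hg v q (2 * i) hqpos (by omega)
    (smallPart R) t nr V G (Nat.gcd_dvd_right _ _) hnrpos hPnr hsum hV hVpos hG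
  rw [hnt] at this
  exact this.mono (by omega)

theorem sum_union_le_add (A B : Finset ℕ) (f : ℕ → ℝ) (hf : ∀ n, 0 ≤ f n) :
    ∑ s ∈ A ∪ B, f s ≤ ∑ s ∈ A, f s + ∑ s ∈ B, f s := by
  classical
  rw [← Finset.sum_union_inter]
  have : 0 ≤ ∑ s ∈ A ∩ B, f s := Finset.sum_nonneg (fun n _ => hf n)
  linarith

theorem T_bound_V {P : Finset ℕ} (i : ℕ) (hi : 4 ≤ i) (hPle : ∀ p ∈ P, p ≤ 2 ^ (2048 * i))
    {m g : ℕ} (hm : m = 2 ^ (128 * i)) (hg1 : 0 < g) (v : Fin m → Fin g → P) (q : ℕ)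
    (hq : q ≤ 2 ^ (256 * m)) :
    smallPart (2 ^ (64 * i)) * (q ^ (2 * i) * atomTotal v ^ 2) ≤
      2 ^ (8192 * g * (i * m)) := by
  have h1 : smallPart (2 ^ (64 * i)) ≤ 2 ^ m := by
    refine (smallPart_le _).trans ?_
    rw [← pow_mul, ← pow_mul]
    apply Nat.pow_le_pow_right (by norm_num)
    have h2 : 64 * i * 7 ≤ 2 ^ (64 * i) := by
      calc 64 * i * 7 ≤ 2 ^ 9 * (i + 1) := by norm_num; omega
        _ ≤ 2 ^ 9 * 2 ^ i := Nat.mul_le_mul_left _ (two_pow_ge i)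
        _ = 2 ^ (9 + i) := by rw [pow_add]
        _ ≤ 2 ^ (64 * i) := Nat.pow_le_pow_right (by norm_num) (by omega)
    rw [← mul_assoc]
    calc 64 * i * 7 * 2 ^ (64 * i) ≤ 2 ^ (64 * i) * 2 ^ (64 * i) := Nat.mul_le_mul_right _ h2
      _ = m := by rw [hm, ← pow_add]; congr 1; ring
  have h2 : q ^ (2 * i) ≤ 2 ^ (512 * (i * m)) := by
    calc q ^ (2 * i) ≤ (2 ^ (256 * m)) ^ (2 * i) := Nat.pow_le_pow_left hq _
      _ = 2 ^ (512 * (i * m)) := by rw [← pow_mul]; congr 1; ring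
  have h3 : atomTotal v ^ 2 ≤ 2 ^ (4096 * g * (i * m)) := by
    calc atomTotal v ^ 2 ≤ ((2 ^ (2048 * i)) ^ (m * g)) ^ 2 :=
          Nat.pow_le_pow_left (atomTotal_le hPle v) 2
      _ = 2 ^ (4096 * g * (i * m)) := by rw [← pow_mul, ← pow_mul]; congr 1; ring
  calc smallPart (2 ^ (64 * i)) * (q ^ (2 * i) * atomTotal v ^ 2)
      ≤ 2 ^ m * (2 ^ (512 * (i * m)) * 2 ^ (4096 * g * (i * m))) :=
        Nat.mul_le_mul h1 (Nat.mul_le_mul h2 h3)
    _ = 2 ^ (m + (512 * (i * m) + 4096 * g * (i * m))) := by rw [← pow_add, ← pow_add]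
    _ ≤ 2 ^ (8192 * g * (i * m)) := by
        apply Nat.pow_le_pow_right (by norm_num)
        have hm1 : m ≤ i * m := Nat.le_mul_of_pos_left _ (by omega)
        have h5 : 513 * (i * m) ≤ 4096 * g * (i * m) := Nat.mul_le_mul_right _ (by omega)
        have h6 : 8192 * g * (i * m) = 4096 * g * (i * m) + 4096 * g * (i * m) := by ring
        omega

theorem T_structure (g : ℕ) (hg : g = 2 ^ 2048) (hgpos : 0 < g) :
    ∃ i0 : ℕ, 4 ≤ i0 ∧ ∀ i ≥ i0, ∀ P : Finset ℕ,
    (∀ p ∈ P, p.Prime ∧ 2 ^ (2046 * i) < p ∧ p ≤ 2 ^ (2048 * i)) → P.card = 2 ^ (2044 * i) →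
    ∃ V N : ℕ, 0 < V ∧ V ≤ 2 ^ (8192 * g * (i * 2 ^ (128 * i))) ∧
      2 ^ ((256 * 2 ^ (128 * i) - 1) * i) ≤ N ∧
      ∃ GG : Finset ℕ, GG ⊆ Ico N (2 * N) ∧ 3 * N ≤ 4 * GG.card ∧
        ∀ n ∈ GG, ∀ W G : ℕ, V ∣ W → 0 < W → 0 < G → UF ((n : ℚ) / ((W : ℚ) * (G : ℚ))) (16 * i) := by
  classical
  obtain ⟨i1, hi1⟩ := exists_atoms
  refine ⟨max i1 4, le_max_right _ _, ?_⟩
  intro i hi P hP hPc
  have hi4 : 4 ≤ i := (le_max_right _ _).trans hi
  set m := 2 ^ (128 * i) with hm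
  have hmpos : 1 ≤ m := Nat.one_le_two_pow
  -- the prime
  obtain ⟨q, hq, hq1, hq2⟩ := Nat.exists_prime_lt_and_le_two_mul (2 ^ (256 * m - 1)) (by positivity)
  have hq2' : q ≤ 2 ^ (256 * m) := by
    calc q ≤ 2 * 2 ^ (256 * m - 1) := hq2
      _ = 2 ^ (256 * m) := by rw [← pow_succ']; congr 1; omega
  have h2i : 2 * i ≤ q := by
    calc 2 * i ≤ 2 * 2 ^ i := Nat.mul_le_mul_left _ (Nat.lt_two_pow_self).le
      _ = 2 ^ (i + 1) := by rw [pow_succ]; ring
      _ ≤ 2 ^ (256 * m - 1) := by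
          apply Nat.pow_le_pow_right (by norm_num)
          have : i + 1 ≤ 2 ^ i := two_pow_ge i
          have h3 : 2 ^ i ≤ m := Nat.pow_le_pow_right (by norm_num) (by omega)
          omega
      _ ≤ q := hq1.le
  have hNle : q ^ i ≤ 2 ^ (256 * m * i) := by
    rw [pow_mul]; exact Nat.pow_le_pow_left hq2' i
  obtain ⟨v, hv1, hv2, hv3⟩ := hi1 i ((le_max_left _ _).trans hi) P hP hPc m g q (q ^ i) hm hg hq
    hq1.le hq2' hNle
  clear hi1 hg
  set V := smallPart (2 ^ (64 * i)) * (q ^ (2 * i) * atomTotal v ^ 2) with hV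
  have hVpos : 0 < V := Nat.mul_pos (smallPart_pos _) (Nat.mul_pos (Nat.pow_pos hq.pos)
    (Nat.pow_pos (atomTotal_pos (fun p hp => (hP p hp).1.pos) v)))
  set S := P ∪ pow8 (2 ^ (64 * i)) (q ^ i) ∪ badSet v q (2 * i) (2 ^ (64 * i)) (q ^ i) with hS
  have hqi : 2 ^ (2048 * i) ≤ q ^ i := by
    calc 2 ^ (2048 * i) ≤ 2 ^ ((256 * m - 1) * i) := by
          apply Nat.pow_le_pow_right (by norm_num)
          apply Nat.mul_le_mul_right
          have : 2 ^ 4 ≤ m := Nat.pow_le_pow_right (by norm_num) (by omega)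
          omega
      _ ≤ q ^ i := by
          rw [pow_mul]
          exact Nat.pow_le_pow_left hq1.le i
  have hSpos : ∀ s ∈ S, 0 < s ∧ s ≤ 2 * q ^ i := by
    intro s hs
    rw [hS, Finset.mem_union, Finset.mem_union] at hs
    rcases hs with (hs | hs) | hs
    · exact ⟨(hP s hs).1.pos, ((hP s hs).2.2.trans hqi).trans (by omega)⟩
    · unfold pow8 at hs
      obtain ⟨hs1, hs2⟩ := Finset.mem_filter.1 hs
      obtain ⟨p, hp, rfl⟩ := Finset.mem_image.1 hs1
      exact ⟨Nat.pow_pos (Finset.mem_filter.1 hp).2.pos, hs2⟩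
    · unfold badSet at hs
      rw [Finset.mem_union, Finset.mem_union] at hs
      rcases hs with (hs | hs) | hs
      · have h1 := Finset.mem_Icc.1 (Finset.mem_filter.1 hs).1
        refine ⟨lt_of_lt_of_le (by positivity) h1.1, ?_⟩
        refine h1.2.trans ?_
        have h3 : 2 ^ (256 * m) ≤ 2 ^ ((256 * m - 1) * i) := by
          apply Nat.pow_le_pow_right (by norm_num)
          calc 256 * m ≤ (256 * m - 1) * 4 := by omega
            _ ≤ _ := Nat.mul_le_mul_left _ hi4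
        have h4 : 2 ^ ((256 * m - 1) * i) ≤ q ^ i := by
          rw [pow_mul]
          exact Nat.pow_le_pow_left hq1.le i
        omega
      · have h1 := Finset.mem_Ioc.1 (Finset.mem_filter.1 hs).1
        exact ⟨by omega, h1.2⟩
      · have h1 := Finset.mem_Ioc.1 (Finset.mem_filter.1 hs).1
        exact ⟨by omega, h1.2⟩
  have hSsum : ∑ s ∈ S, (1 : ℝ) / s ≤ 1 / 12 := by
    have hnn : ∀ n : ℕ, (0 : ℝ) ≤ 1 / n := fun n => by positivity
    have hPle : ∀ p ∈ P, p ≤ 2 ^ (2048 * i) := fun p hp => (hP p hp).2.2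
    have hb1 := sum_prime_set i hi4 hP hPc
    have hb2 := sum_pow8 (2 ^ (64 * i)) (q ^ i)
    have hb3 := sum_bad3 i hi4 hPle hgpos hm v q hq2' h2i hv1
    have hu1 := sum_union_le_add (P ∪ pow8 (2 ^ (64 * i)) (q ^ i))
      (badSet v q (2 * i) (2 ^ (64 * i)) (q ^ i)) (fun n => (1 : ℝ) / n) hnn
    have hu2 := sum_union_le_add P (pow8 (2 ^ (64 * i)) (q ^ i)) (fun n => (1 : ℝ) / n) hnn
    have hu3 : ∑ s ∈ badSet v q (2 * i) (2 ^ (64 * i)) (q ^ i), (1 : ℝ) / s ≤
        1 / 100 + 1 / 100 + 1 / 100 := by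
      unfold badSet
      refine (sum_union_le_add _ _ (fun n => (1 : ℝ) / n) hnn).trans ?_
      refine add_le_add ((sum_union_le_add _ _ (fun n => (1 : ℝ) / n) hnn).trans ?_) hb3
      exact add_le_add hv2 hv3
    rw [hS]
    linarith
  have hcount := card_filter_dvd_le (q ^ i) S hSpos
  refine ⟨V, q ^ i, hVpos, ?_, ?_, (Ico (q ^ i) (2 * q ^ i)).filter (fun n => ∀ s ∈ S, ¬ s ∣ n),
    Finset.filter_subset _ _, ?_, ?_⟩
  · exact T_bound_V i hi4 (fun p hp => (hP p hp).2.2) hm hgpos v q hq2'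
  · rw [pow_mul]
    exact Nat.pow_le_pow_left hq1.le i
  · have h1 := Finset.card_filter_add_card_filter_not (s := Ico (q ^ i) (2 * q ^ i))
      (fun n => ∀ s ∈ S, ¬ s ∣ n)
    rw [Nat.card_Ico] at h1
    have h2 : (Ico (q ^ i) (2 * q ^ i)).filter (fun n => ¬ ∀ s ∈ S, ¬ s ∣ n) =
        (Ico (q ^ i) (2 * q ^ i)).filter (fun n => ∃ s ∈ S, s ∣ n) := by
      apply Finset.filter_congr
      intro n _
      push Not
      rfl
    rw [h2] at h1
    have h3 : (((Ico (q ^ i) (2 * q ^ i)).filter (fun n => ∃ s ∈ S, s ∣ n)).card : ℝ) ≤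
        (q ^ i : ℕ) / 4 := by
      refine hcount.trans ?_
      have : (0 : ℝ) ≤ ((q ^ i : ℕ) : ℝ) := by positivity
      nlinarith
    have h4 : 4 * ((Ico (q ^ i) (2 * q ^ i)).filter (fun n => ∃ s ∈ S, s ∣ n)).card ≤ q ^ i := by
      have : (4 : ℝ) * (((Ico (q ^ i) (2 * q ^ i)).filter (fun n => ∃ s ∈ S, s ∣ n)).card : ℝ) ≤
        (q ^ i : ℕ) := by linarith
      exact_mod_cast this
    omega
  · intro n hn W G hVW hW hG
    obtain ⟨hn1, hn2⟩ := Finset.mem_filter.1 hn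
    rw [Finset.mem_Ico] at hn1
    exact good_of_avoid i hi4 hP hgpos hm v q hq2' h2i n hn1.1 hn1.2 hn2 W G hVW hW hG

end Vale.Agent.H2.P012
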